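import Vale.Agent.P354RM.Main
import Vale.Agent.P354M0.Main

/-!
The estimates at one frequency for the spin -2.
-/

namespace Vale.Agent.P354RM

theorem mode_neg : P354XT.MODE false := mode_minus P354M0.mode0 P354M0.unc

end Vale.Agent.P354RM
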