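import Mathlib

/-!
The algebra of the three pointwise estimates.
-/

namespace Vale.Agent.P354RM

/-- The inequality of Young for a pairing. -/
def Yg (x n R : ℝ) : Prop := ∀ p q : ℝ, 2 * p * q * x ≤ p ^ 2 * n + q ^ 2 * R

theorem Yg.self {n : ℝ} (h : 0 ≤ n) : Yg n n n := fun p q => by
  nlinarith [mul_nonneg (sq_nonneg (p - q)) h]

theorem sq_mul_le {p c x : ℝ} (h : |p| ≤ c) (hx : 0 ≤ x) : p ^ 2 * x ≤ c ^ 2 * x :=
  mul_le_mul_of_nonneg_right (by rw [← sq_abs p]; exact pow_le_pow_left₀ (abs_nonneg p) h 2) hx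

theorem Yg.bd {x n R q c : ℝ} (y : Yg x n R) (hR : 0 ≤ R) (p : ℝ) (h : |q| ≤ c) :
    2 * p * q * x ≤ p ^ 2 * n + c ^ 2 * R := (y p q).trans (add_le_add le_rfl (sq_mul_le h hR))

/-- The source is measured with the weight 1 / L ^ 2. -/
theorem Yg.div {x n R q c L : ℝ} (y : Yg x n R) (hR : 0 ≤ R) (hL : 1 ≤ L) (p : ℝ) (h : |q| ≤ c) :
    2 * p * q * x ≤ p ^ 2 * (L ^ 2 * n) + c ^ 2 * (R / L ^ 2) := by
  have L0 : 0 < L := by linarith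
  have := y (p * L) (q / L)
  rw [show 2 * (p * L) * (q / L) * x = 2 * p * q * x by field_simp,
    show (q / L) ^ 2 * R = q ^ 2 * (R / L ^ 2) by field_simp] at this
  linarith [sq_mul_le h (by positivity : 0 ≤ R / L ^ 2)]

theorem am {p q c d : ℝ} (h : |p| ≤ c) (h' : |q| ≤ d) : |p * q| ≤ c * d := by
  rw [abs_mul]; exact mul_le_mul h h' (abs_nonneg q) ((abs_nonneg p).trans h)
theorem ab {p c : ℝ} (h : 0 ≤ p) (h' : p ≤ c) : |p| ≤ c := by rwa [abs_of_nonneg h]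
theorem an {p c : ℝ} (h : |p| ≤ c) : |-p| ≤ c := by rwa [abs_neg]
theorem pw {β x : ℝ} (b : 1 ≤ β) (hx : 0 ≤ x) {i j : ℕ} (h : i ≤ j) : β ^ i * x ≤ β ^ j * x :=
  mul_le_mul_of_nonneg_right (pow_le_pow_right₀ b h) hx

theorem kc_cf {β D1 t : ℝ} (b : 1 ≤ β) (E0 : 0 ≤ D1) (Eb : D1 ≤ β) (t0 : t ≤ 0) (t1 : -1 ≤ t) :
    |2 - (4 + 2 * t) * D1| ≤ 8 * β ∧ |t ^ 2 - t| ≤ 2 ∧ 3 + 5 * β ≤ 256 * β ^ 4 :=
  ⟨abs_le.2 ⟨by nlinarith, by nlinarith⟩, abs_le.2 ⟨by nlinarith, by nlinarith⟩, by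
    linarith [pow_le_pow_right₀ b (show 1 ≤ 4 by norm_num), pow_one β]⟩

/-- The part of the current of g K which is proportional to the weight. -/
theorem kc_alg {β D D1 r K om ka L t n ρ σ4 σ5 z1 z2 h2 ell Mu R2 L2 Z2 H2 : ℝ} (b : 1 ≤ β)
    (D0 : 0 ≤ D) (Db : D ≤ β) (E0 : 0 ≤ D1) (Eb : D1 ≤ β) (r0 : 0 ≤ r) (rb : r ≤ β)
    (t0 : t ≤ 0) (t1 : -1 ≤ t) (L1 : 1 ≤ L) (hom : |om| ≤ L) (n0 : 0 ≤ n) (M0 : 0 ≤ Mu)
    (R0 : 0 ≤ R2) (l0 : 0 ≤ L2) (Z0 : 0 ≤ Z2) (H0 : 0 ≤ H2)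
    (a1 : L ^ 2 * n ≤ β * (n + K ^ 2 * n + Mu)) (a2 : Mu ≤ ell + β * (L * n))
    (y1 : Yg ρ n R2) (y2 : Yg σ4 n L2) (y3 : Yg σ5 n L2) (y4 : Yg z1 n Z2) (y5 : Yg z2 n Z2)
    (y6 : Yg h2 n H2) :
    D ^ 2 * (L ^ 2 * n) ≤ 8 * β * (-(20 - 8 * t) * r * om * D ^ 2 * K * n + D ^ 2 * ell +
      (2 - (4 + 2 * t) * D1) * D * K * ρ + D * R2 - 4 * r * om * D ^ 2 * ρ + 4 * D * K * ka * σ4 -
      2 * D * ka * σ5 - D ^ 2 * (t ^ 2 - t) * n + D * (-2 * K * z1 + z2) + D ^ 2 * h2 -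
      4 * t * D * D1 * K ^ 2 * n + 1600 * β ^ 3 * (D ^ 2 * K ^ 2 * n)) +
      4096 * β ^ 8 * (n + R2 + ka ^ 2 * L2 + Z2 + H2 / L ^ 2) := by
  have b0 : 0 ≤ β := zero_le_one.trans b
  have c : ∀ x : ℝ, 0 ≤ x → |x * β| ≤ x * β := fun x hx => ab (mul_nonneg hx b0) le_rfl
  obtain ⟨f1, f2, f3⟩ := kc_cf b E0 Eb t0 t1
  have aD := ab D0 Db
  have ar := ab r0 rb
  have d2 := sq_nonneg D
  have w := sq_mul_le (am (ab D0 le_rfl) hom) n0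
  have dn := sq_mul_le aD n0
  have P0 := mul_nonneg (sq_nonneg (D * K)) n0
  have T1 := Yg.self n0 (D * om) (8 * β * (10 - 4 * t) * r * (D * K))
  have T1' := sq_mul_le (am (am (c 8 (by norm_num))
    (ab (p := 10 - 4 * t) (c := 14) (by linarith) (by linarith))) ar) P0
  have T2 := mul_le_mul_of_nonneg_left a2 (mul_nonneg b0 d2)
  have T2a := (Yg.self n0).bd n0 (D * L) (am (am (c 4 (by norm_num)) (ab b0 le_rfl)) aD)
  have T3 := y1.bd R0 (D * K) (an (am (c 4 (by norm_num)) f1))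
  have T4 := y1.bd R0 (D * om) (am (am (c 16 (by norm_num)) ar) aD)
  have T5 := y2 (D * K) (-(16 * β * ka))
  have T6 := y3 D (8 * β * ka)
  have T7 := mul_le_mul_of_nonneg_right (le_of_abs_le (am (am (am (ab b0 le_rfl) aD) aD) f2)) n0
  have T8 := y4 (D * K) (8 * β)
  have T8' := y5 D (-(4 * β))
  have T9 := y6.div H0 L1 D (an (am (c 4 (by norm_num)) aD))
  have H1 : 0 ≤ H2 / L ^ 2 := div_nonneg H0 (sq_nonneg L)
  have A1 := mul_le_mul_of_nonneg_left a1 d2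
  have A2 := mul_le_mul_of_nonneg_left dn b0
  have A3 := mul_nonneg b0 (mul_nonneg d2 M0)
  have A4 := mul_nonneg (mul_nonneg b0 D0) R0
  have A5 := mul_nonneg (mul_nonneg (mul_nonneg (mul_nonneg b0 (neg_nonneg.2 t0)) D0) E0)
    (mul_nonneg (sq_nonneg K) n0)
  have k0 := mul_nonneg (sq_nonneg ka) l0
  have c1 := mul_le_mul_of_nonneg_right f3 P0
  have b8 := pow_nonneg b0 8
  linarith [pw b n0 (show 6 ≤ 8 by norm_num), pw b n0 (show 3 ≤ 8 by norm_num),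
    pw b n0 (show 2 ≤ 8 by norm_num), pw b R0 (show 4 ≤ 8 by norm_num),
    pw b R0 (show 6 ≤ 8 by norm_num), pw b k0 (show 2 ≤ 8 by norm_num),
    pw b Z0 (show 2 ≤ 8 by norm_num), pw b H1 (show 4 ≤ 8 by norm_num), mul_nonneg b8 R0,
    mul_nonneg b8 k0, mul_nonneg b8 Z0, mul_nonneg b8 H1, mul_nonneg b8 n0]

/-- The whole current of g K; X is the part of kc_alg. -/
theorem kc_fin {β γ κ D D1 K L t n ρ ρ' R2 X Er φ φ1 p : ℝ} (b : 1 ≤ β) (g : 1 ≤ γ) (k0 : 0 ≤ κ)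
    (D0 : 0 ≤ D) (Db : D ≤ β) (E0 : 0 ≤ D1) (Eb : D1 ≤ β) (t0 : t ≤ 0) (t1 : -1 ≤ t) (n0 : 0 ≤ n)
    (R0 : 0 ≤ R2) (hE : n + R2 ≤ Er) (f0 : 0 ≤ φ) (f1 : φ ≤ 1) (f2 : φ1 ≤ -κ * φ + p) (p0 : 0 ≤ p)
    (f3 : |φ1| ≤ γ) (y1 : Yg ρ n R2) (y2 : Yg ρ' n R2)
    (h : D ^ 2 * (L ^ 2 * n) ≤ 8 * β * (X + κ * (D ^ 2 * K ^ 2 * n)) + 4096 * β ^ 8 * Er) :
    φ * (D ^ 2 * (L ^ 2 * n)) ≤ 8 * β * (φ * X - 2 * φ1 * D ^ 2 * (K ^ 2 * n + K * ρ) +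
      ((2 + t) * D * D1 * φ + D ^ 2 * φ1) * ρ' + 3 * p * (D ^ 2 * K ^ 2 * n)) +
      4300 * β ^ 8 * γ ^ 2 * Er := by
  have b0 : 0 ≤ β := zero_le_one.trans b
  have aD := ab D0 Db
  have P0 := mul_nonneg (sq_nonneg (D * K)) n0
  have e1 : κ * φ * ((D * K) ^ 2 * n) - γ * (β ^ 2 * R2) ≤
      -(2 * φ1 * D ^ 2 * (K ^ 2 * n + K * ρ)) + 3 * p * ((D * K) ^ 2 * n) := by
    have u := mul_le_mul_of_nonneg_right f3 (mul_nonneg (sq_nonneg β) R0)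
    have v := mul_le_mul_of_nonneg_right f2 P0
    have w := mul_nonneg p0 P0
    have w' := mul_nonneg (mul_nonneg k0 f0) P0
    rcases le_total φ1 0 with c | c
    · rw [abs_of_nonpos c] at u
      linarith [mul_le_mul_of_nonneg_left (y1.bd R0 (D * K) (an aD)) (neg_nonneg.2 c)]
    · rw [abs_of_nonneg c] at u
      linarith [mul_le_mul_of_nonneg_left (y1.bd R0 (D * K) aD) c]
  have c7 : |(2 + t) * D * D1 * φ + D * D * φ1| ≤ 3 * β ^ 2 * γ := (abs_add_le _ _).trans (by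
    linarith [am (am (am (ab (p := 2 + t) (c := 2) (by linarith) (by linarith)) aD) (ab E0 Eb))
      (ab f0 f1), am (am aD aD) f3, mul_le_mul_of_nonneg_left g (sq_nonneg β)])
  have e2 := y2.bd R0 (1 / 2) (an c7)
  have Er0 : 0 ≤ Er := (add_nonneg n0 R0).trans hE
  have e3 := mul_le_mul_of_nonneg_left h f0
  have b8 := mul_nonneg (pow_nonneg b0 8) Er0
  have e4 := mul_le_mul_of_nonneg_left f1 b8
  have g2 : 1 ≤ γ ^ 2 := one_le_pow₀ g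
  have g3 : γ ≤ γ ^ 2 := le_self_pow₀ g two_ne_zero
  have e5 := mul_le_mul_of_nonneg_left g2 b8
  have e6 := mul_le_mul_of_nonneg_left hE (mul_nonneg (pow_nonneg b0 8) (sq_nonneg γ))
  have e7 := mul_le_mul_of_nonneg_left g3 (mul_nonneg (pow_nonneg b0 3) R0)
  have e8 := mul_le_mul_of_nonneg_left g2 (mul_nonneg (pow_nonneg b0 8) n0)
  have gR := mul_nonneg (sq_nonneg γ) R0
  linarith [mul_le_mul_of_nonneg_left e1 b0, mul_le_mul_of_nonneg_left e2 b0,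
    pw b gR (show 3 ≤ 8 by norm_num), pw b gR (show 5 ≤ 8 by norm_num),
    pw b n0 (show 1 ≤ 8 by norm_num), mul_nonneg (pow_nonneg b0 8) n0]

/-- The Lagrangian with the weight k. -/
theorem lag_alg {β γ D K L t n ell Mu An h ρ B2 H2 k ψ c : ℝ} (b : 1 ≤ β) (g : 1 ≤ γ) (D0 : 0 ≤ D)
    (Db : D ≤ β) (k0 : 0 ≤ k) (hk : D * k ≤ γ * L ^ 2) (hc : |c| ≤ γ * L ^ 2) (ht : t ^ 2 - t ≤ 6)
    (L1 : 1 ≤ L) (n0 : 0 ≤ n) (B0 : 0 ≤ B2) (H0 : 0 ≤ H2)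
    (a1 : L ^ 2 * n ≤ β * (n + K ^ 2 * n + Mu)) (a2 : Mu ≤ ell + β * (L * n))
    (a3 : An ≤ ell + β * (L ^ 2 * n)) (y1 : Yg h n H2) (y2 : Yg ρ n B2) :
    D * k * (L ^ 2 * n + An) ≤ (6 * β ^ 2 + 1) * (k * (B2 - K ^ 2 * n + D * ell) + D * k * h -
      D * k * (t ^ 2 - t) * n + ψ * c * ρ) + 13 * β ^ 3 * (k * K ^ 2 * n + ψ ^ 2 * L ^ 2 * B2) +
      100 * β ^ 5 * γ ^ 2 * (L ^ 2 * n + H2) := by
  have b0 : 0 ≤ β := zero_le_one.trans b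
  have g0 : 0 ≤ γ := zero_le_one.trans g
  have L0 : 0 < L := by linarith
  have l0 := mul_nonneg (sq_nonneg L) n0
  have H1 : 0 ≤ H2 / L ^ 2 := div_nonneg H0 (sq_nonneg L)
  have K0 := mul_nonneg (sq_nonneg K) n0
  have u1 := Yg.self n0 (L / 2) (β ^ 2)
  have u2 := y1.div H0 L1 (1 / 2) (an (ab b0 le_rfl))
  have u3 := y1.div H0 L1 1 (q := -(1 / 2)) (c := 1) (an (ab (by norm_num) (by norm_num)))
  have u4 : L ^ 2 * n ≤ 2 * (2 * β ^ 4 * n + β * (K ^ 2 * n) + β * (ell + h) +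
      β ^ 2 * (H2 / L ^ 2)) := by
    linarith [mul_le_mul_of_nonneg_left a2 b0, pw b n0 (show 1 ≤ 4 by norm_num)]
  have u5 : L ^ 2 * n + An ≤ (6 * β ^ 2 + 1) * (ell + h) + 12 * β ^ 5 * n +
      6 * β ^ 2 * (K ^ 2 * n) + 7 * β ^ 3 * (H2 / L ^ 2) := by
    linarith [mul_le_mul_of_nonneg_left u4 b0, mul_le_mul_of_nonneg_right b l0,
      pw b H1 (show 0 ≤ 3 by norm_num)]
  have v1 : -(ψ * c * ρ) ≤ γ ^ 2 * (L ^ 2 * n) + ψ ^ 2 * L ^ 2 * B2 := by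
    have := y2 (-(c / L)) (ψ * L / 2)
    have e : |-(c / L)| ≤ γ * L := an (by rw [abs_div, abs_of_pos L0, div_le_iff₀ L0]; linarith)
    rw [show 2 * -(c / L) * (ψ * L / 2) * ρ = -(ψ * c * ρ) by field_simp] at this
    linarith [sq_mul_le e n0, mul_nonneg (sq_nonneg (ψ * L)) B0]
  have Dk := mul_nonneg D0 k0
  have v2 := mul_le_mul_of_nonneg_right hk n0
  have v3 : D * k * (H2 / L ^ 2) ≤ γ * H2 :=
    (mul_le_mul_of_nonneg_right hk H1).trans_eq (by field_simp)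
  have v4 := mul_le_mul_of_nonneg_left ht (mul_nonneg Dk n0)
  have g3 : γ ≤ γ ^ 2 := le_self_pow₀ g two_ne_zero
  have v5 := mul_le_mul_of_nonneg_right g3 l0
  have v6 := mul_le_mul_of_nonneg_right g3 H0
  have v7 : D * k * (ell + h) ≤ (k * (B2 - K ^ 2 * n + D * ell) + D * k * h -
      D * k * (t ^ 2 - t) * n + ψ * c * ρ) + (k * K ^ 2 * n + ψ ^ 2 * L ^ 2 * B2) +
      7 * (γ ^ 2 * (L ^ 2 * n)) := by linarith [mul_nonneg k0 B0]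
  have kK := mul_nonneg k0 K0
  have pB := mul_nonneg (sq_nonneg (ψ * L)) B0
  have gl := mul_nonneg (sq_nonneg γ) l0
  have gH := mul_nonneg (sq_nonneg γ) H0
  linarith [mul_le_mul_of_nonneg_left u5 Dk,
    mul_le_mul_of_nonneg_left v7 (by positivity : 0 ≤ 6 * β ^ 2 + 1),
    mul_le_mul_of_nonneg_left (v2.trans (by linarith : _ ≤ γ ^ 2 * (L ^ 2 * n))) (pow_nonneg b0 5),
    mul_le_mul_of_nonneg_left (v3.trans v6) (pow_nonneg b0 3),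
    mul_le_mul_of_nonneg_right Db (mul_nonneg (sq_nonneg β) kK),
    pw b kK (show 0 ≤ 3 by norm_num), pw b kK (show 2 ≤ 3 by norm_num),
    pw b pB (show 0 ≤ 3 by norm_num), pw b pB (show 2 ≤ 3 by norm_num),
    pw b gl (show 0 ≤ 5 by norm_num), pw b gl (show 2 ≤ 5 by norm_num),
    pw b gH (show 3 ≤ 5 by norm_num), mul_nonneg (pow_nonneg b0 5) gl,
    mul_nonneg (pow_nonneg b0 5) gH, mul_nonneg (pow_nonneg b0 3) pB]

theorem co_alg {θ Sg α a D K n d μ B2 Mu : ℝ} (h0 : 0 < θ * Sg) (D0 : 0 ≤ D) (n0 : 0 ≤ n)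
    (h : α ^ 2 + a ^ 2 * D ≤ (θ * Sg) ^ 2) (y1 : Yg d n B2) (y2 : Yg μ n Mu) :
    -(2 * α * K * d) + 2 * a * D * K * μ ≤ θ * Sg * (K ^ 2 * n + B2 + D * Mu) :=
  le_of_mul_le_mul_left (by
    linarith [y1 (α * K) (-(θ * Sg)), mul_le_mul_of_nonneg_left (y2 (a * K) (θ * Sg)) D0,
      mul_le_mul_of_nonneg_right h (mul_nonneg (sq_nonneg K) n0)]) h0

/-- The energy of the multiplier g K. -/
theorem ene_alg {β γ ι η Sg α a D K L t n ell Mu d μ h ρ e B2 H2 E2 φ c : ℝ} (b : 1 ≤ β)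
    (i1 : 1 ≤ ι) (g : 1 ≤ γ) (hι : β ^ 4 ≤ ι * η) (D0 : 0 ≤ D) (Db : D ≤ β) (S0 : 1 ≤ β * Sg)
    (S1 : Sg ≤ β) (f0 : 0 ≤ φ) (f1 : φ ≤ 1) (hc : |c| ≤ γ) (ht : t ^ 2 - t ≤ 6) (L1 : 1 ≤ L)
    (n0 : 0 ≤ n) (B0 : 0 ≤ B2) (H0 : 0 ≤ H2) (E0 : 0 ≤ E2) (M0 : 0 ≤ Mu)
    (a1 : L ^ 2 * n ≤ β * (n + K ^ 2 * n + Mu)) (a2 : Mu ≤ ell + β * (L * n))
    (co : -(2 * α * K * d) + 2 * a * D * K * μ ≤ (1 - η * D) * Sg * (K ^ 2 * n + B2 + D * Mu))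
    (y1 : Yg h n H2) (y2 : Yg ρ n B2) (y3 : Yg e n E2) :
    φ ^ 2 * D ^ 4 * (L ^ 2 * n) ≤ 2 * ι * (4 * D * φ ^ 2 * K * (Sg * K * n + α * d - a * D * μ) +
      2 * D ^ 2 * φ ^ 2 * K * e + (2 * Sg * D * φ ^ 2 * (B2 - K ^ 2 * n + D * ell) +
      D * (2 * Sg * D * φ ^ 2) * h - D * (2 * Sg * D * φ ^ 2) * (t ^ 2 - t) * n + φ * D * c * ρ)) +
      40 * ι ^ 2 * β ^ 5 * γ ^ 2 * (n + E2 + H2 / L ^ 2) := by
  have b0 : 0 ≤ β := zero_le_one.trans b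
  have i0 : 0 ≤ ι := zero_le_one.trans i1
  have s0 : 0 ≤ Sg := by by_contra c; nlinarith
  have aD := ab D0 Db
  have aS := ab s0 S1
  have af := ab f0 f1
  have ai := ab i0 le_rfl
  have H1 : 0 ≤ H2 / L ^ 2 := div_nonneg H0 (sq_nonneg L)
  have K0 := mul_nonneg (sq_nonneg K) n0
  have DM := mul_nonneg D0 M0
  have fD := sq_nonneg (φ * D)
  have W0 := mul_nonneg fD (add_nonneg (add_nonneg K0 B0) DM)
  have u0 : β ^ 3 ≤ ι * η * Sg := by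
    linarith [mul_le_mul_of_nonneg_left S0 (pow_nonneg b0 3), mul_le_mul_of_nonneg_right hι s0]
  have u1 := mul_le_mul_of_nonneg_right u0 W0
  have u2 := mul_le_mul_of_nonneg_left co (mul_nonneg i0 (mul_nonneg D0 (sq_nonneg φ)))
  have u3 := mul_le_mul_of_nonneg_left a2 (mul_nonneg (mul_nonneg i0 s0) fD)
  have u4 := mul_le_mul_of_nonneg_left a1 (sq_nonneg (φ * D ^ 2))
  have u5 := sq_mul_le (am af (am aD aD)) (mul_nonneg b0 n0)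
  have u6 := sq_mul_le aD (mul_nonneg b0 (mul_nonneg fD K0))
  have u7 := mul_le_mul_of_nonneg_right Db (mul_nonneg b0 (mul_nonneg fD DM))
  have w1 := (Yg.self n0).bd n0 (φ * D ^ 2 * L / 2) (am (am (am (am (abs_two.le) ai) aS)
    (ab b0 le_rfl)) af)
  have w2 := y1.div H0 L1 (φ * D ^ 2 / 2) (an (am (am (am abs_two.le ai) aS) af))
  have w3 := y3.bd E0 (φ * D * K) (an (am (am ai aD) af))
  have w4 := y2 (-(ι * c / 2)) (φ * D)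
  have w5 := sq_mul_le (am ai hc) n0
  have w6 := mul_le_mul_of_nonneg_left ht (mul_nonneg (mul_nonneg (mul_nonneg i0 s0) fD) n0)
  have w7 := mul_le_mul_of_nonneg_right (le_of_abs_le (am (am ai aS) (am (am af aD) (am af aD)))) n0
  have i2 : ι ≤ ι ^ 2 := le_self_pow₀ i1 two_ne_zero
  have g2 : 1 ≤ γ ^ 2 := one_le_pow₀ g
  have z := fun x (hx : 0 ≤ x) => mul_le_mul_of_nonneg_left g2
    (mul_nonneg (mul_nonneg (sq_nonneg ι) (pow_nonneg b0 5)) hx)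
  have iq := fun x (hx : 0 ≤ x) => mul_nonneg (sq_nonneg ι) hx
  linarith [z n n0, z E2 E0, z _ H1, pw b (iq n n0) (show 4 ≤ 5 by norm_num),
    pw b (iq n n0) (show 3 ≤ 5 by norm_num), pw b (iq _ H1) (show 2 ≤ 5 by norm_num),
    pw b (iq E2 E0) (show 2 ≤ 5 by norm_num), pw b (iq _ (mul_nonneg (sq_nonneg γ) n0))
      (show 0 ≤ 5 by norm_num), mul_le_mul_of_nonneg_right i2 (mul_nonneg (pow_nonneg b0 3) n0),
    mul_le_mul_of_nonneg_right (i1.trans i2) (mul_nonneg (pow_nonneg b0 5) n0),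
    pw b (mul_nonneg fD K0) (show 0 ≤ 3 by norm_num),
    pw b (mul_nonneg fD B0) (show 0 ≤ 3 by norm_num),
    pw b (mul_nonneg fD DM) (show 2 ≤ 3 by norm_num),
    mul_nonneg (pow_nonneg b0 3) (mul_nonneg fD B0),
    mul_nonneg (pow_nonneg b0 3) (mul_nonneg fD DM),
    mul_nonneg (pow_nonneg b0 5) (iq E2 E0), mul_nonneg (pow_nonneg b0 5) (iq _ H1),
    mul_nonneg (pow_nonneg b0 5) (iq n n0)]

end Vale.Agent.P354RM
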