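import Vale.Agent.P354RM.Opc
import Vale.Agent.P354M0.Defs

/-!
The chain of negative spin, the commutators with Nc, and comparison of norms.
-/

open scoped ContDiff InnerProductSpace
open Set
open Complex (I)
open Vale.Agent.P354BF Vale.Agent.P354XT Vale.Agent.P354XN Vale.Agent.P354RP
open Vale.Agent.P354XH (K ka)
open Vale.Agent.P354M0 (Lv)

noncomputable section

namespace Vale.Agent.P354RM

variable {S : Type} [NormedAddCommGroup S] [InnerProductSpace ℂ S] {G : Ang S}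
  {M a om m x y r : ℝ} {u v z H : ℝ → S}

/-- The operator De d_r - 2 i K + c De'. -/
def Up (c M a om m : ℝ) (z : ℝ → S) (r : ℝ) : S :=
  Lv M a om m z r + ((c * (2 * r - 2 * M) : ℝ) : ℂ) • z r

/-- The operators Kh and D. -/
def oK (e : Op) : Op :=
  .add (.mul (fun p => p.2.2 ^ 2 + p.2.1 ^ 2) (.T e)) (.mul (fun p => p.2.1) (.F e))
def oD (e : Op) : Op := .add (.mul (fun p => De p.1 p.2.1 p.2.2) (.R e)) (oK e)

theorem sm_De : ContDiff ℝ ∞ fun p : ℝ × ℝ × ℝ => De p.1 p.2.1 p.2.2 := by unfold De; fun_prop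
theorem oK_sm {e : Op} (h : e.Sm) : (oK e).Sm := ⟨⟨by fun_prop, h⟩, by fun_prop, h⟩
theorem oD_sm {e : Op} (h : e.Sm) : (oD e).Sm := ⟨⟨sm_De, h⟩, oK_sm h⟩
theorem lh_sm' (c : ℝ) {e : Op} (h : e.Sm) : (Op.lh c e).Sm :=
  ⟨⟨⟨sm_De, h⟩, by fun_prop, h⟩, ⟨by fun_prop, h⟩, by fun_prop, h⟩
theorem oK_ord (e : Op) : (oK e).ord = e.ord + 1 := by simp [oK, Op.ord]
theorem oD_ord (e : Op) : (oD e).ord = e.ord + 1 := by simp [oD, oK, Op.ord]
theorem lh_ord (c : ℝ) (e : Op) : (Op.lh c e).ord = e.ord + 1 := by simp [Op.lh, Op.ord]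

theorem cv_oK (e : Op) : (oK e).cv M a om m v =
    fun r => ((-K a r om m : ℝ) : ℂ) • I • e.cv M a om m v r := funext fun r => by
  simp only [oK, Op.cv, K]; push_cast; module
theorem cv_oD (e : Op) : (oD e).cv M a om m v = D M a om m (e.cv M a om m v) := funext fun r => by
  simp only [oD, Op.cv, cv_oK, D]; push_cast; module
theorem cv_lh (c : ℝ) (e : Op) : (Op.lh c e).cv M a om m v = Up c M a om m (e.cv M a om m v) :=
  funext fun r => by simp only [Op.lh, Op.cv, Up, Lv, K]; push_cast; module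

theorem md_Up (h : G.Is) (hz : G.Md m z) (c M a om : ℝ) : G.Md m (Up c M a om m z) := by
  have := md_cv (M := M) (a := a) (om := om) (m := m) h hz (Op.lh c .one) (lh_sm' c trivial)
  rwa [cv_lh] at this

theorem der_D1 (M r : ℝ) : HasDerivAt (fun t : ℝ => 2 * t - 2 * M) 2 r := by
  simpa using ((hasDerivAt_id r).const_mul 2).sub_const (2 * M)

theorem has_Up (hz : ContDiff ℝ ∞ z) (c M a om m r : ℝ) : HasDerivAt (Up c M a om m z)
    (Up c M a om m (deriv z) r + ((2 * r - 2 * M : ℝ) : ℂ) • deriv z r -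
      ((4 * r * om : ℝ) : ℂ) • I • z r + ((2 * c : ℝ) : ℂ) • z r) r := by
  have := (((der_De M a r).ofReal_comp.smul (cd_has (cd_der hz) r)).sub
    (((der_K a om m r).const_mul 2).ofReal_comp.smul ((cd_has hz r).const_smul I))).add
    (((der_D1 M r).const_mul c).ofReal_comp.smul (cd_has hz r))
  refine this.congr_deriv ?_
  simp only [Up, Lv, Pi.smul_apply]; push_cast; module

/-- The chain: Up (-s) maps the spin s to the spin s + 1. -/
theorem P_Up (h : G.Is) (hz : G.Sm z) (s k M a om m r : ℝ) :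
    G.P (s + 1) k M a om m (Up (-s) M a om m z) r = Up (-s) M a om m (G.P s k M a om m z) r -
      ((2 * (1 + 2 * s) * (om * De M a r) : ℝ) : ℂ) • I • z r := by
  have h1 := h.sm_deriv hz
  have c2 : HasDerivAt (fun t : ℝ => 4 * t * om) (4 * om) r := by
    simpa using ((hasDerivAt_id r).const_mul 4).mul_const om
  have e1 : deriv (Up (-s) M a om m z) = _ := funext fun t => (has_Up hz.cd (-s) M a om m t).deriv
  have e2 := ((((has_Up h1.cd (-s) M a om m r).add ((der_D1 M r).ofReal_comp.smul (h1.has r))).sub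
      (c2.ofReal_comp.smul ((hz.has r).const_smul I))).add
      ((hz.has r).const_smul ((2 * -s : ℝ) : ℂ))).deriv
  rw [P_real, e1]
  refine (congrArg (fun q => (De M a r : ℂ) • q + _ - _ - _ + _ - _) e2).trans ?_
  simp only [Up, Lv, dP h hz, P_real, map_sub, map_add, map_smul, smul_add, smul_sub, smul_smul,
    Pi.smul_apply]
  simp only [K, De]
  push_cast
  match_scalars <;> ring_nf

/-- D of the next member of the chain. -/
theorem D_Up (hz : ContDiff ℝ ∞ z) (c M a om m r : ℝ) :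
    Lv M a om m (D M a om m z) r = D M a om m (Up c M a om m z) r -
      ((c * (2 * r - 2 * M) : ℝ) : ℂ) • D M a om m z r - ((2 * c * De M a r : ℝ) : ℂ) • z r +
      ((2 * r * om * De M a r : ℝ) : ℂ) • I • z r := by
  have : HasDerivAt (D M a om m z) _ r :=
    ((der_De M a r).ofReal_comp.smul (cd_has (cd_der hz) r)).sub
      ((der_K a om m r).ofReal_comp.smul ((cd_has hz r).const_smul I))
  rw [Lv, this.deriv]
  simp only [D, (has_Up hz c M a om m r).deriv, Up, Lv, smul_add, smul_sub, smul_smul]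
  push_cast
  match_scalars <;> ring_nf

variable {f : ℝ × ℝ × ℝ → ℝ}

/-- The coefficient of the radial derivative in Nc. -/
def aN (f : ℝ × ℝ × ℝ → ℝ) (p : ℝ × ℝ × ℝ) : ℝ :=
  2 * (p.2.2 ^ 2 + p.2.1 ^ 2 - De p.1 p.2.1 p.2.2 * f p)

theorem aN_sm (hf : ContDiff ℝ ∞ f) : ContDiff ℝ ∞ (aN f) := by unfold aN De; fun_prop

/-- The commutator of an operator with Nc. -/
def cm (f : ℝ × ℝ × ℝ → ℝ) : Op → Op
  | .one => .mul (fun _ => 0) .one
  | .T e => .T (cm f e)
  | .R e => .add (.R (cm f e)) (.add (.mul (d3 (aN f)) (.R e))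
      (.add (.mul (fun p => -2 * d3 f p) (oK e)) (.mul (fun p => -4 * p.2.2 * f p) (.T e))))
  | .F e => .F (cm f e)
  | .mul c e => .add (.mul c (cm f e)) (.mul (fun p => -(aN f p * d3 c p)) e)
  | .add e e' => .add (cm f e) (cm f e')

theorem cm_ord : ∀ e : Op, (cm f e).ord ≤ e.ord
  | .one => le_rfl
  | .T e => Nat.succ_le_succ (cm_ord e)
  | .R e => by have := cm_ord e; simp only [cm, Op.ord, oK_ord]; omega
  | .F e => Nat.succ_le_succ (cm_ord e)
  | .mul _ e => by have := cm_ord e; simp only [cm, Op.ord]; omega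
  | .add e e' => max_le_max (cm_ord e) (cm_ord e')

theorem cm_sm (hf : ContDiff ℝ ∞ f) : ∀ e : Op, e.Sm → (cm f e).Sm
  | .one, _ => ⟨contDiff_const, trivial⟩
  | .T e, h => cm_sm hf e h
  | .R e, h => ⟨cm_sm hf e h, ⟨d3_sm (aN_sm hf), h⟩, ⟨contDiff_const.mul (d3_sm hf), oK_sm h⟩,
      by fun_prop, h⟩
  | .F e, h => cm_sm hf e h
  | .mul _ e, h => ⟨⟨h.1, cm_sm hf e h.2⟩, ((aN_sm hf).mul (d3_sm h.1)).neg, h.2⟩
  | .add e e', h => ⟨cm_sm hf e h.1, cm_sm hf e' h.2⟩

theorem Nc_eq (f : ℝ × ℝ × ℝ → ℝ) (z : ℝ → S) (r : ℝ) :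
    Nc G (fun r => f (M, a, r)) M a om m z r = (aN f (M, a, r) : ℂ) • deriv z r +
      ((2 * f (M, a, r) * K a r om m : ℝ) : ℂ) • I • z r + ((2 * a * m : ℝ) : ℂ) • I • z r -
      ((2 * a ^ 2 * om : ℝ) : ℂ) • I • (z r - G.w 2 (G.w 2 (z r))) := by
  simp only [Nc, aN, Kf_real]; push_cast; module

theorem has_w {z1 : S} (hz : HasDerivAt z z1 r) : HasDerivAt (fun t => G.w 2 (z t)) (G.w 2 z1) r :=
  ((G.w 2).restrictScalars ℝ).hasFDerivAt.comp_hasDerivAt r hz

theorem cd_Nc (hf : ContDiff ℝ ∞ f) (hz : ContDiff ℝ ∞ z) :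
    ContDiff ℝ ∞ (Nc G (fun r => f (M, a, r)) M a om m z) := by
  have w := ((G.w 2).restrictScalars ℝ).contDiff (n := ∞)
  rw [show Nc G (fun r => f (M, a, r)) M a om m z = _ from funext (Nc_eq f z)]
  exact ((((cd_C (sm3 (aN_sm hf) M a)).smul (cd_der hz)).add ((cd_C ((contDiff_const.mul
    (sm3 hf M a)).mul (cd_K a om m))).smul (hz.const_smul I))).add
    ((hz.const_smul I).const_smul _)).sub
    (((hz.sub (w.comp (w.comp hz))).const_smul I).const_smul _)

theorem Nc_smul {c : ℝ → ℂ} {c1 : ℂ} (hc : HasDerivAt c c1 r) (hz : ContDiff ℝ ∞ z) :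
    Nc G (fun r => f (M, a, r)) M a om m (fun t => c t • z t) r =
      c r • Nc G (fun r => f (M, a, r)) M a om m z r + ((aN f (M, a, r) : ℂ) * c1) • z r := by
  rw [Nc_eq, Nc_eq, (hc.fun_smul (cd_has hz r)).deriv]
  simp only [map_smul]; module

theorem cv_Nc (hf : ContDiff ℝ ∞ f) (hv : ContDiff ℝ ∞ v) : ∀ e : Op, e.Sm →
    e.cv M a om m (Nc G (fun r => f (M, a, r)) M a om m v) = fun r =>
      Nc G (fun r => f (M, a, r)) M a om m (e.cv M a om m v) r + (cm f e).cv M a om m v r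
  | .one, _ => funext fun r => by simp [cm, Op.cv]
  | .T e, h => funext fun r => by
    simp only [cm, Op.cv, cv_Nc hf hv e h, Nc_smul (hasDerivAt_const r _) (cd_cv hv e h)]; module
  | .F e, h => funext fun r => by
    simp only [cm, Op.cv, cv_Nc hf hv e h, Nc_smul (hasDerivAt_const r _) (cd_cv hv e h)]; module
  | .mul c e, h => funext fun r => by
    simp only [cm, Op.cv, cv_Nc hf hv e h.2,
      Nc_smul (cd_has (sm3 h.1 M a) r).ofReal_comp (cd_cv hv e h.2), d3_eq h.1]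
    push_cast; module
  | .add e e', h => funext fun r => by
    simp only [cm, Op.cv, cv_Nc hf hv e h.1, cv_Nc hf hv e' h.2, Nc_eq, map_add,
      ((cd_has (cd_cv hv e h.1) r).fun_add (cd_has (cd_cv hv e' h.2) r)).deriv]
    module
  | .R e, h => funext fun r => by
    have hz := cd_cv (M := M) (a := a) (om := om) (m := m) hv e h
    have d0 := cd_has hz r
    have := ((((((cd_has (sm3 (aN_sm hf) M a) r).ofReal_comp.fun_smul (cd_has (cd_der hz) r)).fun_add
      (((((cd_has (sm3 hf M a) r).const_mul 2).fun_mul (der_K a om m r)).ofReal_comp).fun_smul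
        (d0.fun_const_smul I))).fun_add ((d0.fun_const_smul I).fun_const_smul
        ((2 * a * m : ℝ) : ℂ))).fun_sub (((d0.fun_sub (has_w (G := G) (has_w (G := G) d0))).fun_const_smul
        I).fun_const_smul ((2 * a ^ 2 * om : ℝ) : ℂ))).fun_add
        (cd_has (cd_cv (M := M) (a := a) (om := om) (m := m) hv _ (cm_sm hf e h)) r)).deriv
    simp only [cm, Op.cv, cv_Nc hf hv e h, Nc_eq, this, cv_oK, d3_eq hf, d3_eq (aN_sm hf)]
    push_cast; module

theorem An_cv {M0 a0 : ℝ} {k : ℕ} (e : Op) (h : e.Sm) (hk : e.ord ≤ k) :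
    ∃ C, 0 ≤ C ∧ ∀ M a r, |M - M0| ≤ 1 → |a - a0| ≤ 1 → r ∈ Icc x y →
      ∀ (S : Type) [NormedAddCommGroup S] [InnerProductSpace ℂ S] (G : Ang S), G.Is →
      ∀ (om m : ℝ) (v : ℝ → S), G.Md m v →
        An G (e.cv M a om m v r) ≤ C * ∑ i, V om m k (fun r => G.L i (v r)) r :=
  (cv_bd M0 a0 x y e h hk).imp fun C b => ⟨b.1, fun M a r h1 h2 h3 S _ _ G hG om m v hv => by
    rw [An, Finset.mul_sum]
    exact Finset.sum_le_sum fun i _ => by
      rw [congrFun (L_cv hG hv i e h) r]; exact b.2 M a r h1 h2 h3 S om m _ (hv.1.L i).cd⟩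

theorem Wn_nonneg (n : ℕ) : 0 ≤ Wn G om m n v r := by
  have := (lam_pos om m).le
  unfold Wn; positivity

theorem pow_V (j k : ℕ) : lam om m ^ j * V om m k v r =
    ∑ i ∈ Finset.range (k + 1), lam om m ^ (j + k - i) * ‖iteratedDeriv i v r‖ ^ 2 := by
  rw [V, Finset.mul_sum]
  refine Finset.sum_congr rfl fun i hi => ?_
  rw [Nat.add_sub_assoc (Nat.lt_succ_iff.1 (Finset.mem_range.1 hi)), pow_add, mul_assoc]

theorem V_Wn (hG : G.Is) (hv : G.Sm v) (j : ℕ) :
    lam om m ^ j * (V om m 3 v r + ∑ i, V om m 2 (fun r => G.L i (v r)) r) ≤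
      Wn G om m (j + 3) v r := by
  have := (lam_pos om m).le
  rw [mul_add, Finset.mul_sum, Wn]
  simp only [pow_V, hG.iter_L hv]
  rw [Finset.sum_comm]
  simp only [← Finset.mul_sum, show j + 3 - 1 = j + 2 from rfl]
  exact le_add_of_nonneg_right (by positivity)

theorem cont_Wn (hG : G.Is) (hv : G.Sm v) (n : ℕ) : Continuous (Wn G om m n v) := by
  have c := fun j => hG.sm_iter hv j
  refine Continuous.add (Continuous.add ?_ ?_) ?_ <;> refine continuous_finsetSum _ fun j _ =>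
    continuous_const.mul ?_
  · exact (c j).cont.norm.pow 2
  · exact continuous_finsetSum _ fun i _ => ((c j).L i).cont.norm.pow 2
  · simp only [G.cas_apply]
    exact (continuous_finsetSum _ fun i _ => (((c j).L i).L i).cont).neg.norm.pow 2

theorem d1_eq (z : ℝ → S) (r : ℝ) : d1 G om m z r = V om m 1 z r + An G (z r) := by
  rw [d1, V_one, An]; ring

theorem cont_d1 (hv : G.Sm v) : Continuous (d1 G om m v) := by
  rw [show d1 G om m v = _ from funext (d1_eq v)]
  exact (cont_V hv.cd 1).add (cont_An hv)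

end Vale.Agent.P354RM
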