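import Vale.Agent.P354SC.Defs
import Vale.Agent.P354XY.Out

/-!
The function which describes the initial slice in the far chart.
-/

open scoped ContDiff
open Set Filter Topology

noncomputable section

namespace Vale.Agent.P354RM

open Vale.Agent.P354I (rm rp)
open Vale.Agent.P354R (Del)
open Vale.Agent.P354XE Vale.Agent.P354XA Vale.Agent.P354SC
open Vale.Agent.P354SA (fz)
open Vale.Agent.P354YI (Oj)
open Vale.Agent.P354YQ (JD)

variable {M a r μ : ℝ}

theorem lo_bd (h : |a| < M) (hM : M ≤ μ) (hr : 4 * μ + 1 ≤ r) :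
    |lo1 M a r - 1| ≤ 8 * μ * r⁻¹ := by
  have h0 := (hor h).1
  have r0 : 0 < r := by linarith
  have d : r ^ 2 / 2 ≤ Del M a r := by unfold Del; nlinarith [sq_nonneg a]
  have d0 : 0 < Del M a r := lt_of_lt_of_le (by positivity) d
  have e : lo1 M a r - 1 = 4 * M * r / Del M a r := by
    rw [lo1, eq_div_iff d0.ne']; field_simp; unfold Del; ring
  rw [e, abs_of_nonneg (by positivity), ← div_eq_mul_inv, div_le_div_iff₀ d0 r0]
  nlinarith [mul_le_mul_of_nonneg_left d (h0.le.trans hM), mul_le_mul_of_nonneg_right hM (sq_nonneg r)]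

theorem psi_bd (h : |a| < M) (hM : M ≤ μ) (hr : 4 * μ + 1 ≤ r) :
    |psi M a r - r| ≤ 4 * (ka M a)⁻¹ * √r := by
  obtain ⟨h0, h1, h2, h3, h4, -⟩ := hor h
  have l : ∀ c, 0 ≤ c → c ≤ 2 * M → 0 ≤ Real.log (r - c) ∧ Real.log (r - c) ≤ 2 * √r :=
    fun c c0 c1 => ⟨Real.log_nonneg (by linarith), by
      have := Real.log_le_sub_one_of_pos (Real.sqrt_pos.2 (show 0 < r by linarith))
      rw [Real.log_sqrt (by linarith)] at this
      linarith [Real.log_le_log (show 0 < r - c by linarith) (show r - c ≤ r by linarith)]⟩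
  have k1 := l _ (h1.trans h2.le) h3
  have k2 := l _ h1 (h2.le.trans h3)
  have q0 : 0 ≤ rm M a / rp M a := div_nonneg h1 (h1.trans h2.le)
  have q1 : rm M a / rp M a ≤ 1 := div_le_one_of_le₀ h2.le (h1.trans h2.le)
  rw [psi, add_sub_cancel_left, abs_div, abs_of_pos h4, div_eq_mul_inv, mul_right_comm]
  refine mul_le_mul_of_nonneg_right (abs_le.2 ⟨?_, ?_⟩) (inv_nonneg.2 h4.le) <;>
    nlinarith [mul_nonneg q0 k2.1, mul_le_mul_of_nonneg_right q1 k2.1]

theorem o_lo {J : Type} {M a r : J → ℝ} {n : ℕ} (h : ∀ j, |a j| < M j) (hM : ∀ j, M j ≤ μ)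
    (hr : ∀ j, 4 * μ + 1 ≤ r j) : Oj n (0 : J → ℝ) (fun j ξ => lo1 (M j) (a j) (r j + r j * ξ)) 1 := by
  have h0 := fun j => (hor (h j)).1
  have r0 : ∀ j, 0 < r j := fun j => by linarith [h0 j, hM j, hr j]
  have u : ∀ j, |M j / r j| ≤ 1 / 4 := fun j => by
    rw [abs_of_pos (div_pos (h0 j) (r0 j)), div_le_iff₀ (r0 j)]; linarith [hr j, hM j]
  have w : ∀ j, |a j / r j| ≤ 1 / 4 := fun j => by
    rw [abs_div, abs_of_pos (r0 j), div_le_iff₀ (r0 j)]; linarith [hr j, hM j, h j]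
  have x : Oj n (0 : J → ℝ) (fun _ ξ => 1 + ξ) 1 := (Oj.cst 1).add (o_lin (.id ℝ ℝ))
  have k := o_inv (((o_mull x x).sub (o_sm 2 (o_mull (o_bd u) x))).add
    (o_mull (o_bd w) (o_bd w))) (c := 1 / 2) one_half_pos fun j => by
      have := (abs_le.1 (u j)).2
      simp only [Pi.zero_apply, add_zero, mul_one]
      nlinarith [mul_self_nonneg (a j / r j)]
  refine ((o_mull (o_sm 2 ((o_mull x x).add (o_mull (o_bd w) (o_bd w)))) k).sub
    (Oj.cst 1)).congr' fun j ξ => ?_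
  have := (r0 j).ne'
  rw [lo1, show Del (M j) (a j) (r j + r j * ξ) = r j ^ 2 * ((1 + ξ) * (1 + ξ) -
    2 * (M j / r j * (1 + ξ)) + a j / r j * (a j / r j)) by unfold Del; field_simp, div_eq_mul_inv,
    mul_inv, ← mul_assoc]
  field_simp

theorem fz_der {q : Par} (h : |a| < M) (h' : |q.a| < q.M) (k : rp M a < r) (k' : rp q.M q.a < r) :
    HasDerivAt (fz M a q) (q.l * lo1 q.M q.a r - (lo1 M a r - 1) / 2) r :=
  ((psi_deriv h' k').const_mul _).sub (((psi_deriv h k).sub (hasDerivAt_id r)).div_const 2)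

theorem fz_cd {q : Par} (h : |a| < M) (h' : |q.a| < q.M) (k : rp M a < r) (k' : rp q.M q.a < r) :
    ContDiffAt ℝ ∞ (fz M a q) r :=
  (contDiffAt_const.mul (psi_cd h' k')).sub (((psi_cd h k).sub contDiffAt_id).div_const 2)

theorem hfz : HFZ := fun M a h => by
  obtain ⟨h0, -, h2, h3, h4, -⟩ := hor h
  obtain ⟨ε0, p0, H⟩ := (nhdsGT_basis (0 : ℝ)).eventually_iff.1 (P354XY.par_near h h2)
  refine ⟨ε0 / 2, half_pos p0, 4 * (M + 1) + 1, fun n => ?_⟩
  let J := {p : Par × ℝ // |p.1.a| < p.1.M ∧ p.1.M ≤ M + 1 ∧ |p.1.l| ≤ 2 ∧ 4 * (M + 1) + 1 ≤ p.2}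
  have r0 : ∀ j : J, 0 ≤ j.1.2 := fun j => by linarith [j.2.2.2.2]
  obtain ⟨C, C0, hC⟩ := (((o_mull (o_par r0) ((o_mull (o_bd fun j : J => j.2.2.2.1)
    (o_lo (n := n) (fun j : J => j.2.1) (fun j => j.2.2.1) fun j => j.2.2.2.2)).sub (o_sm (1 / 2)
    ((o_lo (fun _ : J => h) (fun _ => le_add_of_nonneg_right zero_le_one) fun j => j.2.2.2.2).sub
    (Oj.cst 1)))))).clm (ContinuousLinearMap.mul ℝ ℝ)).bd
  have k0 := (inv_pos.2 h4).le
  refine ⟨C + 20 * (M + 1) + 10 * ((ka M a)⁻¹ + 1), fun q ε e r hq e0 e1 hr => ?_⟩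
  have ep : 0 < ε := (abs_nonneg _).trans_lt hq.1
  obtain ⟨q1, q2, q3, q4, q5, -⟩ := H ⟨ep, by linarith⟩ q hq
  have ql : |q.l| ≤ 2 := abs_le.2 ⟨by linarith, by linarith⟩
  have qe : |q.l - 1| ≤ e := hq.2.2.1.le.trans e1
  have rp0 : 0 < r := by linarith
  have k : rp M a < r := by linarith
  have k' : rp q.M q.a < r := by linarith [(hor q1).2.2.2.1]
  have m1 : M ≤ M + 1 := le_add_of_nonneg_right zero_le_one
  have ev : ∀ᶠ ξ in 𝓝 (0 : ℝ), rp M a < r + r * ξ ∧ rp q.M q.a < r + r * ξ :=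
    have c : ContinuousAt (fun ξ : ℝ => r + r * ξ) 0 := by fun_prop
    (c.eventually_const_lt (by simpa using k)).and (c.eventually_const_lt (by simpa using k'))
  refine ⟨⟨ev.mono fun ξ t => (fz_cd h q1 t.1 t.2).comp (f := fun ξ => r + r * ξ) ξ
    (by fun_prop), fun i i1 i2 => ?_⟩, ?_, ?_⟩
  · obtain ⟨i, rfl⟩ : ∃ l, i = l + 1 := ⟨i - 1, by omega⟩
    rw [← norm_iteratedFDeriv_fderiv]
    refine (((hC ⟨(q, r), q1, q2, ql, hr⟩).congr (ev.mono fun ξ t => ?_)) i (by omega)).trans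
      (mul_le_mul_of_nonneg_right (by linarith) rp0.le)
    refine ((fz_der h q1 t.1 t.2).comp ξ
      (((hasDerivAt_id' ξ).const_mul r).const_add r)).hasFDerivAt.fderiv.trans ?_
    ext
    simp
    ring
  · have ri := (inv_pos.2 rp0).le
    have e0 : 0 ≤ e := ep.le.trans e1
    rw [(fz_der h q1 k k').deriv, show q.l * lo1 q.M q.a r - (lo1 M a r - 1) / 2 - 1 =
      q.l - 1 + q.l * (lo1 q.M q.a r - 1) - (lo1 M a r - 1) / 2 by ring]
    refine (abs_sub _ _).trans ((add_le_add (abs_add_le _ _) le_rfl).trans ?_)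
    rw [abs_mul, abs_div, abs_two]
    nlinarith [mul_le_mul ql (lo_bd q1 q2 hr) (abs_nonneg _) zero_le_two, lo_bd h m1 hr,
      mul_nonneg C0 ri, mul_nonneg C0 e0, mul_nonneg k0 ri, mul_nonneg k0 e0, mul_nonneg h0.le e0]
  · have ri := Real.sqrt_nonneg r
    have e0 : 0 ≤ e * r := mul_nonneg (ep.le.trans e1) rp0.le
    rw [show fz M a q r - r = (q.l - 1) * r + q.l * (psi q.M q.a r - r) - (psi M a r - r) / 2 by
      change q.l * psi q.M q.a r - (psi M a r - r) / 2 - r = _; ring]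
    refine (abs_sub _ _).trans ((add_le_add (abs_add_le _ _) le_rfl).trans ?_)
    rw [abs_mul, abs_mul, abs_div, abs_two, abs_of_pos rp0]
    nlinarith [mul_le_mul ql (psi_bd q1 q2 hr) (abs_nonneg _) zero_le_two, psi_bd h m1 hr,
      mul_le_mul_of_nonneg_right q5 ri, mul_le_mul_of_nonneg_right qe rp0.le, mul_nonneg C0 ri,
      mul_nonneg C0 e0, mul_nonneg k0 e0, mul_nonneg h0.le e0, mul_nonneg h0.le ri, mul_nonneg k0 ri]

end Vale.Agent.P354RM
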