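import Vale.Agent.P354RM.Inv

/-!
The two steps of the recovery in the norms of the final estimate.
-/

open scoped ContDiff InnerProductSpace
open Set MeasureTheory
open Complex (I)
open Vale.Agent.P354BF Vale.Agent.P354XT Vale.Agent.P354RP
open Vale.Agent.P354XN hiding up
open Vale.Agent.P354XH (K ka)
open Vale.Agent.P354M0 (Lv int_add)

noncomputable section

namespace Vale.Agent.P354RM

theorem int_lo {x y x' y' c c' B : ℝ} {W P L T : ℝ → ℝ} (h1 : x ≤ x') (h2 : x' ≤ y') (h3 : y' ≤ y)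
    (cW : Continuous W) (cP : Continuous P) (cL : Continuous L) (cT : Continuous T) (hB : 0 ≤ B)
    (l0 : ∀ r, 0 ≤ L r) (t0 : ∀ r, 0 ≤ T r)
    (h : ∀ r ∈ Icc x' y', c * W r ≤ c' * P r + B * (L r + T r)) :
    c * ∫ r in x'..y', W r ≤
      c' * (∫ r in x'..y', P r) + B * ((∫ r in x..y, L r) + ∫ r in x..y, T r) := by
  have := int_mono h2 (by fun_prop) (by fun_prop) h
  rw [intervalIntegral.integral_const_mul, int_add (by fun_prop) (by fun_prop),
    intervalIntegral.integral_const_mul, intervalIntegral.integral_const_mul, int_add cL cT] at this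
  exact this.trans (add_le_add le_rfl (mul_le_mul_of_nonneg_left (add_le_add
    (int_sub cL.continuousOn (fun r _ => l0 r) h1 h2 h3)
    (int_sub cT.continuousOn (fun r _ => t0 r) h1 h2 h3)) hB))

theorem int_sc {x y x' y' c B : ℝ} {W L : ℝ → ℝ} (h1 : x ≤ x') (h2 : x' ≤ y') (h3 : y' ≤ y)
    (cW : Continuous W) (cL : Continuous L) (hB : 0 ≤ B) (l0 : ∀ r ∈ Icc x y, 0 ≤ L r)
    (h : ∀ r ∈ Icc x' y', c * W r ≤ B * L r) :
    c * ∫ r in x'..y', W r ≤ B * ∫ r in x..y, L r := by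
  rw [← intervalIntegral.integral_const_mul, ← intervalIntegral.integral_const_mul]
  exact int_in h1 h2 h3 (by fun_prop) (by fun_prop) h fun r hr => mul_nonneg hB (l0 r hr)

variable {S : Type} [NormedAddCommGroup S] [InnerProductSpace ℂ S] {G : Ang S}
  {B Ck M a om m r0 r1 R x x' y y' c e C : ℝ} {v : ℝ → S} {f : ℝ × ℝ × ℝ → ℝ} {ϑ χ : ℝ → ℝ}

/-- The hypotheses at one frequency. -/
structure Hy (G : Ang S) (f : ℝ × ℝ × ℝ → ℝ) (ϑ : ℝ → ℝ) (B Ck M a m r0 r1 R : ℝ) (v : ℝ → S) :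
    Prop where
  is : G.Is
  s2 : |G.s| = 2
  md : G.Md m v
  sf : ContDiff ℝ ∞ f
  st : ContDiff ℝ ∞ ϑ
  b1 : 1 ≤ B
  bo : ∀ r ∈ Icc r0 R, ∀ i, Bo B M a r (ops f i)
  k0 : 0 ≤ Ck
  k1 : ∀ r ∈ Icc r0 r1, Bo Ck M a r (oK (oD .one), 2)
  k2 : ∀ r ∈ Icc r0 r1, Bo Ck M a r (oK (oD oy), 3)

/-- The integrals. -/
def iL (om m : ℝ) (j : ℕ) (v : ℝ → S) (x y : ℝ) : ℝ :=
  ∫ r in x..y, lam om m ^ (j + 2) * V om m 2 v r
def iW (G : Ang S) (om m : ℝ) (n : ℕ) (v : ℝ → S) (x y : ℝ) : ℝ := ∫ r in x..y, Wn G om m n v r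

theorem V3_Wn (hG : G.Is) (hv : G.Sm v) (j : ℕ) (r : ℝ) :
    lam om m ^ j * V om m 3 v r ≤ Wn G om m (j + 3) v r :=
  le_trans (mul_le_mul_of_nonneg_left (le_add_of_nonneg_right
    (Finset.sum_nonneg fun _ _ => V_nonneg _)) (pow_pos (lam_pos om m) j).le) (V_Wn hG hv j)

namespace Hy
variable (h : Hy G f ϑ B Ck M a m r0 r1 R v)
include h

theorem my : G.Md m (Up 2 M a om m v) := md_Up h.is h.md 2 M a om
theorem mu : G.Md m (Up 1 M a om m (Up 2 M a om m v)) := md_Up h.is h.my 1 M a om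
theorem sF : G.Sm (G.P (-2) G.s M a om m v) := h.is.sm_P h.md.1 _ _ _ _ _ _
theorem cL (j : ℕ) : Continuous fun r => lam om m ^ (j + 2) * V om m 2 v r :=
  continuous_const.mul (cont_V h.md.1.cd 2)
theorem b0 : 0 ≤ 10 * B := by linarith [h.b1]

theorem two (j : ℕ) (st : Stp f ϑ χ (-2) M a x r1 y' y c e C) (h1 : r0 ≤ x) (h2 : x ≤ r1)
    (h3 : r1 ≤ y) (h4 : y ≤ R) (e0 : 0 ≤ e) (C0 : 0 ≤ C) :
    c * (lam om m ^ (j + 3) * ∫ r in r1..y', Ou G M a om m (ta M a om m ϑ) v r) ≤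
      lam om m ^ (j + 3) * (∫ r in x..y, Pr M a om m χ ((oD .one).cv M a om m v)
        ((oD .one).cv M a om m (G.P (-2) G.s M a om m v)) r) + e * Ck * iW G om m (j + 5) v r0 r1 +
      C * (lam om m ^ (j + 2) * (∫ r in x..y, Ou G M a om m (ta M a om m ϑ) (Up 2 M a om m v) r) +
        10 * B * (iL om m j v r0 R + iW G om m (j + 3) (G.P (-2) G.s M a om m v) r0 R)) ∧
    c * (lam om m ^ (j + 3) * ∫ r in r1..y', Ou G M a om m (fun _ => lam om m) v r) ≤
      lam om m ^ (j + 3) * (∫ r in x..y, Pr M a om m χ ((oD .one).cv M a om m v)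
        ((oD .one).cv M a om m (Nc G (fun r => f (M, a, r)) M a om m v)) r) +
      C * (lam om m ^ (j + 2) * (∫ r in x..y, Ou G M a om m (fun _ => lam om m)
        (Up 2 M a om m v) r) +
        10 * B * (iW G om m (j + 4) v r0 R + iW G om m (j + 3) (G.P (-2) G.s M a om m v) r0 R)) := by
  have l0 := (pow_pos (lam_pos om m) (j + 3)).le
  have cτ := cont_ta (M := M) (a := a) (om := om) (m := m) h.st.continuous
  obtain ⟨cT, cE⟩ := cont_Tb (s := -2) (M := M) (a := a) (om := om) h.is h.md cτ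
  have cm1 := (cd_cv (M := M) (a := a) (om := om) (m := m) h.md.1.cd _
    (cm_sm h.sf _ (oD_sm (e := .one) trivial))).continuous
  have lw := fun (τ : ℝ → ℝ) (r : ℝ) (hr : r ∈ Icc x y) (t : 0 ≤ τ r) => low (om := om) h.is h.md h.b1
    (h.bo r ⟨h1.trans hr.1, hr.2.trans h4⟩) j t rfl rfl rfl rfl rfl rfl rfl
  constructor
  · have u := mul_le_mul_of_nonneg_left (st S G h.is h.s2 om m v h.md (fun _ => 0)
      continuous_const).1 l0
    have u1 := int_lo h1 (h2.trans h3) h4 (by fun_prop) (cont_Ou h.is h.my.1 cτ) (h.cL j)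
      (cont_Wn h.is h.sF _) h.b0 (fun r => mul_nonneg (pow_pos (lam_pos om m) _).le (V_nonneg _))
      (fun r => Wn_nonneg _) fun r hr => (lw (ta M a om m ϑ) r hr (zero_le_one.trans ta_pos)).1
    have cw := (sm_D h.is h.md.1 M a om m).cont
    have cK := (cd_K a om m).continuous
    have u2 := int_sc (c := lam om m ^ (j + 3))
      (W := fun r => K a r om m ^ 2 * ‖D M a om m v r‖ ^ 2) h1 h2 le_rfl (by fun_prop)
      (cont_Wn (om := om) (m := m) h.is h.md.1 (j + 5)) h.k0 (fun r _ => Wn_nonneg _) fun r hr => by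
        have := h.k1 r ⟨h1.trans hr.1, hr.2⟩ S om m v h.md.1.cd
        simp only [cv_oK, cv_oD, Op.cv, nsqI, neg_sq] at this
        have w : _ ≤ Wn G om m (j + 5) v r := V3_Wn h.is h.md.1 (j + 2) r
        have := mul_le_mul_of_nonneg_left this l0
        rw [show lam om m ^ (j + 3) = lam om m ^ (j + 2) * lam om m from pow_succ _ _] at this ⊢
        linarith [mul_le_mul_of_nonneg_left w h.k0, mul_le_mul_of_nonneg_left
          (show _ ≤ V om m 3 v r from lam_V 2)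
          (mul_nonneg h.k0 (pow_pos (lam_pos om m) (j + 2)).le)]
    simp only [cv_oD, Op.cv, add_zero, iL, iW] at u ⊢
    linarith [mul_le_mul_of_nonneg_left u1 C0, mul_le_mul_of_nonneg_left u2 e0]
  · have u := mul_le_mul_of_nonneg_left (st S G h.is h.s2 om m v h.md _ cm1).2 l0
    have u1 := int_lo h1 (h2.trans h3) h4 (by fun_prop) (cont_Ou h.is h.my.1 continuous_const)
      (cont_Wn h.is h.md.1 _) (cont_Wn h.is h.sF _) h.b0 (fun r => Wn_nonneg _)
      (fun r => Wn_nonneg _) fun r hr => (lw (fun _ => 1) r hr zero_le_one).2.2.2.2.1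
    rw [cv_Nc h.sf h.md.1.cd _ (oD_sm (e := .one) trivial)]
    simp only [cv_oD, Op.cv, iW] at u ⊢
    linarith [mul_le_mul_of_nonneg_left u1 C0]

theorem one (j : ℕ) (st : Stp f ϑ χ (-1) M a x x' y' y c e C) (h1 : r0 ≤ x) (h2 : x ≤ x')
    (h2' : x' ≤ r1) (h3 : x' ≤ y) (h4 : y ≤ R) (e0 : 0 ≤ e) (C0 : 0 ≤ C) :
    c * (lam om m ^ (j + 2) * ∫ r in x'..y', Ou G M a om m (ta M a om m ϑ) (Up 2 M a om m v) r) ≤
      lam om m ^ (j + 2) * (∫ r in x..y, Pr M a om m χ ((oD oy).cv M a om m v)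
        ((oD oy).cv M a om m (G.P (-2) G.s M a om m v)) r) + e * Ck * iW G om m (j + 5) v r0 r1 +
      C * (lam om m ^ (j + 2) * (∫ r in x..y, (‖D M a om m (Up 1 M a om m (Up 2 M a om m v)) r‖ ^ 2 +
          (ta M a om m ϑ r - 1) * ‖Up 1 M a om m (Up 2 M a om m v) r‖ ^ 2)) +
        10 * B * (iL om m j v r0 R + iW G om m (j + 3) (G.P (-2) G.s M a om m v) r0 R)) ∧
    c * (lam om m ^ (j + 2) * ∫ r in x'..y', Ou G M a om m (fun _ => lam om m)
        (Up 2 M a om m v) r) ≤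
      lam om m ^ (j + 2) * (∫ r in x..y, Pr M a om m χ ((oD oy).cv M a om m v)
        ((oD oy).cv M a om m (Nc G (fun r => f (M, a, r)) M a om m v)) r) +
      C * (lam om m ^ (j + 2) * (∫ r in x..y, d1 G om m (Up 1 M a om m (Up 2 M a om m v)) r) +
        10 * B * (iW G om m (j + 4) v r0 R + iW G om m (j + 3) (G.P (-2) G.s M a om m v) r0 R)) := by
  have l0 := (pow_pos (lam_pos om m) (j + 2)).le
  have cτ := cont_ta (M := M) (a := a) (om := om) (m := m) h.st.continuous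
  obtain ⟨cT, cE⟩ := cont_Tb (s := -1) (M := M) (a := a) (om := om) h.is (h.my (om := om)) cτ
  have cm1 := (cd_cv (M := M) (a := a) (om := om) (m := m) h.md.1.cd _
    (cm_sm h.sf _ (oD_sm oy_sm))).continuous
  have cm2 := (cd_cv (M := M) (a := a) (om := om) (m := m) h.md.1.cd _
    (oD_sm (cT_sm 6 (e := .one) trivial))).continuous
  have lw := fun (τ : ℝ → ℝ) (r : ℝ) (hr : r ∈ Icc x y) (t : 0 ≤ τ r) => low (om := om) h.is h.md h.b1
    (h.bo r ⟨h1.trans hr.1, hr.2.trans h4⟩) j t rfl rfl rfl rfl rfl rfl rfl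
  constructor
  · have u := mul_le_mul_of_nonneg_left (st S G h.is h.s2 om m _ (h.my (om := om)) _ cm2).1 l0
    have cu := (h.mu (om := om)).1.cont
    have cDu := (sm_D h.is (h.mu (om := om)).1 M a om m).cont
    have u1 := int_lo h1 (h2.trans h3) h4 (by fun_prop) (by fun_prop) (h.cL j)
      (cont_Wn h.is h.sF _) h.b0 (fun r => mul_nonneg (pow_pos (lam_pos om m) _).le (V_nonneg _))
      (fun r => Wn_nonneg _) fun r hr => (lw (ta M a om m ϑ) r hr (zero_le_one.trans ta_pos)).2.1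
    have cw := (sm_D h.is (h.my (om := om)).1 M a om m).cont
    have cK := (cd_K a om m).continuous
    have u2 := int_sc (c := lam om m ^ (j + 2))
      (W := fun r => K a r om m ^ 2 * ‖D M a om m (Up 2 M a om m v) r‖ ^ 2) h1 h2 h2' (by fun_prop)
      (cont_Wn (om := om) (m := m) h.is h.md.1 (j + 5)) h.k0 (fun r _ => Wn_nonneg _) fun r hr => by
        have := h.k2 r ⟨h1.trans hr.1, hr.2.trans h2'⟩ S om m v h.md.1.cd
        simp only [cv_oK, cv_oD, cv_oy, nsqI, neg_sq] at this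
        have w : _ ≤ Wn G om m (j + 5) v r := V3_Wn h.is h.md.1 (j + 2) r
        linarith [mul_le_mul_of_nonneg_left this l0, mul_le_mul_of_nonneg_left w h.k0]
    simp only [DP_y h.is h.md.1] at u
    rw [cv_oD oy, cv_oy, iL, iW, iW]
    linarith [mul_le_mul_of_nonneg_left u1 C0, mul_le_mul_of_nonneg_left u2 e0]
  · have u := mul_le_mul_of_nonneg_left (st S G h.is h.s2 om m _ (h.my (om := om)) _ cm1).2 l0
    have u1 := int_lo h1 (h2.trans h3) h4 (by fun_prop) (cont_d1 h.mu.1)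
      (cont_Wn h.is h.md.1 _) (cont_Wn h.is h.sF _) h.b0 (fun r => Wn_nonneg _)
      (fun r => Wn_nonneg _) fun r hr => (lw (fun _ => 1) r hr zero_le_one).2.2.2.2.2.1
    rw [cv_Nc h.sf h.md.1.cd _ (oD_sm oy_sm), cv_oD oy, cv_oy, iW, iW]
    linarith [mul_le_mul_of_nonneg_left u1 C0]

end Hy

end Vale.Agent.P354RM
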