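import Vale.Agent.P354RM.Low

/-!
Inverse bounds outside of the horizon, the terms of the multiplier, and the final arithmetic.
-/

open scoped ContDiff InnerProductSpace
open Set MeasureTheory
open Complex (I)
open Vale.Agent.P354BF Vale.Agent.P354XT Vale.Agent.P354RP
open Vale.Agent.P354XN hiding up
open Vale.Agent.P354XH (K ka)
open Vale.Agent.P354M0 (Lv)

noncomputable section

namespace Vale.Agent.P354RM

variable {S : Type} [NormedAddCommGroup S] [InnerProductSpace ℂ S] {G : Ang S}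
  {β d k M a om m r : ℝ} {v z H : ℝ → S}

theorem inv_gen (b : 1 ≤ β) (d0 : 0 < d) {D l p q : ℝ} (hD : d ≤ D) (l1 : 1 ≤ l) {Y z0 z1 : S}
    (hk : 40 * β ^ 2 / d ^ 2 ≤ k) (hp : p ^ 2 ≤ 4 * β * l) (hq : |q| ≤ 2 * β)
    (e : (D : ℂ) • z1 = Y + (p : ℂ) • I • z0 - (q : ℂ) • z0) :
    ‖z1‖ ^ 2 ≤ k * (‖Y‖ ^ 2 + l * ‖z0‖ ^ 2) := by
  have u1 := nsub (Y + (p : ℂ) • I • z0) ((q : ℂ) • z0)
  have u2 := nadd Y ((p : ℂ) • I • z0)
  rw [← e, nsq, nsq] at u1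
  rw [nsqI] at u2
  have z2 := sq_nonneg ‖z0‖
  have x0 := mul_nonneg (zero_le_one.trans l1) z2
  refine le_trans ?_ (mul_le_mul_of_nonneg_right hk (add_nonneg (sq_nonneg _) x0))
  rw [div_mul_eq_mul_div, le_div_iff₀ (by positivity)]
  linarith [sq_mul_le (ab d0.le hD) (sq_nonneg ‖z1‖), sq_mul_le hq z2,
    mul_le_mul_of_nonneg_right hp z2, mul_le_mul_of_nonneg_left l1 (mul_nonneg (sq_nonneg β) z2),
    pw b x0 (show 1 ≤ 2 by norm_num), pw b (sq_nonneg ‖Y‖) (show 0 ≤ 2 by norm_num),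
    mul_nonneg (sq_nonneg β) x0, sq_nonneg ‖Y‖]

theorem inv_Up (h : Pb β M a r) (d0 : 0 < d) (hD : d ≤ De M a r) (hk : 40 * β ^ 2 / d ^ 2 ≤ k)
    {c : ℝ} (hc : |c| ≤ 2) (z : ℝ → S) :
    ‖deriv z r‖ ^ 2 ≤ k * (‖Up c M a om m z r‖ ^ 2 + lam om m * ‖z r‖ ^ 2) :=
  inv_gen h.one d0 hD (one_le_lam om m) hk (p := 2 * K a r om m) (by linarith [h.K2 om m])
    (am hc (ab h.E0 h.E1)) (by simp only [Up, Lv]; module)

theorem d1_inv (h : Pb β M a r) (d0 : 0 < d) (hD : d ≤ De M a r) (hk : 40 * β ^ 2 / d ^ 2 ≤ k)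
    {τ : ℝ → ℝ} {t : ℝ} (t0 : 0 ≤ t) (t1 : t ≤ τ r) (t2 : t ≤ lam om m) :
    t * d1 G om m v r ≤ (k + 1) * Ou G M a om m τ v r := by
  have l0 := (lam_pos om m).le
  have u := inv_gen (p := K a r om m) (q := 0) (Y := D M a om m v r) (z0 := v r) (z1 := deriv v r)
    h.one d0 hD (one_le_lam om m) hk (by linarith [h.K2 om m, mul_nonneg h.nn l0])
    (by rw [abs_zero]; linarith [h.nn]) (by simp only [D]; push_cast; module)
  have k0 : 0 ≤ k := le_trans (by positivity) hk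
  have x1 := mul_nonneg l0 (sq_nonneg ‖v r‖)
  have x2 := An_nonneg (A := G) (v r)
  have x3 := sq_nonneg ‖D M a om m v r‖
  rw [d1_eq, V_one, Ou]
  linarith [mul_le_mul_of_nonneg_left u t0, mul_le_mul_of_nonneg_right t2 (mul_nonneg k0 x3),
    mul_le_mul_of_nonneg_right t1 (mul_nonneg k0 x1), mul_le_mul_of_nonneg_right t1 x1,
    mul_le_mul_of_nonneg_right t1 x2, mul_nonneg l0 x3, mul_nonneg (mul_nonneg k0 (t0.trans t1)) x2]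

theorem V2_inv (h : Pb β M a r) (d0 : 0 < d) (hD : d ≤ De M a r) (hk : 40 * β ^ 2 / d ^ 2 ≤ k)
    (k1 : 1 ≤ k) (hv : ContDiff ℝ ∞ v) :
    V om m 2 v r ≤ 115 * β ^ 2 * k ^ 2 * (‖Up 1 M a om m (Up 2 M a om m v) r‖ ^ 2 +
      lam om m * ‖Up 2 M a om m v r‖ ^ 2 + lam om m ^ 2 * ‖v r‖ ^ 2) := by
  have l1 := one_le_lam om m
  have l0 := (lam_pos om m).le
  have k0 := zero_le_one.trans k1
  have u1 := inv_Up (om := om) (m := m) h d0 hD hk abs_two.le v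
  have u2 := inv_Up (om := om) (m := m) h d0 hD hk (c := 1) (by norm_num) (Up 2 M a om m v)
  have u3 := inv_Up (om := om) (m := m) h d0 hD hk abs_two.le (deriv v)
  have e : Up 2 M a om m (deriv v) r = deriv (Up 2 M a om m v) r -
      ((2 * r - 2 * M : ℝ) : ℂ) • deriv v r + ((4 * r * om : ℝ) : ℂ) • I • v r -
      ((2 * 2 : ℝ) : ℂ) • v r := by rw [(has_Up hv 2 M a om m r).deriv]; abel
  have w1 := nsub (deriv (Up 2 M a om m v) r) (((2 * r - 2 * M : ℝ) : ℂ) • deriv v r)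
  have w2 := nadd (deriv (Up 2 M a om m v) r - ((2 * r - 2 * M : ℝ) : ℂ) • deriv v r)
    (((4 * r * om : ℝ) : ℂ) • I • v r)
  have w3 := nsub (deriv (Up 2 M a om m v) r - ((2 * r - 2 * M : ℝ) : ℂ) • deriv v r +
    ((4 * r * om : ℝ) : ℂ) • I • v r) (((2 * 2 : ℝ) : ℂ) • v r)
  rw [← e, nsq] at w3
  rw [nsqI] at w2
  rw [nsq] at w1
  rw [V_two]
  have w4 := sq_mul_le (ab h.E0 h.E1) (sq_nonneg ‖deriv v r‖)
  have w5 := sq_mul_le (ab h.r0 h.r1) (mul_nonneg (sq_nonneg om) (sq_nonneg ‖v r‖))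
  have w6 := mul_le_mul_of_nonneg_right (om_sq om m) (sq_nonneg ‖v r‖)
  have x0 := sq_nonneg ‖v r‖
  have x1 := sq_nonneg ‖Up 1 M a om m (Up 2 M a om m v) r‖
  have x2 := mul_nonneg l0 (sq_nonneg ‖Up 2 M a om m v r‖)
  have x3 := mul_nonneg (sq_nonneg (lam om m)) x0
  have y0 := mul_le_mul_of_nonneg_right l1 x0
  have y1 := mul_le_mul_of_nonneg_right l1 (mul_nonneg l0 x0)
  have y2 := mul_le_mul_of_nonneg_right l1 (sq_nonneg ‖deriv v r‖)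
  obtain ⟨Z, hZ⟩ : ∃ Z, Z = ‖Up 1 M a om m (Up 2 M a om m v) r‖ ^ 2 +
    lam om m * ‖Up 2 M a om m v r‖ ^ 2 + lam om m ^ 2 * ‖v r‖ ^ 2 := ⟨_, rfl⟩
  have Z0 : 0 ≤ Z := by linarith
  have kZ := congrArg (k * ·) hZ
  have p1 : lam om m * ‖deriv v r‖ ^ 2 ≤ k * Z := by
    linarith [mul_le_mul_of_nonneg_left u1 l0, mul_nonneg k0 x1]
  have p2 : ‖deriv (Up 2 M a om m v) r‖ ^ 2 ≤ k * Z := by linarith [mul_nonneg k0 x3]
  have q0 := mul_le_mul_of_nonneg_right k1 Z0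
  have q1 := pw h.one (mul_nonneg k0 Z0) (show 0 ≤ 2 by norm_num)
  have p3 : ‖Up 2 M a om m (deriv v) r‖ ^ 2 ≤ 112 * β ^ 2 * (k * Z) := by
    linarith [mul_le_mul_of_nonneg_left (show ‖deriv v r‖ ^ 2 ≤ k * Z by linarith) (sq_nonneg β),
      mul_le_mul_of_nonneg_left (show om ^ 2 * ‖v r‖ ^ 2 ≤ k * Z by linarith) (sq_nonneg β)]
  rw [← hZ]
  linarith [mul_le_mul_of_nonneg_left p3 k0, mul_le_mul_of_nonneg_left p1 k0,
    mul_le_mul_of_nonneg_left q0 k0, mul_le_mul_of_nonneg_left q1 k0]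

/-- The term of the multiplier g K. -/
def tk (χ : ℝ → ℝ) (e : Op) : Tm := ⟨fun p => 2 * De p.1 p.2.1 p.2.2 ^ 2 * χ p.2.2 ^ 2, e, oK e⟩

variable {x y x' y' : ℝ} {χ : ℝ → ℝ} {e : Op}

theorem tk_ok (hχ : ContDiff ℝ ∞ χ) (h0 : ∀ r, r ≤ x' ∨ y' ≤ r → χ r = 0) (h1 : x ≤ x')
    (h2 : y' ≤ y) (he : e.Sm) : Oks [tk χ e] e.ord x y := fun τ k => by
  rw [List.mem_singleton.1 k]
  refine ⟨(contDiff_const.mul (sm_De.pow 2)).mul ((hχ.comp contDiff_snd.snd).pow 2),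
    fun M a r hr => ?_, he, oK_sm he, le_rfl, (oK_ord e).le⟩
  have : χ r = 0 := h0 r ((not_and_or.1 hr).imp (fun c => (not_le.1 c).le.trans h1)
    fun c => h2.trans (not_le.1 c).le)
  simp [tk, this]

theorem pair_tk (hχ : ContDiff ℝ ∞ χ) (h0 : ∀ r, r ≤ x' ∨ y' ≤ r → χ r = 0) (h1 : x ≤ x')
    (h2 : y' ≤ y) (he : e.Sm) (hv : ContDiff ℝ ∞ v) (hH : ContDiff ℝ ∞ H) :
    pair [tk χ e] M a om m x y H v =
      -∫ r in x'..y', Pr M a om m χ (e.cv M a om m v) (e.cv M a om m H) r := by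
  have c := cont_Pr (M := M) (a := a) (om := om) (m := m) hχ.continuous
    (cd_cv (M := M) (a := a) (om := om) (m := m) hv e he).continuous
    (cd_cv (M := M) (a := a) (om := om) (m := m) hH e he).continuous
  have z : ∀ p q, p ≤ q → (∀ r ∈ Icc p q, χ r = 0) →
      ∫ r in p..q, Pr M a om m χ (e.cv M a om m v) (e.cv M a om m H) r = 0 := fun p q h k =>
    (intervalIntegral.integral_congr (g := fun _ => 0) fun r hr => by
      simp [Pr, k r (uIcc_of_le h ▸ hr)]).trans intervalIntegral.integral_zero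
  have := int_split c x x' y
  rw [int_split c x' y' y, z x x' h1 fun r hr => h0 r (.inl hr.2),
    z y' y h2 fun r hr => h0 r (.inr hr.1), zero_add, add_zero] at this
  rw [← this, ← intervalIntegral.integral_neg, pair, List.map_singleton, List.sum_singleton]
  refine intervalIntegral.integral_congr fun r _ => ?_
  have := ri_real (-K a r om m) (e.cv M a om m H r) (I • e.cv M a om m v r)
  rw [ri_comm _ (I • _)] at this
  simp only [tk, cv_oK, Pr]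
  rw [ri] at this
  rw [this]
  ring

theorem fin_b {LH T0 T1 T2 p0 p1 p2 Fl Wh Wo Wl Sr Lo c1 c2 C1 C2 C3 C0 Cf Z B e1 e2 eH A0 A1 A2
    Cv Cu ε : ℝ} (t0 : 0 ≤ T0) (t1 : 0 ≤ T1) (t2 : 0 ≤ T2) (wh : 0 ≤ Wh) (wo : 0 ≤ Wo)
    (wl : 0 ≤ Wl) (sr : 0 ≤ Sr) (a0 : 0 ≤ A0) (a1 : 0 ≤ A1) (a2 : 0 ≤ A2) (k1 : 0 ≤ C1) (k2 : 0 ≤ C2)
    (k3 : 0 ≤ C3) (z0 : 0 ≤ Z) (b0 : 0 ≤ B) (cv : 0 ≤ Cv) (cu : 0 ≤ Cu)
    (h2 : c2 * T2 ≤ p2 + e2 * Wh + C2 * (T1 + B * (Lo + Sr)))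
    (h1 : c1 * T1 ≤ p1 + e1 * Wh + C1 * (T0 + B * (Lo + Sr)))
    (h0 : T0 ≤ Z * (p0 + C0 * Fl + C3 * (B * (Lo + Wl))))
    (hu : Lo ≤ Wo + Cv * (ε * (T0 + T1 + T2) + Cu * (B * Wl))) (hL : LH ≤ Cf * T2)
    (q2 : A2 * c2 = Cf + 1) (q1 : A1 * c1 = A2 * C2 + 1) (q0 : A0 = A1 * C1 + 1)
    (q3 : A2 * e2 + A1 * e1 ≤ eH) (q4 : B * (A2 * C2 + A1 * C1 + A0 * Z * C3) * Cv * ε ≤ 1) :
    LH ≤ A0 * Z * p0 + (A1 * p1 + A2 * p2) + A0 * Z * C0 * Fl + eH * Wh +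
      B * (A2 * C2 + A1 * C1 + A0 * Z * C3) * (1 + Cv * Cu * B) * (Wo + (Wl + Sr)) := by
  have g2 := mul_nonneg b0 (mul_nonneg a2 k2)
  have g1 := mul_nonneg b0 (mul_nonneg a1 k1)
  have g0 := mul_nonneg b0 (mul_nonneg (mul_nonneg a0 z0) k3)
  have g : 0 ≤ B * (A2 * C2 + A1 * C1 + A0 * Z * C3) := by linarith
  have f := mul_nonneg g (mul_nonneg (mul_nonneg cv cu) b0)
  linarith [mul_le_mul_of_nonneg_left h2 a2, mul_le_mul_of_nonneg_left h1 a1,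
    mul_le_mul_of_nonneg_left h0 a0, mul_le_mul_of_nonneg_left hu g,
    mul_le_mul_of_nonneg_right q4 (add_nonneg (add_nonneg t0 t1) t2),
    mul_le_mul_of_nonneg_right q3 wh, congrArg (· * T2) q2, congrArg (· * T1) q1,
    congrArg (· * T0) q0, mul_nonneg g2 wl, mul_nonneg g1 wl, mul_nonneg g0 sr, mul_nonneg f wo,
    mul_nonneg f sr]

theorem fin_e {LH T0 T1 T2 p0 p1 p2 W c1 c2 C1 C2 C3 Cf Z B A0 A1 A2 D : ℝ} (t0 : 0 ≤ T0)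
    (t1 : 0 ≤ T1) (t2 : 0 ≤ T2) (w : 0 ≤ W) (a0 : 0 ≤ A0) (a1 : 0 ≤ A1) (a2 : 0 ≤ A2) (k1 : 0 ≤ C1)
    (k2 : 0 ≤ C2) (k3 : 0 ≤ C3) (z1 : 1 ≤ Z) (b0 : 0 ≤ B) (d0 : 0 ≤ D)
    (h2 : c2 * T2 ≤ p2 + C2 * (T1 + B * W)) (h1 : c1 * T1 ≤ p1 + C1 * (T0 + B * W))
    (h0 : T0 ≤ p0 + C3 * (B * W)) (hL : LH ≤ Cf * T2)
    (q2 : A2 * c2 = Cf + 1) (q1 : A1 * c1 = A2 * C2 + 1) (q0 : A0 = A1 * C1 + 1) :
    LH ≤ A0 * Z * p0 + (A1 * p1 + A2 * p2) +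
      B * (A2 * C2 + A1 * C1 + A0 * Z * C3) * (1 + D) * W := by
  have z0 := zero_le_one.trans z1
  have g : 0 ≤ B * (A2 * C2 + A1 * C1 + A0 * Z * C3) := by positivity
  linarith [mul_le_mul_of_nonneg_left h2 a2, mul_le_mul_of_nonneg_left h1 a1,
    mul_le_mul_of_nonneg_left h0 (mul_nonneg a0 z0), congrArg (· * T2) q2, congrArg (· * T1) q1,
    congrArg (· * T0) q0, mul_le_mul_of_nonneg_left z1 (mul_nonneg a0 t0),
    mul_nonneg (mul_nonneg g d0) w]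

end Vale.Agent.P354RM
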