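import Vale.Agent.P354RM.Stp

/-!
The chain of spin -2: terms of lower order, inverse bounds, and the terms of the multiplier.
-/

open scoped ContDiff InnerProductSpace
open Set MeasureTheory
open Complex (I)
open Vale.Agent.P354BF Vale.Agent.P354XT Vale.Agent.P354RP
open Vale.Agent.P354XN hiding up
open Vale.Agent.P354XH (K ka)
open Vale.Agent.P354M0 (Lv)

noncomputable section

namespace Vale.Agent.P354RM

/-- The members of the chain and the couplings. -/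
def oy : Op := Op.lh 2 .one
def ou : Op := Op.lh 1 oy
def cT (c : ℝ) (e : Op) : Op := .mul (fun p => c * De p.1 p.2.1 p.2.2) (.T e)

theorem oy_sm : oy.Sm := lh_sm' 2 trivial
theorem ou_sm : ou.Sm := lh_sm' 1 oy_sm
theorem cT_sm (c : ℝ) {e : Op} (h : e.Sm) : (cT c e).Sm := ⟨contDiff_const.mul sm_De, h⟩
theorem oy_ord : oy.ord = 1 := lh_ord 2 .one
theorem ou_ord : ou.ord = 2 := by rw [ou, lh_ord, oy_ord]

/-- A bound for an operator at a point. -/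
def Bo (B M a r : ℝ) (e : Op × ℕ) : Prop :=
  ∀ (S : Type) [NormedAddCommGroup S] [InnerProductSpace ℂ S] (om m : ℝ) (v : ℝ → S),
    ContDiff ℝ ∞ v → ‖e.1.cv M a om m v r‖ ^ 2 ≤ B * V om m e.2 v r

theorem ex_bo {n : ℕ} (o : Fin n → Op × ℕ) (h : ∀ i, (o i).1.Sm ∧ (o i).1.ord ≤ (o i).2)
    (M0 a0 x y : ℝ) : ∃ B, 1 ≤ B ∧ ∀ M a r, |M - M0| ≤ 1 → |a - a0| ≤ 1 → r ∈ Icc x y →
      ∀ i, Bo B M a r (o i) := by
  choose C c0 hC using fun i => cv_bd M0 a0 x y (o i).1 (h i).1 (h i).2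
  have s0 := Finset.sum_nonneg (s := Finset.univ) fun i _ => c0 i
  exact ⟨1 + ∑ i, C i, by linarith, fun M a r h1 h2 h3 i S _ _ om m v hv =>
    (hC i M a r h1 h2 h3 S om m v hv).trans (mul_le_mul_of_nonneg_right (by
      linarith [Finset.single_le_sum (fun i _ => c0 i) (Finset.mem_univ i)]) (V_nonneg _))⟩

/-- The operators which occur in the errors. -/
def ops (f : ℝ × ℝ × ℝ → ℝ) : Fin 12 → Op × ℕ :=
  ![(ou, 2), (.R ou, 3), (oy, 1), (.R oy, 2), (oD oy, 2), (cT 6 .one, 1), (oD (cT 6 .one), 2),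
    (oD .one, 1), (cm f ou, 2), (cm f (oD oy), 2), (cm f (oD .one), 1), (cT 8 oy, 2)]

theorem ops_ok {f : ℝ × ℝ × ℝ → ℝ} (hf : ContDiff ℝ ∞ f) :
    ∀ i, (ops f i).1.Sm ∧ (ops f i).1.ord ≤ (ops f i).2 := by
  have o1 : (oD oy).ord ≤ 2 := by rw [oD_ord, oy_ord]
  intro i
  fin_cases i
  exacts [⟨ou_sm, ou_ord.le⟩, ⟨ou_sm, Nat.succ_le_succ ou_ord.le⟩, ⟨oy_sm, oy_ord.le⟩,
    ⟨oy_sm, Nat.succ_le_succ oy_ord.le⟩, ⟨oD_sm oy_sm, o1⟩, ⟨cT_sm 6 trivial, le_rfl⟩,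
    ⟨oD_sm (cT_sm 6 trivial), (oD_ord _).le⟩, ⟨oD_sm trivial, (oD_ord _).le⟩,
    ⟨cm_sm hf _ ou_sm, (cm_ord _).trans ou_ord.le⟩, ⟨cm_sm hf _ (oD_sm oy_sm), (cm_ord _).trans o1⟩,
    ⟨cm_sm hf _ (oD_sm trivial), (cm_ord _).trans (oD_ord _).le⟩,
    ⟨cT_sm 8 oy_sm, Nat.succ_le_succ oy_ord.le⟩]

variable {S : Type} [NormedAddCommGroup S] [InnerProductSpace ℂ S] {G : Ang S}
  {β B M a om m r : ℝ} {v z H : ℝ → S}

theorem cv_oy : oy.cv M a om m v = Up 2 M a om m v := cv_lh 2 .one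
theorem cv_ou : ou.cv M a om m v = Up 1 M a om m (Up 2 M a om m v) := by rw [ou, cv_lh, cv_oy]
theorem cv_cT (c : ℝ) (e : Op) : (cT c e).cv M a om m v =
    fun r => ((-(c * (om * De M a r)) : ℝ) : ℂ) • I • e.cv M a om m v r := funext fun r => by
  simp only [cT, Op.cv]; push_cast; module

theorem P_y (hG : G.Is) (hv : G.Sm v) (k : ℝ) : G.P (-1) k M a om m (Up 2 M a om m v) = fun r =>
    oy.cv M a om m (G.P (-2) k M a om m v) r - (cT 6 .one).cv M a om m v r := funext fun r => by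
  have := P_Up hG hv (-2) k M a om m r
  rw [neg_neg, show (-2 : ℝ) + 1 = -1 by norm_num] at this
  rw [this, cv_oy, cv_cT, Op.cv]
  push_cast; module

theorem DP_y (hG : G.Is) (hv : G.Sm v) (k r : ℝ) :
    D M a om m (G.P (-1) k M a om m (Up 2 M a om m v)) r + (oD (cT 6 .one)).cv M a om m v r =
      (oD oy).cv M a om m (G.P (-2) k M a om m v) r := by
  rw [P_y hG hv, cv_oD, cv_oD, D, D, D, ((cd_has (cd_cv (hG.sm_P hv _ _ _ _ _ _).cd _ oy_sm) r).fun_sub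
    (cd_has (cd_cv hv.cd _ (cT_sm 6 (e := .one) trivial)) r)).deriv]
  module

theorem P_u (hG : G.Is) (hv : G.Md m v) (k r : ℝ) :
    G.P 0 k M a om m (Up 1 M a om m (Up 2 M a om m v)) r =
      ou.cv M a om m (G.P (-2) k M a om m v) r - (cT 8 oy).cv M a om m v r := by
  have := P_Up hG (md_Up hG hv 2 M a om).1 (-1) k M a om m r
  rw [neg_neg, neg_add_cancel, P_y hG hv.1] at this
  have d := ((cd_has (cd_cv (M := M) (a := a) (om := om) (m := m) (hG.sm_P hv.1 (-2) k M a om m).cd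
    _ oy_sm) r).fun_sub ((((der_De M a r).const_mul om).const_mul 6).neg.ofReal_comp.fun_smul
    ((hv.1.has r).fun_const_smul I))).deriv
  rw [this, ou, cv_lh]
  simp only [cv_cT, Op.cv, Up, Lv, cv_oy (v := v), Pi.neg_apply] at d ⊢
  rw [d]
  push_cast; module

theorem low (hG : G.Is) (hv : G.Md m v) {f : ℝ × ℝ × ℝ → ℝ} (b : 1 ≤ B)
    (h : ∀ i, Bo B M a r (ops f i)) (j : ℕ) {τ : ℝ → ℝ} (t0 : 0 ≤ τ r) {y u F : ℝ → S}
    (hy : y = Up 2 M a om m v) (hu : u = Up 1 M a om m y) (hF : F = G.P (-2) G.s M a om m v)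
    {L Sr Wl Wt : ℝ} (hL : L = lam om m ^ (j + 2) * V om m 2 v r) (hS : Sr = Wn G om m (j + 3) F r)
    (hl : Wl = Wn G om m (j + 3) v r) (ht : Wt = Wn G om m (j + 4) v r) :
    lam om m ^ (j + 3) * (Tb G (-2) M a om m τ v r + ‖(0 : S)‖ ^ 2) ≤
      lam om m ^ (j + 2) * Ou G M a om m τ y r + 10 * B * (L + Sr) ∧
    lam om m ^ (j + 2) * (Tb G (-1) M a om m τ y r + ‖(oD (cT 6 .one)).cv M a om m v r‖ ^ 2) ≤
      lam om m ^ (j + 2) * (‖D M a om m u r‖ ^ 2 + (τ r - 1) * ‖u r‖ ^ 2) + 10 * B * (L + Sr) ∧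
    lam om m ^ (j + 2) * ‖u r‖ ^ 2 + d1 G om m u r ≤ 10 * B * (L + Wl) ∧
    lam om m ^ (j + 2) * (‖deriv y r‖ ^ 2 + lam om m * ‖y r‖ ^ 2) ≤ 10 * B * (L + Wl) ∧
    lam om m ^ (j + 3) * (Te G (-2) M a om m v r + ‖(cm f (oD .one)).cv M a om m v r‖ ^ 2) ≤
      lam om m ^ (j + 2) * Ou G M a om m (fun _ => lam om m) y r + 10 * B * (Wt + Sr) ∧
    lam om m ^ (j + 2) * (Te G (-1) M a om m y r + ‖(cm f (oD oy)).cv M a om m v r‖ ^ 2) ≤
      lam om m ^ (j + 2) * d1 G om m u r + 10 * B * (Wt + Sr) ∧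
    lam om m ^ (j + 2) * ‖(cm f ou).cv M a om m v r‖ ^ 2 + lam om m ^ (j + 2 - 1) *
      (d1 G om m u r + ‖G.P 0 G.s M a om m u r‖ ^ 2) ≤ 10 * B * (Wt + Sr) ∧
    lam om m ^ (j + 1) * ‖u r‖ ^ 2 + lam om m ^ (j + 2) * ‖y r‖ ^ 2 +
      lam om m ^ (j + 3) * ‖v r‖ ^ 2 ≤ 10 * B * Wl ∧ L ≤ Wt := by
  have sF : G.Sm F := hF ▸ hG.sm_P hv.1 _ _ _ _ _ _
  have l1 := one_le_lam om m
  have l0 := lam_pos om m
  have w1 := hS ▸ V_Wn (om := om) (m := m) (r := r) hG sF j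
  have w2 := hl ▸ V_Wn (om := om) (m := m) (r := r) hG hv.1 j
  have w3 := ht ▸ V_Wn (om := om) (m := m) (r := r) hG hv.1 (j + 1)
  have sA : ∀ z : ℝ → S, 0 ≤ ∑ i, V om m 2 (fun r => G.L i (z r)) r := fun z =>
    Finset.sum_nonneg fun _ _ => V_nonneg _
  have An1 : An G (u r) ≤ B * ∑ i, V om m 2 (fun r => G.L i (v r)) r := by
    rw [An, Finset.mul_sum, hu, hy, ← cv_ou]
    exact Finset.sum_le_sum fun i _ => by
      rw [congrFun (L_cv hG hv i ou ou_sm) r]; exact h 0 S om m _ (hv.1.L i).cd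
  have a0 : ‖u r‖ ^ 2 ≤ B * V om m 2 v r := by rw [hu, hy, ← cv_ou]; exact h 0 S om m v hv.1.cd
  have a1 : ‖deriv u r‖ ^ 2 ≤ B * V om m 3 v r := by
    rw [hu, hy, ← cv_ou]; exact h 1 S om m v hv.1.cd
  have a2 : ‖y r‖ ^ 2 ≤ B * V om m 1 v r := by rw [hy, ← cv_oy]; exact h 2 S om m v hv.1.cd
  have a3 : ‖deriv y r‖ ^ 2 ≤ B * V om m 2 v r := by rw [hy, ← cv_oy]; exact h 3 S om m v hv.1.cd
  have a6 : ‖(oD (cT 6 .one)).cv M a om m v r‖ ^ 2 ≤ B * V om m 2 v r := h 6 S om m v hv.1.cd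
  have a7 : ‖D M a om m F r‖ ^ 2 ≤ B * V om m 1 F r := by
    have := h 7 S om m F sF.cd
    rwa [show (ops f 7).1 = oD .one from rfl, cv_oD] at this
  have a8 : ‖(cm f ou).cv M a om m v r‖ ^ 2 ≤ B * V om m 2 v r := h 8 S om m v hv.1.cd
  have a9 : ‖(cm f (oD oy)).cv M a om m v r‖ ^ 2 ≤ B * V om m 2 v r := h 9 S om m v hv.1.cd
  have a10 : ‖(cm f (oD .one)).cv M a om m v r‖ ^ 2 ≤ B * V om m 1 v r := h 10 S om m v hv.1.cd
  have p1 : ‖G.P (-1) G.s M a om m y r‖ ^ 2 ≤ 2 * (B * V om m 1 F r) + 2 * (B * V om m 1 v r) := by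
    rw [hy, P_y hG hv.1, ← hF]
    exact (nsub _ _).trans (add_le_add (mul_le_mul_of_nonneg_left (h 2 S om m F sF.cd) two_pos.le)
      (mul_le_mul_of_nonneg_left (h 5 S om m v hv.1.cd) two_pos.le))
  have p2 : ‖D M a om m (G.P (-1) G.s M a om m y) r‖ ^ 2 ≤
      2 * (B * V om m 2 F r) + 2 * (B * V om m 2 v r) := by
    rw [hy, eq_sub_of_add_eq (DP_y hG hv.1 G.s r), ← hF]
    exact (nsub _ _).trans (add_le_add (mul_le_mul_of_nonneg_left (h 4 S om m F sF.cd) two_pos.le)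
      (mul_le_mul_of_nonneg_left a6 two_pos.le))
  have p3 : ‖G.P 0 G.s M a om m u r‖ ^ 2 ≤ 2 * (B * V om m 2 F r) + 2 * (B * V om m 2 v r) := by
    rw [hu, hy, P_u hG hv, ← hF]
    exact (nsub _ _).trans (add_le_add (mul_le_mul_of_nonneg_left (h 0 S om m F sF.cd) two_pos.le)
      (mul_le_mul_of_nonneg_left (h 11 S om m v hv.1.cd) two_pos.le))
  have v0 := lam_V (om := om) (m := m) (v := v) (r := r) 0
  have v1 := lam_V (om := om) (m := m) (v := v) (r := r) 1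
  have v2 := lam_V (om := om) (m := m) (v := v) (r := r) 2
  have f0 := lam_V (om := om) (m := m) (v := F) (r := r) 0
  have f1 := lam_V (om := om) (m := m) (v := F) (r := r) 1
  have f2 := lam_V (om := om) (m := m) (v := F) (r := r) 2
  have n1 := V_nonneg (om := om) (m := m) (v := v) (r := r) 1
  have n2 := V_nonneg (om := om) (m := m) (v := v) (r := r) 2
  have n3 := V_nonneg (om := om) (m := m) (v := v) (r := r) 3
  have s1 := sA v
  have s2 := sA F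
  have Ay := An_nonneg (A := G) (y r)
  have Au := An_nonneg (A := G) (u r)
  have p0 : 1 ≤ lam om m ^ j := one_le_pow₀ l1
  simp only [Tb, Te, Ou, d1_eq, V_one (v := y), V_one (v := u), neg_neg, ← hy, ← hu, ← hF, norm_zero,
    Nat.add_succ_sub_one, pow_add, pow_one, V_zero, zero_add, Nat.reduceAdd] at *
  generalize lam om m ^ j = p at *
  generalize lam om m = l, V om m 1 v r = V1, V om m 2 v r = V2, V om m 3 v r = V3,
    V om m 1 F r = F1, V om m 2 F r = F2, V om m 3 F r = F3,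
    ∑ i, V om m 2 (fun r => G.L i (v r)) r = A1, ∑ i, V om m 2 (fun r => G.L i (F r)) r = A2 at *
  have B0 : 0 ≤ B := by linarith
  have q0 : 0 ≤ p := by linarith
  have q1 := mul_nonneg q0 l0.le
  have q2 := mul_nonneg q0 (sq_nonneg l)
  have q3 := mul_nonneg q0 (pow_nonneg l0.le 3)
  have g1 : p * l ^ 3 * V1 ≤ L := by linarith [mul_le_mul_of_nonneg_left v1 q2]
  have g2 : p * l ^ 2 * V1 ≤ L := by linarith [mul_le_mul_of_nonneg_left l1 (mul_nonneg q2 n1)]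
  have g3 : p * l * V2 ≤ L := by linarith [mul_le_mul_of_nonneg_left l1 (mul_nonneg q1 n2)]
  have g4 : p * l * F2 ≤ Sr := by linarith [mul_le_mul_of_nonneg_left f2 q0, mul_nonneg q0 s2]
  have g5 : p * l ^ 2 * F1 ≤ Sr := by linarith [mul_le_mul_of_nonneg_left f1 q1]
  have g6 : p * l ^ 3 * ‖F r‖ ^ 2 ≤ Sr := by linarith [mul_le_mul_of_nonneg_left f0 q2]
  have g7 : L ≤ Wt := by linarith [mul_le_mul_of_nonneg_left v2 q1, mul_nonneg q1 s1]
  have g8 : p * l * V2 ≤ Wl := by linarith [mul_le_mul_of_nonneg_left v2 q0, mul_nonneg q0 s1]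
  have g9 : p * l ^ 2 * V1 ≤ Wl := by linarith [mul_le_mul_of_nonneg_left v1 q1]
  have g10 : p * l ^ 3 * ‖v r‖ ^ 2 ≤ Wl := by linarith [mul_le_mul_of_nonneg_left v0 q2]
  have g11 : V3 + A1 ≤ Wl := by linarith [mul_le_mul_of_nonneg_right p0 (add_nonneg n3 s1)]
  have L0 : 0 ≤ L := by linarith [mul_nonneg q2 n2]
  have S0 : 0 ≤ Sr := by linarith [mul_nonneg q3 (sq_nonneg ‖F r‖)]
  have W0 : 0 ≤ Wl := by linarith
  have k1 : l * ‖u r‖ ^ 2 + ‖deriv u r‖ ^ 2 + An G (u r) ≤ 2 * B * (V3 + A1) := by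
    linarith [mul_le_mul_of_nonneg_left a0 l0.le, mul_le_mul_of_nonneg_left v2 B0,
      mul_nonneg B0 s1]
  have k2 : p * l ^ 2 * (l * ‖y r‖ ^ 2 + ‖deriv y r‖ ^ 2) ≤ 2 * B * L := by
    linarith [mul_le_mul_of_nonneg_left a2 q3, mul_le_mul_of_nonneg_left a3 q2,
      mul_le_mul_of_nonneg_left g1 B0, congrArg (B * ·) hL]
  have k3 : p * l ^ 3 * (‖D M a om m F r‖ ^ 2 / l) ≤ B * Sr := by
    rw [show p * l ^ 3 * (‖D M a om m F r‖ ^ 2 / l) = p * l ^ 2 * ‖D M a om m F r‖ ^ 2 by field_simp]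
    linarith [mul_le_mul_of_nonneg_left a7 q2, mul_le_mul_of_nonneg_left g5 B0]
  have k4 : p * l ^ 2 * (‖D M a om m (G.P (-1) G.s M a om m y) r‖ ^ 2 / l) ≤ 2 * B * (L + Sr) := by
    rw [show p * l ^ 2 * (‖D M a om m (G.P (-1) G.s M a om m y) r‖ ^ 2 / l) =
      p * l * ‖D M a om m (G.P (-1) G.s M a om m y) r‖ ^ 2 by field_simp]
    linarith [mul_le_mul_of_nonneg_left p2 q1, mul_le_mul_of_nonneg_left g4 B0,
      mul_le_mul_of_nonneg_left g3 B0]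
  have k5 : p * l ^ 2 * ‖G.P (-1) G.s M a om m y r‖ ^ 2 ≤ 2 * B * (L + Sr) := by
    linarith [mul_le_mul_of_nonneg_left p1 q2, mul_le_mul_of_nonneg_left g5 B0,
      mul_le_mul_of_nonneg_left g2 B0]
  have k6 : ∀ x, x ≤ B * V2 → p * l ^ 2 * x ≤ B * L := fun x hx => by
    linarith [mul_le_mul_of_nonneg_left hx q2, congrArg (B * ·) hL]
  have c1 := mul_le_mul_of_nonneg_right b L0
  have c2 := mul_le_mul_of_nonneg_right b S0
  have c3 := mul_le_mul_of_nonneg_right b W0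
  have c4 := mul_le_mul_of_nonneg_left g7 B0
  refine ⟨?_, ?_, ?_, ?_, ?_, ?_, ?_, ?_, g7⟩
  · linarith [mul_nonneg q2 (mul_nonneg t0 Ay)]
  · linarith [k6 _ a0, k6 _ a6]
  · linarith [k6 _ a0, mul_le_mul_of_nonneg_left g11 B0]
  · linarith
  · linarith [mul_nonneg q3 Ay, mul_nonneg q3 (sq_nonneg ‖D M a om m y r‖),
      mul_le_mul_of_nonneg_left a10 q3, mul_le_mul_of_nonneg_left g1 B0]
  · linarith [k6 _ a9, mul_nonneg q2 Au, mul_nonneg q2 (sq_nonneg ‖deriv u r‖)]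
  · linarith [k6 _ a8, mul_le_mul_of_nonneg_left k1 q1, mul_le_mul_of_nonneg_left w3 B0,
      mul_le_mul_of_nonneg_left p3 q1, mul_le_mul_of_nonneg_left g4 B0,
      mul_le_mul_of_nonneg_left g3 B0]
  · linarith [mul_le_mul_of_nonneg_left a0 q1, mul_le_mul_of_nonneg_left a2 q2,
      mul_le_mul_of_nonneg_left g8 B0, mul_le_mul_of_nonneg_left g9 B0]

end Vale.Agent.P354RM
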