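import Vale.Agent.P354RM.Zer

/-!
The estimates at one frequency for the spin -2 from the estimates for the scalar operator.
-/

open scoped ContDiff InnerProductSpace
open Set MeasureTheory
open Complex (I)
open Vale.Agent.P354BF Vale.Agent.P354XT Vale.Agent.P354RP
open Vale.Agent.P354XN hiding up
open Vale.Agent.P354XH (K ka)
open Vale.Agent.P354M0 (Lv int_add MODE0 UNC)

noncomputable section

namespace Vale.Agent.P354RM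

theorem ex_th {p q q' p' : ℝ} (h1 : p < q) (h2 : q ≤ q') (h3 : q' < p') : ∃ ϑ : ℝ → ℝ,
    ContDiff ℝ ∞ ϑ ∧ (∀ r, |ϑ r| ≤ 1) ∧ (∀ r ∈ Icc q q', ϑ r = 0) ∧
      ∀ r, r ≤ p ∨ p' ≤ r → ϑ r = 1 := by
  refine ⟨fun r => dn p q r + up q' p' r, (dn_sm p q).add (up_sm q' p'), fun r => ?_,
    fun r hr => ?_, fun r hr => ?_⟩
  · rw [abs_of_nonneg (add_nonneg (dn_nonneg p q r) (up_nonneg q' p' r))]
    rcases le_total r q with h | h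
    · rw [up_zero h3 (h.trans h2), add_zero]; exact dn_le p q r
    · rw [dn_zero h1 h, zero_add]; exact up_le q' p' r
  · simp only [dn_zero h1 hr.1, up_zero h3 hr.2, add_zero]
  · rcases hr with h | h
    · simp only [dn_one h1 h, up_zero h3 (h.trans (h1.le.trans h2)), add_zero]
    · simp only [dn_zero h1 (h2.trans (h3.le.trans h)), up_one h3 h, zero_add]

/-- The multiplier. -/
def lst (l : List Tm) (χ1 χ2 : ℝ → ℝ) (j : ℕ) (A0 A1 A2 : ℝ) : List Tm :=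
  (l.map (tcp ou ou)).map (tsc A0) ++ ((tlm^[j + 2] [tk χ1 (oD oy)]).map (tsc A1) ++
    (tlm^[j + 3] [tk χ2 (oD .one)]).map (tsc A2))

variable {S : Type} [NormedAddCommGroup S] [InnerProductSpace ℂ S] {G : Ang S}
  {B Ck M a om m r0 r1 R x1 x2 y y1 y2 A0 A1 A2 : ℝ} {v H : ℝ → S} {χ1 χ2 : ℝ → ℝ} {l : List Tm}
  {j : ℕ}

theorem lst_ok (hl : Oks l (j + 2) r0 R) (s1 : ContDiff ℝ ∞ χ1) (s2 : ContDiff ℝ ∞ χ2)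
    (z1 : ∀ r, r ≤ x1 ∨ y1 ≤ r → χ1 r = 0) (z2 : ∀ r, r ≤ x2 ∨ y2 ≤ r → χ2 r = 0) (a1 : r0 ≤ x1)
    (a2 : r0 ≤ x2) (b1 : y1 ≤ R) (b2 : y2 ≤ R) : Oks (lst l χ1 χ2 j A0 A1 A2) (j + 4) r0 R := by
  have k1 := (tk_ok s1 z1 a1 b1 (oD_sm oy_sm)).it (j + 2)
  have k2 := (tk_ok s2 z2 a2 b2 (oD_sm (e := .one) trivial)).it (j + 3)
  rw [oD_ord, oy_ord, show 1 + 1 + (j + 2) = j + 4 by omega] at k1
  rw [oD_ord, Op.ord, show 0 + 1 + (j + 3) = j + 4 by omega] at k2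
  exact ((hl.cp ou_sm ou_sm ou_ord.le ou_ord.le).sc A0).app ((k1.sc A1).app (k2.sc A2))

theorem pair_lst (s1 : ContDiff ℝ ∞ χ1) (s2 : ContDiff ℝ ∞ χ2)
    (z1 : ∀ r, r ≤ x1 ∨ y1 ≤ r → χ1 r = 0) (z2 : ∀ r, r ≤ x2 ∨ y2 ≤ r → χ2 r = 0) (a1 : r0 ≤ x1)
    (a2 : r0 ≤ x2) (b1 : y1 ≤ R) (b2 : y2 ≤ R) (hv : ContDiff ℝ ∞ v) (hH : ContDiff ℝ ∞ H) :
    -pair (lst l χ1 χ2 j A0 A1 A2) M a om m r0 R H v =
      A0 * -pair l M a om m r0 R (ou.cv M a om m H) (ou.cv M a om m v) +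
      (A1 * (lam om m ^ (j + 2) * ∫ r in x1..y1,
          Pr M a om m χ1 ((oD oy).cv M a om m v) ((oD oy).cv M a om m H) r) +
        A2 * (lam om m ^ (j + 3) * ∫ r in x2..y2,
          Pr M a om m χ2 ((oD .one).cv M a om m v) ((oD .one).cv M a om m H) r)) := by
  rw [lst, pair_app, pair_app, pair_sc, pair_cp, pair_sc, pair_it,
    pair_tk s1 z1 a1 b1 (oD_sm oy_sm) hv hH, pair_sc, pair_it,
    pair_tk s2 z2 a2 b2 (oD_sm (e := .one) trivial) hv hH]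
  ring

theorem cv_l3 (r : ℝ) :
    Op.l3.cv M a om m v r = Lv M a om m (Up 1 M a om m (Up 2 M a om m v)) r := by
  rw [Op.l3, cv_lh, cv_lh, cv_lh, Up.eq_1 0, zero_mul, Complex.ofReal_zero, zero_smul, add_zero,
    Op.cv]

theorem ex_eps {t : ℝ} (h : 0 ≤ t) : ∃ ε, 0 < ε ∧ t * ε ≤ 1 :=
  ⟨1 / (t + 1), by positivity, by rw [mul_one_div, div_le_one (by linarith)]; linarith⟩

theorem ord {ρ q1 p q2 q3 p' q4 R0 R1 : ℝ} (h0 : 0 < ρ) (h1 : r0 < ρ) (h2 : ρ < x1) (h3 : x1 < x2)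
    (h4 : x2 < r1) (h5 : r1 < q1) (h6 : q1 < p) (h7 : p < q2) (h8 : q2 ≤ q3) (h9 : q3 < p')
    (k1 : p' < q4) (k2 : q4 < R0) (k3 : 4 * R0 ≤ R1) :
    r0 ≤ x1 ∧ r0 ≤ x2 ∧ 11 * R0 / 3 ≤ 2 * R1 ∧ 10 * R0 / 3 ≤ 2 * R1 ∧ r0 ≤ 2 * R1 ∧ r1 ≤ 3 * R0 ∧
    x1 ≤ 11 * R0 / 3 ∧ x2 ≤ 10 * R0 / 3 ∧ r1 ≤ 10 * R0 / 3 ∧ x2 ≤ 11 * R0 / 3 ∧ r1 ≤ p ∧
    p ≤ 3 * R0 ∧ r1 ≤ p' ∧ p' ≤ 3 * R0 ∧ x1 ≤ q2 ∧ q3 ≤ 11 * R0 / 3 ∧ 11 * R0 / 3 ≤ 4 * R0 ∧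
    4 * R0 ≤ 3 * R1 / 2 ∧ r0 ≤ r1 ∧ x1 ≤ r1 ∧ q1 ≤ q4 ∧ q4 < 3 * R0 ∧ 3 * R0 ≤ 11 * R0 / 3 ∧
    3 * R0 ≤ 10 * R0 / 3 ∧ 3 * R0 ≤ 2 * R1 ∧ r0 ≤ q1 ∧ q4 ≤ 2 * R1 := by
  refine ⟨?_, ?_, ?_, ?_, ?_, ?_, ?_, ?_, ?_, ?_, ?_, ?_, ?_, ?_, ?_, ?_, ?_, ?_, ?_, ?_, ?_, ?_, ?_,
    ?_, ?_, ?_, ?_⟩ <;> linarith

/-- The estimates for the spin -2. -/
theorem mode_minus (h0 : MODE0) (hu : UNC) : MODE false := by
  intro M0 a0 rm a0' ha f hf γ _ _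
  obtain ⟨N, rb, q2, q3, Rs, n2, b1, b2, b3, b4, b5, H⟩ := h0 M0 a0 rm a0' ha f hf
  obtain ⟨j, rfl⟩ : ∃ j, N = j + 2 := ⟨N - 2, by omega⟩
  have p0 := (abs_nonneg a0).trans_lt (ha.trans (P354XH.rp_gt ha))
  obtain ⟨q1, c1, c2⟩ := exists_between b3
  obtain ⟨p, c3, c4⟩ := exists_between c2
  obtain ⟨q4, c5, c6⟩ := exists_between b5
  obtain ⟨p', c7, c8⟩ := exists_between c5
  obtain ⟨ϑ, t0, t1, t2, t3⟩ := ex_th c4 b4 c7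
  refine ⟨j + 4, rb, q1, p, p', q4, Rs, by omega, b1, b2, c1, c3, by linarith, c8, c6,
    fun r0 r1 R0 d1 d2 d3 d4 d5 eH eH0 => ?_⟩
  obtain ⟨C0, -, H⟩ := H r0 R0 d1 d2 d5
  obtain ⟨β, β1, hβ⟩ := ex_pb ha (3 * R0)
  obtain ⟨δ1, δ1p, δ1l, hβ⟩ := hβ r1 d3
  obtain ⟨d, δ2, d0, δ2p, -, hd⟩ := ex_De ha d3 (3 * R0)
  obtain ⟨k, hk, k1⟩ : ∃ k, 40 * β ^ 2 / d ^ 2 ≤ k ∧ 1 ≤ k := ⟨_, le_max_left _ 1, le_max_right _ _⟩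
  obtain ⟨Ck, Ck1, hCk⟩ := ex_bo ![(oK (oD .one), 2), (oK (oD oy), 3)] (fun i => by
    fin_cases i
    exacts [⟨oK_sm (oD_sm trivial), le_rfl⟩, ⟨oK_sm (oD_sm oy_sm), le_rfl⟩]) M0 a0 r0 r1
  have R0p : 0 < R0 := by linarith
  obtain ⟨s2, s2p, st2⟩ := step (s := -2) (x' := r1) (y' := 3 * R0) (y := 10 * R0 / 3) ha hf
    (by norm_num) le_rfl d3 (by linarith) (by linarith) t0 t1
  obtain ⟨A2, A2p, hA2⟩ : ∃ A2, 0 < A2 ∧ A2 * s2 = 3 * (k + 1) + 1 :=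
    ⟨(3 * (k + 1) + 1) / s2, by positivity, div_mul_cancel₀ _ s2p.ne'⟩
  obtain ⟨e2, e2p, he2⟩ : ∃ e2, 0 < e2 ∧ A2 * (e2 * Ck) = eH / 2 :=
    ⟨eH / 2 / (A2 * Ck), by positivity, by field_simp⟩
  obtain ⟨x2, χ2, C2, δ3, f1, f2, f3, f4, C2p, δ3p, -, st2⟩ := st2 e2 e2p
  obtain ⟨s1, s1p, st1⟩ := step (s := -1) (x' := x2) (y' := 10 * R0 / 3) (y := 11 * R0 / 3) ha hf
    le_rfl (by norm_num) f1 (by linarith) (by linarith) t0 t1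
  obtain ⟨A1, A1p, hA1⟩ : ∃ A1, 0 < A1 ∧ A1 * s1 = A2 * C2 + 1 :=
    ⟨(A2 * C2 + 1) / s1, by positivity, div_mul_cancel₀ _ s1p.ne'⟩
  obtain ⟨e1, e1p, he1⟩ : ∃ e1, 0 < e1 ∧ A1 * (e1 * Ck) = eH / 2 :=
    ⟨eH / 2 / (A1 * Ck), by positivity, by field_simp⟩
  obtain ⟨x1, χ1, C1, δ4, g1, g2, g3, g4, C1p, δ4p, -, st1⟩ := st1 e1 e1p
  obtain ⟨A0, hA0⟩ : ∃ A0, A0 = A1 * C1 + 1 := ⟨_, rfl⟩
  have A0p : 0 ≤ A0 := by rw [hA0]; positivity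
  obtain ⟨Z, hZ⟩ : ∃ Z, (4 * R0) ^ 4 + (4 * R0) ^ 6 + 1 ≤ Z := ⟨_, le_rfl⟩
  have Z1 : 1 ≤ Z := le_trans (le_add_of_nonneg_left (by positivity)) hZ
  refine ⟨A0 * Z * C0, fun R1 hR => ?_⟩
  obtain ⟨l, C3, δ5, C3p, δ5p, lok, H⟩ := H R1 hR
  obtain ⟨B, B1, hB⟩ := ex_bo (ops f) (ops_ok hf.sm) M0 a0 r0 (2 * R1)
  obtain ⟨Cv, hCv⟩ : ∃ Cv, Cv = 115 * β ^ 2 * k ^ 2 := ⟨_, rfl⟩
  have Cvp : 0 ≤ Cv := by rw [hCv]; positivity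
  obtain ⟨ε, εp, hε⟩ : ∃ ε, 0 < ε ∧
      10 * B * (A2 * C2 + A1 * C1 + A0 * Z * (9 * C3)) * Cv * ε ≤ 1 :=
    ex_eps (by positivity)
  obtain ⟨o1, o2, o3, o4, o5, o6, o7, o8, o9, oa, ob, oc, od, oe, of, og, oh, oi, oj, ok, ol, on,
    oo, op, oq, os, ot⟩ := ord p0 d2 g1 g2 f2 d4 c3 c4 b4 c7 c8 (c6.trans_le d5) hR
  obtain ⟨Cu, δ6, Cup, δ6p, hU⟩ := hu M0 a0 r1 q1 q4 (3 * R0) a0' ha d3 d4 ol on ε εp
  have Z0 := zero_le_one.trans Z1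
  have C9 : 0 ≤ 9 * C3 := by positivity
  have D0 : 0 ≤ Cv * Cu * (10 * B) := by positivity
  have k3 : k + 1 ≤ 3 * (k + 1) := by linarith only [k1]
  refine ⟨lst l χ1 χ2 j (A0 * Z) A1 A2, 10 * B * (A2 * C2 + A1 * C1 + A0 * Z * (9 * C3)) *
    (1 + Cv * Cu * (10 * B)), min (min (min δ1 δ2) (min δ3 δ4)) (min δ5 δ6), by positivity,
    lst_ok lok g3 f3 g4 f4 o1 o2 o3 o4, fun M a hM hA S _ _ G hG hs om m v hv => ?_⟩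
  simp only [lt_min_iff] at hM hA
  have hs' : G.s = -2 := hs
  have s2' : |G.s| = 2 := by rw [hs', abs_neg, abs_two]
  have M1 := hM.1.1.1.le.trans δ1l
  have a1 := hA.1.1.1.le.trans δ1l
  have h : Hy G f ϑ B Ck M a m r0 r1 (2 * R1) v := ⟨hG, s2', hv, hf.sm, t0, B1,
    fun r hr => hB M a r M1 a1 hr, zero_le_one.trans Ck1, fun r hr => hCk M a r M1 a1 hr 0,
    fun r hr => hCk M a r M1 a1 hr 1⟩
  have pb : ∀ r ∈ Icc r1 (3 * R0), Pb β M a r ∧ d ≤ De M a r := fun r hr =>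
    ⟨hβ M a hM.1.1.1 hA.1.1.1 r hr, hd M a hM.1.1.2 hA.1.1.2 r hr⟩
  obtain ⟨HB, HE, -, HC, HL⟩ := H M a hM.2.1 hA.2.1 S G hG s2' om m
  have u2 := h.two (om := om) j (st2 M a hM.1.2.1 hA.1.2.1) o2 f2.le o9 o4 e2p.le C2p
  have u1 := h.one (om := om) j (st1 M a hM.1.2.2 hA.1.2.2) o1 g2.le f2.le oa o3 e1p.le C1p
  have lp := fun n => (pow_pos (lam_pos om m) n).le
  have l0 := (lam_pos om m).le
  have wp : ∀ n z x y, x ≤ y → 0 ≤ iW G om m n z x y := fun n z x y k =>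
    int_nn k fun r => Wn_nonneg n
  have cW := cont_Wn (om := om) (m := m) hG hv.1
  have cF := cont_Wn (om := om) (m := m) hG (h.sF (om := om)) (j + 3)
  have cτ := cont_ta (M := M) (a := a) (om := om) (m := m) t0.continuous
  have τ0 := fun r => zero_le_one.trans (ta_pos (M := M) (a := a) (om := om) (m := m) (r := r)
    (ϑ := ϑ))
  rw [show G.P G.s G.s = G.P (-2) G.s by rw [← hs'], show j + 4 - 1 = j + 3 from rfl]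
  constructor
  · have τ1 : ∀ r, r ≤ p ∨ p' ≤ r → lam om m ^ 1 ≤ ta M a om m ϑ r := fun r hr => by
      rw [ta, t3 r hr]; linarith only [sq_nonneg (ka M a r om m)]
    have v1 := h.lhs (j + 3) 1 cτ τ0 le_rfl ob oc d0 pb hk le_rfl fun r hr => τ1 r (.inl hr.2)
    have v2 := h.lhs (j + 3) 1 cτ τ0 od oe le_rfl d0 pb hk le_rfl fun r hr => τ1 r (.inr hr.1)
    have v3 := h.lhs (om := om) (j + 3) 0 cτ τ0 le_rfl o6 le_rfl d0 pb hk zero_le_one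
      fun r _ => (pow_zero _).trans_le ta_pos
    have w0 := (zero_le hG (h.mu (om := om)).1 (j + 2) t0.continuous t1 t2 p0 g1.le of b4 og oh oi
      hZ).trans (mul_le_mul_of_nonneg_left (h.zero_b j o5 C3p (HB _ h.mu) HC HL) Z0)
    have wu := h.unc j oj ok f2.le d4.le ol on.le oo op oq d0 pb hk k1 εp.le Cup
      (hU M a hM.2.2 hA.2.2 S om m)
    rw [← hCv] at wu
    rw [pair_lst g3 f3 g4 f4 o1 o2 o3 o4 hv.1.cd h.sF.cd, int_add (cW _) cF]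
    simp only [gc, cond_false, cv_l3]
    exact (fin_b (mul_nonneg (lp _) (int_nn o7 fun r => add_nonneg (sq_nonneg _)
      (mul_nonneg (sub_nonneg.2 ta_pos) (sq_nonneg _)))) (mul_nonneg (lp _) (int_nn o8 fun r =>
      Ou_nonneg (τ0 r))) (mul_nonneg (lp _) (int_nn o6 fun r => Ou_nonneg (τ0 r)))
      (wp _ _ _ _ oj) (add_nonneg (wp _ _ _ _ os) (wp _ _ _ _ ot)) (wp _ _ _ _ o5) (wp _ _ _ _ o5)
      A0p A1p.le A2p.le C1p C2p C9 Z0 h.b0 Cvp Cup u2.1 u1.1 w0 wu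
      ((add_le_add (add_le_add v1 v2) v3).trans_eq (by ring)) hA2 hA1 hA0
      ((add_le_add he2.le he1.le).trans_eq (add_halves eH)) hε :)
  · have v1 := h.lhs (om := om) (j + 3) 1 continuous_const (fun _ => l0) le_rfl o6 le_rfl d0 pb hk
      le_rfl fun r _ => (pow_one _).le
    have w0 := h.zero_e j o5 C3p g1.le o7 oh HE
    have T : ∀ n z x y, x ≤ y →
        0 ≤ lam om m ^ n * ∫ r in x..y, Ou G M a om m (fun _ => lam om m) z r := fun n z x y k =>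
      mul_nonneg (lp n) (int_nn k fun r => Ou_nonneg l0)
    rw [pair_lst g3 f3 g4 f4 o1 o2 o3 o4 hv.1.cd (cd_Nc hf.sm hv.1.cd), int_add (cW _) cF]
    exact (fin_e (mul_nonneg (lp _) (int_nn o7 fun r => by
      rw [d1_eq]; exact add_nonneg (V_nonneg 1) (An_nonneg _))) (T _ _ _ _ o8) (T _ _ _ _ o6)
      (add_nonneg (wp _ _ _ _ o5) (wp _ _ _ _ o5)) A0p A1p.le A2p.le C1p C2p C9 Z1 h.b0 D0 u2.2 u1.2
      w0 (v1.trans (mul_le_mul_of_nonneg_right k3 (T _ _ _ _ o6))) hA2 hA1 hA0 :)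

end Vale.Agent.P354RM
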