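import Vale.Agent.P354XT.Jet
import Vale.Agent.P354XT.Mode
import Vale.Agent.P354RP.Id

/-!
Operators on curves: composition, smoothness, uniform bounds, lists of terms.
-/

open scoped ContDiff InnerProductSpace
open Set
open Complex (I)
open Vale.Agent.P354BF Vale.Agent.P354XT Vale.Agent.P354XN Vale.Agent.P354RP

noncomputable section

namespace Vale.Agent.P354RM

/-- The composition. -/
def comp : Op → Op → Op
  | .one, d => d
  | .T e, d => .T (comp e d)
  | .R e, d => .R (comp e d)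
  | .F e, d => .F (comp e d)
  | .mul c e, d => .mul c (comp e d)
  | .add e e', d => .add (comp e d) (comp e' d)

theorem ord_comp (d : Op) : ∀ e : Op, (comp e d).ord = e.ord + d.ord
  | .one => (zero_add _).symm
  | .T e => by simp only [comp, Op.ord, ord_comp d e]; omega
  | .R e => by simp only [comp, Op.ord, ord_comp d e]; omega
  | .F e => by simp only [comp, Op.ord, ord_comp d e]; omega
  | .mul _ e => by simp only [comp, Op.ord, ord_comp d e]
  | .add e e' => by simp only [comp, Op.ord, ord_comp d e, ord_comp d e']; omega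

theorem sm_comp {d : Op} (hd : d.Sm) : ∀ e : Op, e.Sm → (comp e d).Sm
  | .one, _ => hd
  | .T e, h => sm_comp hd e h
  | .R e, h => sm_comp hd e h
  | .F e, h => sm_comp hd e h
  | .mul _ e, h => ⟨h.1, sm_comp hd e h.2⟩
  | .add e e', h => ⟨sm_comp hd e h.1, sm_comp hd e' h.2⟩

variable {S : Type} [NormedAddCommGroup S] [InnerProductSpace ℂ S] {G : Ang S}
  {M a om m x y r : ℝ} {u v H : ℝ → S}

theorem cv_comp (d : Op) (v : ℝ → S) :
    ∀ e : Op, (comp e d).cv M a om m v = e.cv M a om m (d.cv M a om m v)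
  | .one => rfl
  | .T e => by simp only [comp, Op.cv, cv_comp d v e]
  | .R e => by simp only [comp, Op.cv, cv_comp d v e]
  | .F e => by simp only [comp, Op.cv, cv_comp d v e]
  | .mul _ e => by simp only [comp, Op.cv, cv_comp d v e]
  | .add e e' => by simp only [comp, Op.cv, cv_comp d v e, cv_comp d v e']

theorem cd_der {E : Type} [NormedAddCommGroup E] [NormedSpace ℝ E] {v : ℝ → E}
    (hv : ContDiff ℝ ∞ v) : ContDiff ℝ ∞ (deriv v) := (contDiff_infty_iff_deriv.1 hv).2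
theorem cd_has {E : Type} [NormedAddCommGroup E] [NormedSpace ℝ E] {v : ℝ → E}
    (hv : ContDiff ℝ ∞ v) (r : ℝ) : HasDerivAt v (deriv v r) r :=
  ((contDiff_infty_iff_deriv.1 hv).1 r).hasDerivAt

theorem cd_cv (hv : ContDiff ℝ ∞ v) : ∀ e : Op, e.Sm → ContDiff ℝ ∞ (e.cv M a om m v)
  | .one, _ => hv
  | .T e, h => (cd_cv hv e h).const_smul _
  | .R e, h => cd_der (cd_cv hv e h)
  | .F e, h => (cd_cv hv e h).const_smul _
  | .mul _ e, h => (cd_C (sm3 h.1 M a)).smul (cd_cv hv e h.2)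
  | .add e e', h => (cd_cv hv e h.1).add (cd_cv hv e' h.2)

theorem md_cv (hG : G.Is) {m' : ℝ} (hv : G.Md m' v) : ∀ e : Op, e.Sm → G.Md m' (e.cv M a om m v)
  | .one, _ => hv
  | .T e, h => (md_cv hG hv e h).smul (c := fun _ => -(I * om)) contDiff_const
  | .R e, h => hG.md_deriv (md_cv hG hv e h)
  | .F e, h => (md_cv hG hv e h).smul (c := fun _ => I * m) contDiff_const
  | .mul _ e, h => (md_cv hG hv e h.2).smul (cd_C (sm3 h.1 M a))
  | .add e e', h => (md_cv hG hv e h.1).add (md_cv hG hv e' h.2)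

/-- The operators commute with the rotations. -/
theorem L_cv (hG : G.Is) (hv : G.Md m v) (i : Fin 3) : ∀ e : Op, e.Sm →
    (fun r => G.L i (e.cv M a om m v r)) = e.cv M a om m fun r => G.L i (v r)
  | .one, _ => rfl
  | .T e, h => by simp only [Op.cv, map_smul, ← L_cv hG hv i e h]
  | .R e, h => by
    simp only [Op.cv, ← L_cv hG hv i e h]
    exact funext fun r => (hG.deriv_L (md_cv hG hv e h).1 i r).symm
  | .F e, h => by simp only [Op.cv, map_smul, ← L_cv hG hv i e h]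
  | .mul _ e, h => by simp only [Op.cv, map_smul, ← L_cv hG hv i e h.2]
  | .add e e', h => by simp only [Op.cv, map_add, ← L_cv hG hv i e h.1, ← L_cv hG hv i e' h.2]

theorem one_le_lam (om m : ℝ) : 1 ≤ lam om m := by
  rw [lam]; linarith [sq_nonneg om, sq_nonneg m]
theorem lam_pos (om m : ℝ) : 0 < lam om m := one_pos.trans_le (one_le_lam om m)

/-- The derivatives of order k without angular letters. -/
def V (om m : ℝ) (k : ℕ) (v : ℝ → S) (r : ℝ) : ℝ :=
  ∑ j ∈ Finset.range (k + 1), lam om m ^ (k - j) * ‖iteratedDeriv j v r‖ ^ 2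

theorem V_nonneg (k : ℕ) : 0 ≤ V om m k v r :=
  Finset.sum_nonneg fun _ _ => mul_nonneg (pow_pos (lam_pos om m) _).le (sq_nonneg _)

theorem V_succ (k : ℕ) :
    V om m (k + 1) v r = lam om m * V om m k v r + ‖iteratedDeriv (k + 1) v r‖ ^ 2 := by
  rw [V, Finset.sum_range_succ, V, Finset.mul_sum, Nat.sub_self, pow_zero, one_mul]
  refine congrArg (· + _) (Finset.sum_congr rfl fun j hj => ?_)
  rw [Nat.succ_sub (Nat.lt_succ_iff.1 (Finset.mem_range.1 hj)), pow_succ]; ring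

theorem lam_V (k : ℕ) : lam om m * V om m k v r ≤ V om m (k + 1) v r := by
  rw [V_succ]; linarith [sq_nonneg ‖iteratedDeriv (k + 1) v r‖]

theorem V_mono {k l : ℕ} (h : k ≤ l) : V om m k v r ≤ V om m l v r := by
  induction h with
  | refl => exact le_rfl
  | step _ ih =>
    exact ih.trans ((le_mul_of_one_le_left (V_nonneg _) (one_le_lam om m)).trans (lam_V _))

theorem le_V (k : ℕ) : ‖iteratedDeriv k v r‖ ^ 2 ≤ V om m k v r := by
  cases k with
  | zero => simp [V]
  | succ k => rw [V_succ]; linarith [mul_nonneg (lam_pos om m).le (V_nonneg (om := om) (m := m) (v := v) (r := r) k)]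

theorem V_zero : V om m 0 v r = ‖v r‖ ^ 2 := by simp [V]
theorem V_one : V om m 1 v r = lam om m * ‖v r‖ ^ 2 + ‖deriv v r‖ ^ 2 := by
  rw [V_succ, V_zero, iteratedDeriv_one]
theorem V_two : V om m 2 v r =
    lam om m * (lam om m * ‖v r‖ ^ 2 + ‖deriv v r‖ ^ 2) + ‖deriv (deriv v) r‖ ^ 2 := by
  rw [V_succ, V_one, iteratedDeriv_succ, iteratedDeriv_one]

theorem cont_V (hv : ContDiff ℝ ∞ v) (k : ℕ) : Continuous (V om m k v) :=
  continuous_finsetSum _ fun j _ => continuous_const.mul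
    ((hv.continuous_iteratedDeriv j (by exact_mod_cast le_top)).norm.pow 2)

/-- The operator e has order at most k on the box. -/
def Ob (M0 a0 x y : ℝ) (k i : ℕ) (e : Op) : Prop :=
  ∃ C, 0 ≤ C ∧ ∀ M a r, |M - M0| ≤ 1 → |a - a0| ≤ 1 → r ∈ Icc x y →
    ∀ (S : Type) [NormedAddCommGroup S] [InnerProductSpace ℂ S] (om m : ℝ) (v : ℝ → S),
      ContDiff ℝ ∞ v → ‖iteratedDeriv i (e.cv M a om m v) r‖ ^ 2 ≤ C * V om m k v r

theorem box_bd (M0 a0 x y : ℝ) {c : ℝ × ℝ × ℝ → ℝ} (hc : Continuous c) :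
    ∃ C, 1 ≤ C ∧ ∀ M a r, |M - M0| ≤ 1 → |a - a0| ≤ 1 → r ∈ Icc x y → |c (M, a, r)| ≤ C := by
  obtain ⟨C, h⟩ := ((isCompact_closedBall M0 1).prod ((isCompact_closedBall a0 1).prod
    (isCompact_Icc (a := x) (b := y)))).exists_bound_of_continuousOn hc.continuousOn
  exact ⟨max C 1, le_max_right _ _, fun M a r h1 h2 h3 => le_max_of_le_left (h _ ⟨h1, h2, h3⟩)⟩

variable {M0 a0 : ℝ} {k i : ℕ} {e e' : Op}

theorem Ob.mono {l : ℕ} (h : Ob M0 a0 x y k i e) (hl : k ≤ l) : Ob M0 a0 x y l i e :=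
  h.imp fun _ c => ⟨c.1, fun M a r h1 h2 h3 S _ _ om m v hv =>
    (c.2 M a r h1 h2 h3 S om m v hv).trans (mul_le_mul_of_nonneg_left (V_mono hl) c.1)⟩

omit [InnerProductSpace ℂ S] in
theorem nadd (p q : S) : ‖p + q‖ ^ 2 ≤ 2 * ‖p‖ ^ 2 + 2 * ‖q‖ ^ 2 := by
  nlinarith [norm_add_le p q, norm_nonneg (p + q), sq_nonneg (‖p‖ - ‖q‖)]

theorem Ob.add (h : Ob M0 a0 x y k i e) (h' : Ob M0 a0 x y k i e') (s : e.Sm) (s' : e'.Sm) :
    Ob M0 a0 x y k i (.add e e') := by
  obtain ⟨C, c, h⟩ := h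
  obtain ⟨C', c', h'⟩ := h'
  refine ⟨2 * C + 2 * C', by positivity, fun M a r h1 h2 h3 S _ _ om m v hv => ?_⟩
  rw [Op.cv, iteratedDeriv_fun_add ((cd_cv hv e s).contDiffAt.of_le (by exact_mod_cast le_top))
    ((cd_cv hv e' s').contDiffAt.of_le (by exact_mod_cast le_top))]
  linarith [nadd (iteratedDeriv i (e.cv M a om m v) r) (iteratedDeriv i (e'.cv M a om m v) r),
    h M a r h1 h2 h3 S om m v hv, h' M a r h1 h2 h3 S om m v hv]

theorem ob_mul (i : ℕ) : ∀ (c : ℝ × ℝ × ℝ → ℝ) (e : Op) (k : ℕ), ContDiff ℝ ∞ c → e.Sm →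
    (∀ j, Ob M0 a0 x y (k + j) j e) → Ob M0 a0 x y (k + i) i (.mul c e) := by
  induction i with
  | zero =>
    intro c e k hc _ h
    obtain ⟨C, c0, h⟩ := h 0
    obtain ⟨B, -, b⟩ := box_bd M0 a0 x y hc.continuous
    refine ⟨B ^ 2 * C, by positivity, fun M a r h1 h2 h3 S _ _ om m v hv => ?_⟩
    have := h M a r h1 h2 h3 S om m v hv
    rw [iteratedDeriv_zero] at this ⊢
    rw [Op.cv, norm_real, mul_pow, mul_assoc]
    exact mul_le_mul (pow_le_pow_left₀ (abs_nonneg _) (b M a r h1 h2 h3) 2) this (sq_nonneg _)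
      (sq_nonneg _)
  | succ i ih =>
    intro c e k hc s h
    have h1 := (ih c (.R e) (k + 1) hc s fun j => (h (j + 1)).imp fun C b =>
      ⟨b.1, fun M a r h1 h2 h3 S _ _ om m v hv => by
        rw [Op.cv, ← iteratedDeriv_succ', show k + 1 + j = k + (j + 1) by omega]
        exact b.2 M a r h1 h2 h3 S om m v hv⟩).mono (show k + 1 + i ≤ k + (i + 1) by omega)
    have h2 := (ih (d3 c) e k (d3_sm hc) s h).mono (show k + i ≤ k + (i + 1) by omega)
    refine (h1.add h2 ⟨hc, s⟩ ⟨d3_sm hc, s⟩).imp fun C b =>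
      ⟨b.1, fun M a r h1 h2 h3 S _ _ om m v hv => ?_⟩
    have e1 : deriv ((Op.mul c e).cv M a om m v) =
        (Op.add (.mul c (.R e)) (.mul (d3 c) e)).cv M a om m v := funext fun t => by
      have := (cd_has (sm3 hc M a) t).ofReal_comp.smul (cd_has (cd_cv (M := M) (a := a) (om := om)
        (m := m) hv e s) t)
      rw [d3_eq hc] at this
      exact this.deriv
    rw [iteratedDeriv_succ', e1]
    exact b.2 M a r h1 h2 h3 S om m v hv

theorem ob_sc {c : ℝ → ℝ → ℂ} (hc : ∀ om m, ‖c om m‖ ^ 2 ≤ lam om m) (h : Ob M0 a0 x y k i e)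
    (he : ∀ (S : Type) [NormedAddCommGroup S] [InnerProductSpace ℂ S] (M a om m : ℝ) (v : ℝ → S),
      e'.cv M a om m v = fun r => c om m • e.cv M a om m v r) : Ob M0 a0 x y (k + 1) i e' :=
  h.imp fun C b => ⟨b.1, fun M a r h1 h2 h3 S _ _ om m v hv => by
    rw [he, iteratedDeriv_fun_const_smul_field, norm_smul, mul_pow]
    calc _ ≤ lam om m * (C * V om m k v r) :=
          mul_le_mul (hc om m) (b.2 M a r h1 h2 h3 S om m v hv) (sq_nonneg _) (lam_pos om m).le
      _ = C * (lam om m * V om m k v r) := by ring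
      _ ≤ _ := mul_le_mul_of_nonneg_left (lam_V k) b.1⟩

theorem ob_all (M0 a0 x y : ℝ) : ∀ e : Op, e.Sm → ∀ i, Ob M0 a0 x y (e.ord + i) i e
  | .one, _, i => ⟨1, zero_le_one, fun M a r _ _ _ S _ _ om m v _ => by
      rw [one_mul, Op.ord, zero_add]; exact le_V i⟩
  | .T e, h, i => by
    rw [Op.ord, Nat.add_right_comm]
    exact ob_sc (c := fun om _ => -(I * om)) (fun om m => by
      simp [lam]; linarith [sq_nonneg m]) (ob_all M0 a0 x y e h i) fun _ _ _ _ _ _ _ _ => rfl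
  | .F e, h, i => by
    rw [Op.ord, Nat.add_right_comm]
    exact ob_sc (c := fun _ m => I * m) (fun om m => by
      simp [lam]; linarith [sq_nonneg om]) (ob_all M0 a0 x y e h i) fun _ _ _ _ _ _ _ _ => rfl
  | .R e, h, i => (ob_all M0 a0 x y e h (i + 1)).imp fun C b =>
      ⟨b.1, fun M a r h1 h2 h3 S _ _ om m v hv => by
        rw [Op.cv, ← iteratedDeriv_succ', Op.ord, show e.ord + 1 + i = e.ord + (i + 1) by omega]
        exact b.2 M a r h1 h2 h3 S om m v hv⟩
  | .mul c e, h, i => ob_mul i c e _ h.1 h.2 (ob_all M0 a0 x y e h.2)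
  | .add e e', h, i => ((ob_all M0 a0 x y e h.1 i).mono (by simp [Op.ord])).add
      ((ob_all M0 a0 x y e' h.2 i).mono (by simp [Op.ord])) h.1 h.2

/-- The uniform bound for an operator of order at most k. -/
theorem cv_bd (M0 a0 x y : ℝ) (e : Op) (h : e.Sm) (hk : e.ord ≤ k) :
    ∃ C, 0 ≤ C ∧ ∀ M a r, |M - M0| ≤ 1 → |a - a0| ≤ 1 → r ∈ Icc x y →
      ∀ (S : Type) [NormedAddCommGroup S] [InnerProductSpace ℂ S] (om m : ℝ) (v : ℝ → S),
        ContDiff ℝ ∞ v → ‖e.cv M a om m v r‖ ^ 2 ≤ C * V om m k v r :=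
  (ob_all M0 a0 x y e h 0).mono hk

/-- Terms: scaling, composition, multiplication by lam. -/
def tsc (c : ℝ) (τ : Tm) : Tm := ⟨fun p => c * τ.w p, τ.al, τ.be⟩
def tcp (d d' : Op) (τ : Tm) : Tm := ⟨τ.w, comp τ.al d, comp τ.be d'⟩
def tlm (l : List Tm) : List Tm :=
  l ++ (l.map (fun τ => ⟨τ.w, .T τ.al, .T τ.be⟩) ++ l.map fun τ => ⟨τ.w, .F τ.al, .F τ.be⟩)

variable {l l' : List Tm} {n : ℕ}

theorem pair_app (l l' : List Tm) : pair (l ++ l') M a om m x y H v =
    pair l M a om m x y H v + pair l' M a om m x y H v := by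
  simp only [pair, List.map_append, List.sum_append]

theorem pair_map (g : Tm → Tm) (c : ℝ) {H' v' : ℝ → S} (h : ∀ τ r, (g τ).w (M, a, r) *
    ri ((g τ).al.cv M a om m H r) ((g τ).be.cv M a om m v r) =
      c * (τ.w (M, a, r) * ri (τ.al.cv M a om m H' r) (τ.be.cv M a om m v' r))) :
    pair (l.map g) M a om m x y H v = c * pair l M a om m x y H' v' := by
  simp only [pair, List.map_map, ← List.sum_map_mul_left]
  refine congrArg List.sum (List.map_congr_left fun τ _ => ?_)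
  rw [← intervalIntegral.integral_const_mul]
  exact congrArg (fun F => ∫ r in x..y, F r) (funext (h τ))

theorem pair_sc (c : ℝ) : pair (l.map (tsc c)) M a om m x y H v = c * pair l M a om m x y H v :=
  pair_map _ c fun _ _ => mul_assoc _ _ _

theorem pair_cp (d d' : Op) : pair (l.map (tcp d d')) M a om m x y H v =
    pair l M a om m x y (d.cv M a om m H) (d'.cv M a om m v) :=
  (pair_map _ 1 fun τ r => by rw [one_mul, ← cv_comp, ← cv_comp]; rfl).trans (one_mul _)

theorem ri_sc (c : ℂ) (p q : S) : ri (c • p) (c • q) = ‖c‖ ^ 2 * ri p q := by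
  rw [ri, inner_smul_left, inner_smul_right, ← mul_assoc, Complex.conj_mul', ← Complex.ofReal_pow,
    Complex.re_ofReal_mul, ri]

theorem pair_lm : pair (tlm l) M a om m x y H v = lam om m * pair l M a om m x y H v := by
  rw [tlm, pair_app, pair_app, pair_map _ (om ^ 2) (H' := H) (v' := v), pair_map _ (m ^ 2) (H' := H)
    (v' := v), lam]
  · ring
  · intro τ r; simp only [Op.cv, ri_sc]; simp; ring
  · intro τ r; simp only [Op.cv, ri_sc]; simp; ring

theorem pair_it (j : ℕ) (l : List Tm) :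
    pair (tlm^[j] l) M a om m x y H v = lam om m ^ j * pair l M a om m x y H v := by
  induction j with
  | zero => simp
  | succ j ih => rw [Function.iterate_succ_apply', pair_lm, ih]; ring

/-- All terms are admissible. -/
def Oks (l : List Tm) (n : ℕ) (x y : ℝ) : Prop := ∀ τ ∈ l, τ.Ok n x y

theorem Oks.app (h : Oks l n x y) (h' : Oks l' n x y) : Oks (l ++ l') n x y :=
  fun τ k => (List.mem_append.1 k).elim (h τ) (h' τ)

theorem Oks.map {n' : ℕ} (h : Oks l n x y) (g : Tm → Tm) (hg : ∀ τ, τ.Ok n x y → (g τ).Ok n' x y) :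
    Oks (l.map g) n' x y := fun _ k => by
  obtain ⟨τ, k', rfl⟩ := List.mem_map.1 k
  exact hg τ (h τ k')

theorem Oks.sc (h : Oks l n x y) (c : ℝ) : Oks (l.map (tsc c)) n x y :=
  h.map _ fun τ k => ⟨contDiff_const.mul k.sw, fun M a r hr => by
    simp only [tsc, k.out M a r hr, mul_zero], k.sa, k.sb, k.oa, k.ob⟩

theorem Oks.cp (h : Oks l n x y) (s : e.Sm) (s' : e'.Sm) (o : e.ord ≤ k) (o' : e'.ord ≤ k) :
    Oks (l.map (tcp e e')) (n + k) x y :=
  h.map _ fun τ b => ⟨b.sw, b.out, sm_comp s _ b.sa, sm_comp s' _ b.sb,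
    (ord_comp _ _).le.trans (by have := b.oa; omega), (ord_comp _ _).le.trans (by
      have := b.ob; omega)⟩

theorem Oks.lm (h : Oks l n x y) : Oks (tlm l) (n + 1) x y :=
  Oks.app (fun τ k => ⟨(h τ k).sw, (h τ k).out, (h τ k).sa, (h τ k).sb, (h τ k).oa.trans
      (Nat.le_succ _), (h τ k).ob.trans (Nat.le_succ _)⟩)
    (Oks.app (h.map _ fun _ b =>
        ⟨b.sw, b.out, b.sa, b.sb, Nat.succ_le_succ b.oa, Nat.succ_le_succ b.ob⟩)
      (h.map _ fun _ b => ⟨b.sw, b.out, b.sa, b.sb, Nat.succ_le_succ b.oa, Nat.succ_le_succ b.ob⟩))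

theorem Oks.it (h : Oks l n x y) (j : ℕ) : Oks (tlm^[j] l) (n + j) x y := by
  induction j with
  | zero => exact h
  | succ j ih => rw [Function.iterate_succ_apply']; exact ih.lm

end Vale.Agent.P354RM
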