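import Vale.Agent.P354RM.Chn
import Vale.Agent.P354RP.Pt

/-!
Bounds at a point outside of the horizon, and the two currents.
-/

open scoped ContDiff InnerProductSpace
open Set
open Complex (I)
open Vale.Agent.P354BF Vale.Agent.P354XT Vale.Agent.P354XN Vale.Agent.P354RP
open Vale.Agent.P354XH (K ka)
open Vale.Agent.P354M0 (Lv)

noncomputable section

namespace Vale.Agent.P354RM

/-- One bound for all coefficients. -/
structure Pb (β M a r : ℝ) : Prop where
  one : 1 ≤ β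
  D0 : 0 ≤ De M a r
  D1 : De M a r ≤ β
  E0 : 0 ≤ 2 * r - 2 * M
  E1 : 2 * r - 2 * M ≤ β
  r0 : 0 ≤ r
  r1 : r ≤ β
  Ma : |M ^ 2 - a ^ 2| ≤ β
  S0 : 1 ≤ β * (r ^ 2 + a ^ 2)
  S1 : r ^ 2 + a ^ 2 ≤ β
  K2 : ∀ om m, K a r om m ^ 2 ≤ β * lam om m
  ka2 : ∀ om m, ka M a r om m ^ 2 ≤ β * lam om m
  ka3 : ∀ om m, ka1 M a r om m ^ 2 ≤ β * lam om m
  ang : ∀ (S : Type) [NormedAddCommGroup S] [InnerProductSpace ℂ S] (G : Ang S), G.Is →
    |G.s| = 2 → ∀ (om m : ℝ) (u : S), G.L 2 u = (I * m) • u →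
      lam om m * ‖u‖ ^ 2 ≤ β * (‖u‖ ^ 2 + K a r om m ^ 2 * ‖u‖ ^ 2 + ‖mu G a om m u‖ ^ 2) ∧
      ‖mu G a om m u‖ ^ 2 ≤ ell G G.s a om m u + β * (La om m * ‖u‖ ^ 2) ∧
      An G u ≤ ell G G.s a om m u + β * (lam om m * ‖u‖ ^ 2)

theorem sq_le_lam {c B om m : ℝ} (h : |c| ≤ B * La om m) : c ^ 2 ≤ B ^ 2 * lam om m := by
  rw [← La_sq, ← mul_pow, ← sq_abs c]; exact pow_le_pow_left₀ (abs_nonneg c) h 2

theorem pb_of {B M a r : ℝ} (h : Zn B M a r) (h2 : 2 ≤ B) (hr : r ≤ B) : Pb (100 * B ^ 8) M a r := by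
  have r0 := h.r0
  have M0 := h.M0
  have p : ∀ j ≤ 8, B ^ j ≤ B ^ 8 := fun j hj => pow_le_pow_right₀ h.B1 hj
  have p0 := p 0 (by norm_num); have p1 := p 1 (by norm_num); have p2 := p 2 (by norm_num)
  have p4 := p 4 (by norm_num); have p6 := p 6 (by norm_num)
  rw [pow_zero] at p0; rw [pow_one] at p1
  have r2 : r ^ 2 ≤ B ^ 2 := pow_le_pow_left₀ r0.le hr 2
  have M2 : M ^ 2 ≤ B ^ 2 := pow_le_pow_left₀ M0 h.MB 2
  have a2 := h.a2
  have aB := h.aB
  have a3 := a2.trans M2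
  have a4 : |a| ≤ B ^ 2 := by nlinarith
  have hK : ∀ om m, |K a r om m| ≤ 3 * B ^ 2 * La om m := fun om m => by
    have := om_La om m; have := m_La om m; have := La_pos om m
    refine (abs_sub _ _).trans ?_
    rw [abs_mul, abs_mul, abs_of_nonneg (by positivity : 0 ≤ r ^ 2 + a ^ 2)]
    calc _ ≤ La om m * (B ^ 2 + B ^ 2) + B ^ 2 * La om m := by
          gcongr
      _ = _ := by ring
  have lp := fun om m => (lam_pos om m).le
  refine ⟨by linarith, h.De0, by linarith [h.De1], by linarith [h.Mr], by linarith, r0.le,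
    by linarith, abs_le.2 ⟨by nlinarith, by nlinarith [sq_nonneg a]⟩, ?_, by linarith,
    fun om m => (sq_le_lam (hK om m)).trans (by gcongr; exacts [lp om m, by nlinarith]),
    fun om m => (sq_le_lam (B := 5 * B ^ 3) ?_).trans (by gcongr; exacts [lp om m, by nlinarith]),
    fun om m => (sq_le_lam (B := 10 * B ^ 2 + B) ?_).trans
      (by gcongr; exacts [lp om m, by nlinarith]), fun S _ _ G hG hs om m u hu => ⟨?_, ?_, ?_⟩⟩
  · have := mul_le_mul h.rB h.rB zero_le_one (by positivity)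
    nlinarith [sq_nonneg a, sq_nonneg r]
  · have := om_La om m; have := hK om m; have := La_pos om m; have := h.De0; have := h.Mr
    rw [ka_eq]
    refine (abs_sub _ _).trans ?_
    rw [abs_mul, abs_mul, abs_mul _ (r - M), abs_of_nonneg h.De0, abs_of_nonneg (sub_nonneg.2 h.Mr),
      abs_of_pos (by positivity : 0 < 2 * r)]
    calc _ ≤ 2 * B * La om m * B ^ 2 + 3 * B ^ 2 * La om m * B := by
          gcongr <;> linarith [h.De1]
      _ = _ := by ring
  · have := om_La om m; have := m_La om m; have := La_pos om m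
    have e : |3 * r ^ 2 - 6 * M * r + a ^ 2| ≤ 10 * B ^ 2 := by
      have := mul_le_mul h.MB hr r0.le h.B0.le
      exact abs_le.2 ⟨by nlinarith, by nlinarith [mul_nonneg M0 r0.le]⟩
    refine (abs_add_le _ _).trans ?_
    rw [abs_mul, abs_mul]
    calc _ ≤ La om m * (10 * B ^ 2) + B * La om m := by gcongr
      _ = _ := by ring
  · have e := pow_le_pow_left₀ (by have := La_pos om m; positivity) (La_mul hG h om m u) 2
    rw [mul_pow, La_sq] at e
    rw [← sq_abs (K a r om m), ← mul_pow]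
    generalize |K a r om m| * ‖u‖ = x at e ⊢
    generalize ‖mu G a om m u‖ = y, ‖u‖ = z at e ⊢
    have b : B ^ 8 = (B ^ 4) ^ 2 := by ring
    rw [b] at p0 ⊢
    generalize B ^ 4 = c at e p0 ⊢
    have h3 : (z + 3 * c * (x + y)) ^ 2 ≤ 3 * z ^ 2 + 27 * (c * x) ^ 2 + 27 * (c * y) ^ 2 := by
      nlinarith [sq_nonneg (z - 3 * c * x), sq_nonneg (z - 3 * c * y), sq_nonneg (c * x - c * y)]
    refine (e.trans h3).trans ?_
    nlinarith [mul_le_mul_of_nonneg_right p0 (sq_nonneg z), sq_nonneg (c * x), sq_nonneg (c * y),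
      sq_nonneg (c * z)]
  · refine (mu_le hG G.s a om m hu).trans (add_le_add le_rfl ?_)
    have := om_La om m; have := La_pos om m
    rw [hs, abs_mul]
    calc _ ≤ 2 * (2 + 2) * (B * La om m) * ‖u‖ ^ 2 := by gcongr
      _ = 8 * B * (La om m * ‖u‖ ^ 2) := by ring
      _ ≤ _ := by gcongr; linarith
  · refine (An_le hG (B := B) (hs.le.trans h2) aB om m u).trans (add_le_add le_rfl ?_)
    rw [mul_assoc]
    exact mul_le_mul_of_nonneg_right (by linarith) (mul_nonneg (lp om m) (sq_nonneg _))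

variable {S : Type} [NormedAddCommGroup S] [InnerProductSpace ℂ S] {G : Ang S}
  {M a om m r : ℝ} {z w : ℝ → S}

theorem yg (p q : ℝ) (x y : S) : 2 * p * q * ri x y ≤ p ^ 2 * ‖x‖ ^ 2 + q ^ 2 * ‖y‖ ^ 2 := by
  have := ri_le ((p : ℂ) • x) ((q : ℂ) • y)
  rw [ri_real, ri_real_l, norm_real, norm_real] at this
  nlinarith [sq_nonneg (|p| * ‖x‖ - |q| * ‖y‖), sq_abs p, sq_abs q]

theorem ygI (p q : ℝ) (x y : S) : 2 * p * q * ri (I • x) y ≤ p ^ 2 * ‖x‖ ^ 2 + q ^ 2 * ‖y‖ ^ 2 := by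
  have := yg p q (I • x) y
  rwa [norm_I] at this

theorem D_facts (M a om m : ℝ) (z : ℝ → S) (r : ℝ) :
    ‖D M a om m z r‖ ^ 2 = De M a r ^ 2 * ‖deriv z r‖ ^ 2 -
      2 * De M a r * K a r om m * ri (I • z r) (deriv z r) + K a r om m ^ 2 * ‖z r‖ ^ 2 ∧
    ri (I • z r) (D M a om m z r) = De M a r * ri (I • z r) (deriv z r) - K a r om m * ‖z r‖ ^ 2 ∧
    ri (z r) (D M a om m z r) = De M a r * ri (z r) (deriv z r) := by
  refine ⟨?_, ?_, ?_⟩ <;>
    simp only [D, ← ri_self, ri_sub, ri_sub_l, ri_real, ri_real_l, ri_II, ri_comm _ (I • z r),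
      ri_I_self] <;> ring

/-- The current of the Lagrangian with the weight k. -/
theorem curl (hG : G.Is) (hz : G.Sm z) (t κ : ℝ) {k : ℝ → ℝ} {k1 : ℝ} (hk : HasDerivAt k k1 r) :
    HasDerivAt (fun x => De M a x ^ 2 * k x * ri (z x) (deriv z x))
      (k r * (‖D M a om m z r‖ ^ 2 - K a r om m ^ 2 * ‖z r‖ ^ 2 +
          De M a r * ell G κ a om m (z r)) +
        De M a r * k r * ri (z r) (G.P t κ M a om m z r) - De M a r * k r * (t ^ 2 - t) * ‖z r‖ ^ 2 +
        ((1 + t) * (2 * r - 2 * M) * k r + De M a r * k1) * ri (z r) (D M a om m z r)) r := by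
  have := cur3 hG hz t κ M a om m (hasDerivAt_const r (0 : ℝ)) (hasDerivAt_const r (0 : ℝ))
    ((der_De M a r).fun_mul hk)
  obtain ⟨e1, -, e3⟩ := D_facts M a om m z r
  refine (this.congr_of_eventuallyEq (Filter.Eventually.of_forall fun x => by ring)).congr_deriv ?_
  simp only [X, ri_add_l, ri_sub_l, ri_real_l, e1, e3]
  ring

/-- The current of the multiplier De k K. -/
theorem curk (hG : G.Is) (hw : G.Sm w) (t κ : ℝ) {k : ℝ → ℝ} {k1 : ℝ} (hk : HasDerivAt k k1 r) :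
    HasDerivAt (fun x => -2 * (De M a x * k x * K a x om m) *
        (De M a x * ri (I • w x) (deriv w x) - K a x om m * ‖w x‖ ^ 2))
      (-2 * De M a r * k r * K a r om m * ri (I • w r) (G.P t κ M a om m w r) -
        2 * (((2 * r - 2 * M) * k r + De M a r * k1) * K a r om m + 2 * r * om * De M a r * k r) *
          ri (I • w r) (D M a om m w r) -
        2 * t * k r * K a r om m * (2 * r - 2 * M) *
          (ri (I • w r) (D M a om m w r) + K a r om m * ‖w r‖ ^ 2) +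
        8 * t * om * r * De M a r * k r * K a r om m * ‖w r‖ ^ 2) r := by
  have := cur3 hG hw t κ M a om m (hasDerivAt_const r (0 : ℝ))
    (((der_De M a r).fun_mul hk).fun_mul (der_K a om m r)) (hasDerivAt_const r (0 : ℝ))
  obtain ⟨-, e2, -⟩ := D_facts M a om m w r
  refine (this.congr_of_eventuallyEq (Filter.Eventually.of_forall fun x => by ring)).congr_deriv ?_
  simp only [X, ri_add_l, ri_sub_l, ri_real_l, e2]
  ring

end Vale.Agent.P354RM
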