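import Vale.Agent.P354RM.Pb
import Vale.Agent.P354RM.Alg

/-!
The pointwise estimates of one step of the recovery for negative spin.
-/

open scoped ContDiff InnerProductSpace
open Set
open Complex (I)
open Vale.Agent.P354BF Vale.Agent.P354XT Vale.Agent.P354XN Vale.Agent.P354RP
open Vale.Agent.P354XH (K ka)
open Vale.Agent.P354M0 (Lv)

noncomputable section

namespace Vale.Agent.P354RM

variable {S : Type} [NormedAddCommGroup S] [InnerProductSpace ℂ S] {G : Ang S}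
  {β γ M a om m r s : ℝ} {y z w : ℝ → S}

theorem nsq (c : ℝ) (x : S) : ‖(c : ℂ) • x‖ ^ 2 = c ^ 2 * ‖x‖ ^ 2 := by
  rw [norm_real, mul_pow, sq_abs]
theorem nsqI (c : ℝ) (x : S) : ‖(c : ℂ) • I • x‖ ^ 2 = c ^ 2 * ‖x‖ ^ 2 := by rw [nsq, norm_I]

omit [InnerProductSpace ℂ S] in
theorem nsub (p q : S) : ‖p - q‖ ^ 2 ≤ 2 * ‖p‖ ^ 2 + 2 * ‖q‖ ^ 2 := by
  simpa only [sub_eq_add_neg, norm_neg] using nadd p (-q)

theorem V_parts (om m : ℝ) (y : ℝ → S) (r : ℝ) : lam om m * ‖y r‖ ^ 2 ≤ V om m 1 y r ∧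
    ‖y r‖ ^ 2 ≤ V om m 1 y r ∧ ‖deriv y r‖ ^ 2 ≤ V om m 1 y r := by
  have := le_mul_of_one_le_left (sq_nonneg ‖y r‖) (one_le_lam om m)
  rw [V_one]
  exact ⟨by linarith [sq_nonneg ‖deriv y r‖], by linarith [sq_nonneg ‖deriv y r‖],
    by linarith [sq_nonneg ‖y r‖]⟩

/-- The terms of lower order in the equation of D y. -/
def Zl (s M a om m : ℝ) (y : ℝ → S) (r : ℝ) : S :=
  ((2 * s * (om * r * (2 * r - 2 * M) - K a r om m - 2 * om * De M a r) : ℝ) : ℂ) • I • y r -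
    ((4 * s * (M ^ 2 - a ^ 2) : ℝ) : ℂ) • deriv y r

theorem Pb.nn (h : Pb β M a r) : 0 ≤ β := zero_le_one.trans h.one

theorem D_bd (h : Pb β M a r) : ‖D M a om m y r‖ ^ 2 ≤ 4 * β ^ 2 * V om m 1 y r := by
  obtain ⟨v1, -, v3⟩ := V_parts om m y r
  have e := nsub ((De M a r : ℂ) • deriv y r) ((K a r om m : ℂ) • I • y r)
  rw [nsq, nsqI] at e
  rw [D]
  linarith [sq_mul_le (ab h.D0 h.D1) (sq_nonneg ‖deriv y r‖), mul_le_mul_of_nonneg_left v3
    (sq_nonneg β), mul_le_mul_of_nonneg_right (h.K2 om m) (sq_nonneg ‖y r‖),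
    mul_le_mul_of_nonneg_left v1 h.nn, pw h.one (V_nonneg (om := om) (m := m) (v := y) (r := r) 1)
      (show 1 ≤ 2 by norm_num)]

theorem Zl_bd (h : Pb β M a r) (hs : |s| ≤ 2) :
    ‖Zl s M a om m y r‖ ^ 2 ≤ 704 * β ^ 4 * V om m 1 y r := by
  obtain ⟨v1, -, v3⟩ := V_parts om m y r
  have e := nsub (((2 * s * (om * r * (2 * r - 2 * M) - K a r om m - 2 * om * De M a r) : ℝ) : ℂ) •
    I • y r) (((4 * s * (M ^ 2 - a ^ 2) : ℝ) : ℂ) • deriv y r)
  rw [nsqI, nsq] at e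
  have l0 := (lam_pos om m).le
  have o := om_sq om m
  have c : (om * r * (2 * r - 2 * M) - K a r om m - 2 * om * De M a r) ^ 2 ≤
      18 * β ^ 4 * lam om m := by
    have u1 := sq_mul_le (am (ab h.r0 h.r1) (ab h.E0 h.E1)) (sq_nonneg om)
    have u2 := sq_mul_le (ab h.D0 h.D1) (sq_nonneg om)
    linarith [sq_nonneg (om * r * (2 * r - 2 * M) + K a r om m),
      sq_nonneg (om * r * (2 * r - 2 * M) + 2 * om * De M a r),
      sq_nonneg (K a r om m - 2 * om * De M a r), h.K2 om m,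
      mul_le_mul_of_nonneg_left o (pow_nonneg h.nn 4), mul_le_mul_of_nonneg_left o (sq_nonneg β),
      pw h.one l0 (show 1 ≤ 4 by norm_num), pw h.one l0 (show 2 ≤ 4 by norm_num)]
  rw [Zl]
  linarith [sq_mul_le hs (mul_nonneg (sq_nonneg (om * r * (2 * r - 2 * M) - K a r om m -
    2 * om * De M a r)) (sq_nonneg ‖y r‖)), mul_le_mul_of_nonneg_right c (sq_nonneg ‖y r‖),
    mul_le_mul_of_nonneg_left v1 (pow_nonneg h.nn 4), sq_mul_le (am hs h.Ma) (sq_nonneg ‖deriv y r‖),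
    mul_le_mul_of_nonneg_left v3 (sq_nonneg β),
    pw h.one (V_nonneg (om := om) (m := m) (v := y) (r := r) 1) (show 2 ≤ 4 by norm_num)]

theorem Lv_bd (h : Pb β M a r) (hs : |s| ≤ 2) :
    ‖Lv M a om m y r‖ ^ 2 ≤ 2 * ‖Up (-s) M a om m y r‖ ^ 2 + 8 * β ^ 2 * ‖y r‖ ^ 2 := by
  have e := nsub (Up (-s) M a om m y r) (((-s * (2 * r - 2 * M) : ℝ) : ℂ) • y r)
  rw [nsq, Up, add_sub_cancel_right] at e
  rw [Up]
  linarith [sq_mul_le (am (an hs) (ab h.E0 h.E1)) (sq_nonneg ‖y r‖)]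

theorem R_bd (h : Pb β M a r) (hs : |s| ≤ 2) (hy : ContDiff ℝ ∞ y) :
    ‖Lv M a om m (D M a om m y) r‖ ^ 2 ≤
      8 * ‖D M a om m (Up (-s) M a om m y) r‖ ^ 2 + 200 * β ^ 4 * V om m 1 y r := by
  obtain ⟨v1, v2, -⟩ := V_parts om m y r
  rw [D_Up hy (-s)]
  refine (nadd _ _).trans ?_
  have e1 := nsub (D M a om m (Up (-s) M a om m y) r -
    ((-s * (2 * r - 2 * M) : ℝ) : ℂ) • D M a om m y r) (((2 * -s * De M a r : ℝ) : ℂ) • y r)
  have e2 := nsub (D M a om m (Up (-s) M a om m y) r)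
    (((-s * (2 * r - 2 * M) : ℝ) : ℂ) • D M a om m y r)
  rw [nsq] at e1 e2
  rw [nsqI]
  linarith [sq_mul_le (am (an hs) (ab h.E0 h.E1)) (sq_nonneg ‖D M a om m y r‖),
    mul_le_mul_of_nonneg_left (D_bd (om := om) (m := m) (y := y) h) (sq_nonneg β),
    sq_mul_le (am hs (ab h.D0 h.D1)) (sq_nonneg ‖y r‖), mul_le_mul_of_nonneg_left v2 (sq_nonneg β),
    sq_mul_le (am (ab h.r0 h.r1) (ab h.D0 h.D1)) (mul_nonneg (sq_nonneg om) (sq_nonneg ‖y r‖)),
    mul_le_mul_of_nonneg_left ((mul_le_mul_of_nonneg_right (om_sq om m) (sq_nonneg ‖y r‖)).trans v1)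
      (pow_nonneg h.nn 4),
    pw h.one (V_nonneg (om := om) (m := m) (v := y) (r := r) 1) (show 2 ≤ 4 by norm_num)]

theorem PD_eq (hG : G.Is) (hy : G.Sm y) (s k : ℝ) :
    G.P (s + 1) k M a om m (D M a om m y) r = D M a om m (G.P s k M a om m y) r +
      ((2 * ka M a r om m : ℝ) : ℂ) • I • deriv y r + Zl s M a om m y r := by
  rw [P_D hG hy, Zl]; abel

/-- The two currents. -/
def QL (M a : ℝ) (k : ℝ → ℝ) (z : ℝ → S) (x : ℝ) : ℝ := De M a x ^ 2 * k x * ri (z x) (deriv z x)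
def QK (M a om m : ℝ) (k : ℝ → ℝ) (w : ℝ → S) (x : ℝ) : ℝ :=
  -2 * (De M a x * k x * K a x om m) *
    (De M a x * ri (I • w x) (deriv w x) - K a x om m * ‖w x‖ ^ 2)

/-- The terms on the right side of the bulk estimate. -/
def Tb (G : Ang S) (s M a om m : ℝ) (τ : ℝ → ℝ) (y : ℝ → S) (r : ℝ) : ℝ :=
  ‖D M a om m (Up (-s) M a om m y) r‖ ^ 2 + τ r * ‖Up (-s) M a om m y r‖ ^ 2 + V om m 1 y r +
    ‖D M a om m (G.P s G.s M a om m y) r‖ ^ 2 / lam om m + ‖G.P s G.s M a om m y r‖ ^ 2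

theorem kc_pt (hG : G.Is) (hs : |G.s| = 2) (hy : G.Md m y) (h : Pb β M a r) (s0 : s ≤ -1)
    (s1 : -2 ≤ s) (g : 1 ≤ γ) {φ τ : ℝ → ℝ} {φ1 p : ℝ} (hφ : HasDerivAt φ φ1 r) (f0 : 0 ≤ φ r)
    (f1 : φ r ≤ 1) (f2 : φ1 ≤ -(1600 * β ^ 3) * φ r + p) (p0 : 0 ≤ p) (f3 : |φ1| ≤ γ)
    (hτ : ka M a r om m ^ 2 ≤ τ r) :
    ∃ q, HasDerivAt (fun x => QL M a (fun x => De M a x * φ x) (D M a om m y) x +
        QK M a om m (fun x => De M a x * φ x) (D M a om m y) x) q r ∧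
      φ r * (De M a r ^ 2 * (lam om m * ‖D M a om m y r‖ ^ 2)) ≤
        8 * β * (q + 2 * De M a r ^ 2 * φ r * K a r om m *
          ri (I • D M a om m y r) (D M a om m (G.P s G.s M a om m y) r) +
          3 * p * (De M a r ^ 2 * K a r om m ^ 2 * ‖D M a om m y r‖ ^ 2)) +
        4300 * β ^ 8 * γ ^ 2 * (920 * β ^ 6 * Tb G s M a om m τ y r) := by
  have hw := md_D hG hy M a om m
  have hk := (der_De M a r).fun_mul hφ
  have s2 : |s| ≤ 2 := abs_le.2 ⟨s1, by linarith⟩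
  refine ⟨_, (curl (om := om) (m := m) hG hw.1 (s + 1) G.s hk).fun_add (curk hG hw.1 (s + 1) G.s hk), ?_⟩
  obtain ⟨a1, a2, -⟩ := h.ang S G hG hs om m _ (hw.2 r)
  have b1 := D_bd (om := om) (m := m) (y := y) h
  have b2 := R_bd (om := om) (m := m) h s2 hy.1.cd
  have b3 := mul_le_mul_of_nonneg_left (Lv_bd (om := om) (m := m) (y := y) h s2)
    (sq_nonneg (ka M a r om m))
  have b4 := Zl_bd (om := om) (m := m) (y := y) h s2
  obtain ⟨v1, -, -⟩ := V_parts om m y r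
  have e0 : (De M a r : ℂ) • deriv y r = (2 : ℂ) • D M a om m y r - Lv M a om m y r := by
    simp only [D, Lv]; push_cast; module
  have e1 : D M a om m (D M a om m y) r =
      (K a r om m : ℂ) • I • D M a om m y r + Lv M a om m (D M a om m y) r := by
    simp only [D, Lv]; push_cast; module
  have e2 : ∀ x : S, De M a r * ri x (G.P (s + 1) G.s M a om m (D M a om m y) r) =
      De M a r * ri x (D M a om m (G.P s G.s M a om m y) r) +
      2 * ka M a r om m * (2 * ri x (I • D M a om m y r) - ri x (I • Lv M a om m y r)) +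
      ri x ((De M a r : ℂ) • Zl s M a om m y r) := fun x => by
    have : I • ((De M a r : ℂ) • deriv y r) =
        ((2 : ℝ) : ℂ) • I • D M a om m y r - I • Lv M a om m y r := by rw [e0]; push_cast; module
    have := congrArg (ri x) this
    rw [smul_comm, ri_real, ri_sub, ri_real] at this
    rw [PD_eq hG hy.1, ri_add, ri_add, ri_real, ri_real]
    linear_combination 2 * ka M a r om m * this
  have e3 := e2 (D M a om m y r)
  have e4 := e2 (I • D M a om m y r)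
  rw [ri_comm _ (I • D M a om m y r), ri_I_self] at e3
  rw [ri_II, ri_II, ri_self] at e4
  rw [e1, ← La_sq] at *
  generalize D M a om m y r = w0, Lv M a om m (D M a om m y) r = R, Lv M a om m y r = l,
    G.P (s + 1) G.s M a om m (D M a om m y) r = P at *
  have e5 : ‖(K a r om m : ℂ) • I • w0 + R‖ ^ 2 =
      K a r om m ^ 2 * ‖w0‖ ^ 2 + 2 * K a r om m * ri (I • w0) R + ‖R‖ ^ 2 := by
    simp only [← ri_self, ri_add, ri_add_l, ri_real, ri_real_l, ri_II, ri_comm R (I • w0)]; ring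
  have z0 : ‖(De M a r : ℂ) • Zl s M a om m y r‖ ^ 2 ≤ β ^ 2 * ‖Zl s M a om m y r‖ ^ 2 := by
    rw [nsq]; exact sq_mul_le (ab h.D0 h.D1) (sq_nonneg _)
  have A := kc_alg h.one h.D0 h.D1 h.E0 h.E1 h.r0 h.r1 (t := s + 1) (ka := ka M a r om m)
    (by linarith) (by linarith) (one_le_La om m) (om_La om m) (sq_nonneg _) (sq_nonneg _)
    (sq_nonneg _) (sq_nonneg _) (sq_nonneg _) (sq_nonneg _) a1 a2 (fun p q => ygI p q w0 R)
    (fun p q => yg p q w0 l) (fun p q => norm_I l ▸ yg p q w0 (I • l))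
    (fun p q => ygI p q w0 ((De M a r : ℂ) • Zl s M a om m y r)) (fun p q => yg p q w0 _)
    (fun p q => yg p q w0 (D M a om m (G.P s G.s M a om m y) r))
  have b0 := h.nn
  have x1 := sq_nonneg ‖(De M a r : ℂ) • Zl s M a om m y r‖
  have x2 := mul_nonneg (sq_nonneg (ka M a r om m)) (sq_nonneg ‖l‖)
  have x3 := div_nonneg (sq_nonneg ‖D M a om m (G.P s G.s M a om m y) r‖) (sq_nonneg (La om m))
  have B := kc_fin h.one g (by positivity) h.D0 h.D1 h.E0 h.E1 (t := s + 1) (by linarith)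
    (by linarith) (sq_nonneg _) (sq_nonneg _) (by linarith) f0 f1 f2 p0 f3
    (fun p q => ygI p q w0 R) (fun p q => yg p q w0 R) A
  refine B.trans (add_le_add (le_of_eq ?_) (mul_le_mul_of_nonneg_left ?_ (by positivity)))
  · simp only [e5, ri_add, ri_real, norm_I, ri_self, ri_comm w0 (I • w0), ri_I_self, ka_eq]
      at e3 e4 ⊢
    linear_combination (-(8 * β * φ r * De M a r)) * e3 +
      16 * β * φ r * De M a r * K a r om m * e4
  · have V0 := V_nonneg (om := om) (m := m) (v := y) (r := r) 1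
    have x4 := sq_nonneg ‖D M a om m (Up (-s) M a om m y) r‖
    have x5 := mul_nonneg ((sq_nonneg _).trans hτ) (sq_nonneg ‖Up (-s) M a om m y r‖)
    rw [Tb, ← La_sq]
    linarith [mul_le_mul_of_nonneg_left b4 (sq_nonneg β), pw h.one V0 (show 2 ≤ 6 by norm_num),
      pw h.one V0 (show 4 ≤ 6 by norm_num), pw h.one V0 (show 3 ≤ 6 by norm_num),
      pw h.one x4 (show 0 ≤ 6 by norm_num), pw h.one x5 (show 0 ≤ 6 by norm_num),
      pw h.one x3 (show 0 ≤ 6 by norm_num), mul_nonneg (pow_nonneg b0 6) x3,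
      mul_nonneg (pow_nonneg b0 6) x4, mul_nonneg (pow_nonneg b0 6) x5,
      mul_nonneg (pow_nonneg b0 6) (sq_nonneg ‖G.P s G.s M a om m y r‖),
      mul_le_mul_of_nonneg_right hτ (sq_nonneg ‖Up (-s) M a om m y r‖),
      mul_le_mul_of_nonneg_left v1 (pow_nonneg b0 3), mul_le_mul_of_nonneg_left
        (mul_le_mul_of_nonneg_right ((h.ka2 om m).trans_eq (by rw [← La_sq])) (sq_nonneg ‖y r‖))
        (sq_nonneg β)]

theorem a3 {x y z c d e : ℝ} (h : |x| ≤ c) (h' : |y| ≤ d) (h'' : |z| ≤ e) :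
    |x + y + z| ≤ c + d + e := (abs_add_three _ _ _).trans (by linarith)

/-- The weight of the Lagrangian. -/
def kL (M a : ℝ) (χ τ : ℝ → ℝ) (x : ℝ) : ℝ := (De M a x ^ 2 * χ x) ^ 2 * τ x

theorem lag_pt (hG : G.Is) (hs : |G.s| = 2) (hy : G.Md m y) (h : Pb β M a r) (s0 : s ≤ -1)
    (s1 : -2 ≤ s) (g : 1 ≤ γ) {χ τ : ℝ → ℝ} {χ1 τ1 : ℝ} (hχ : HasDerivAt χ χ1 r) (f0 : 0 ≤ χ r)
    (f1 : χ r ≤ 1) (f3 : |χ1| ≤ γ) (hτ : HasDerivAt τ τ1 r) (t0 : 0 ≤ τ r)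
    (t1 : τ r ≤ 3 * β * lam om m) (t2 : |τ1| ≤ γ * lam om m) :
    ∃ q, HasDerivAt (QL M a (kL M a χ τ) y) q r ∧
      (De M a r ^ 2 * χ r) ^ 2 * (lam om m * ‖D M a om m y r‖ ^ 2 +
        De M a r * τ r * (lam om m * ‖y r‖ ^ 2 + An G (y r))) ≤
      92 * β ^ 4 * ((De M a r ^ 2 * χ r) ^ 2 * (lam om m * ‖D M a om m y r‖ ^ 2)) +
        (6 * β ^ 2 + 1) * q + (700 * β ^ 10 + 100 * β ^ 5 * (22 * β ^ 6 * γ) ^ 2) *
        (τ r * ‖Up (-s) M a om m y r‖ ^ 2 + V om m 1 y r + ‖G.P s G.s M a om m y r‖ ^ 2) := by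
  have s2 : |s| ≤ 2 := abs_le.2 ⟨s1, by linarith⟩
  have hψ := ((der_De M a r).fun_pow 2).fun_mul hχ
  refine ⟨_, curl (om := om) (m := m) hG hy.1 s G.s ((hψ.fun_pow 2).fun_mul hτ), ?_⟩
  obtain ⟨a1, a2, a3'⟩ := h.ang S G hG hs om m _ (hy.2 r)
  have b0 := h.nn
  have aD := ab h.D0 h.D1
  have aE := ab h.E0 h.E1
  have aψ : |De M a r ^ 2 * χ r| ≤ β ^ 2 := by
    simpa only [sq, mul_one] using am (am aD aD) (ab f0 f1)
  have aψ1 : |2 * De M a r * (2 * r - 2 * M) * χ r + De M a r ^ 2 * χ1| ≤ 3 * β ^ 2 * γ :=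
    (abs_add_le _ _).trans (by
      rw [sq (De M a r)]
      linarith [am (am (am abs_two.le aD) aE) (ab f0 f1), am (am aD aD) f3,
        mul_le_mul_of_nonneg_left g (sq_nonneg β)])
  have l0 := (lam_pos om m).le
  have gl := mul_nonneg (zero_le_one.trans g) l0
  have g1 := mul_le_mul_of_nonneg_right g l0
  have b3 := Lv_bd (om := om) (m := m) (y := y) h s2
  obtain ⟨v1, -, -⟩ := V_parts om m y r
  have e0 := nsub (D M a om m y r) (Lv M a om m y r)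
  rw [show D M a om m y r - Lv M a om m y r = (K a r om m : ℂ) • I • y r by
    simp only [D, Lv]; push_cast; module, nsqI] at e0
  simp only [kL, Nat.cast_ofNat, Nat.add_one_sub_one, pow_one]
  generalize De M a r ^ 2 * χ r = ψ at *
  generalize 2 * De M a r * (2 * r - 2 * M) * χ r + De M a r ^ 2 * χ1 = ψ1 at *
  have p2 : ψ ^ 2 ≤ β ^ 4 := by linarith [sq_mul_le aψ zero_le_one]
  have k0 := mul_nonneg (sq_nonneg ψ) t0
  have k1 : ψ ^ 2 * τ r ≤ β ^ 4 * (3 * β * lam om m) := mul_le_mul p2 t1 t0 (pow_nonneg b0 4)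
  have hc := a3 (am (am (am (abs_le.2 ⟨by linarith, by linarith⟩ : |1 + s| ≤ 1) aE) aψ) (ab t0 t1))
    (am (am (am abs_two.le aD) aψ1) (ab t0 t1)) (am (am aD aψ) t2)
  have w1 : De M a r * (ψ ^ 2 * τ r) ≤ 22 * β ^ 6 * γ * La om m ^ 2 := by
    rw [La_sq]
    linarith [mul_le_mul h.D1 k1 k0 b0, mul_le_mul_of_nonneg_left g1 (pow_nonneg b0 6),
      mul_nonneg (pow_nonneg b0 6) gl]
  have w2 := hc.trans (show _ ≤ 22 * β ^ 6 * γ * La om m ^ 2 by
    rw [La_sq]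
    linarith [mul_le_mul_of_nonneg_left g1 (pow_nonneg b0 4),
      pw h.one gl (show 4 ≤ 6 by norm_num), pw h.one gl (show 3 ≤ 6 by norm_num)])
  have A := lag_alg (t := s) (ψ := ψ) (K := K a r om m) h.one
    (by linarith [pw h.one (zero_le_one.trans g) (show 0 ≤ 6 by norm_num)]) h.D0 h.D1 k0 w1 w2
    (by nlinarith) (one_le_La om m) (sq_nonneg _) (sq_nonneg _) (sq_nonneg _)
    (La_sq om m ▸ a1) a2 (La_sq om m ▸ a3') (fun p q => yg p q (y r) (G.P s G.s M a om m y r))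
    (fun p q => yg p q (y r) (D M a om m y r))
  rw [La_sq] at A
  have V0 := V_nonneg (om := om) (m := m) (v := y) (r := r) 1
  have x1 := mul_nonneg (mul_nonneg (sq_nonneg ψ) l0) (sq_nonneg ‖D M a om m y r‖)
  have x5 := mul_nonneg t0 (sq_nonneg ‖Up (-s) M a om m y r‖)
  have x6 := sq_nonneg ‖G.P s G.s M a om m y r‖
  have c0 : 0 ≤ 100 * β ^ 5 * (22 * β ^ 6 * γ) ^ 2 := by positivity
  have b33 := pow_nonneg b0 3
  linarith [mul_le_mul_of_nonneg_left e0 (mul_nonneg b33 k0),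
    mul_le_mul_of_nonneg_left b3 (mul_nonneg b33 k0),
    mul_le_mul_of_nonneg_left t1 (mul_nonneg (mul_nonneg b33 (sq_nonneg ψ))
      (sq_nonneg ‖D M a om m y r‖)), mul_le_mul_of_nonneg_right p2 (mul_nonneg b33 x5),
    mul_le_mul_of_nonneg_right k1 (mul_nonneg (pow_nonneg b0 5) (sq_nonneg ‖y r‖)),
    mul_le_mul_of_nonneg_left v1 (pow_nonneg b0 10), mul_le_mul_of_nonneg_left v1 c0,
    pw h.one x1 (show 0 ≤ 4 by norm_num), pw h.one x1 (show 3 ≤ 4 by norm_num),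
    pw h.one x5 (show 7 ≤ 10 by norm_num), mul_nonneg c0 x5, mul_nonneg (pow_nonneg b0 10) x5,
    mul_nonneg (pow_nonneg b0 10) V0, mul_nonneg (pow_nonneg b0 10) x6]

/-- The weight of the Lagrangian in the energy. -/
def kE (M a : ℝ) (χ : ℝ → ℝ) (x : ℝ) : ℝ := 2 * (x ^ 2 + a ^ 2) * De M a x * χ x ^ 2

theorem ene_pt (hG : G.Is) (hs : |G.s| = 2) (hw : G.Md m w) (h : Pb β M a r) {t ι η : ℝ}
    (t0 : t ≤ 0) (t1 : -1 ≤ t) (g : 1 ≤ γ) {χ : ℝ → ℝ} {χ1 : ℝ} (hχ : HasDerivAt χ χ1 r)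
    (f0 : 0 ≤ χ r) (f1 : χ r ≤ 1) (f3 : |χ1| ≤ γ) {f : ℝ × ℝ × ℝ → ℝ} (i1 : 1 ≤ ι)
    (hι : β ^ 4 ≤ ι * η) (hθ : η * β < 1) (e0 : 0 ≤ η)
    (adm : 2 * η * β ^ 2 ≤ f (M, a, r) * (2 * (r ^ 2 + a ^ 2) - De M a r * f (M, a, r)) - a ^ 2)
    (E : S) :
    ∃ q, HasDerivAt (QL M a (kE M a χ) w) q r ∧
      (De M a r ^ 2 * χ r) ^ 2 * (lam om m * ‖w r‖ ^ 2) ≤
        2 * ι * (2 * De M a r ^ 2 * χ r ^ 2 * K a r om m *
          ri (I • w r) (Nc G (fun r => f (M, a, r)) M a om m w r + E) + q) +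
        40 * ι ^ 2 * β ^ 5 * (12 * β ^ 2 * γ) ^ 2 *
          (‖w r‖ ^ 2 + ‖E‖ ^ 2 + ‖G.P t G.s M a om m w r‖ ^ 2 / lam om m) := by
  have hk := ((((((hasDerivAt_id' r).fun_pow 2).add_const (a ^ 2)).const_mul 2).fun_mul
    (der_De M a r)).fun_mul (hχ.fun_pow 2))
  refine ⟨_, curl (om := om) (m := m) hG hw.1 t G.s hk, ?_⟩
  obtain ⟨a1, a2, -⟩ := h.ang S G hG hs om m _ (hw.2 r)
  have b0 := h.nn
  have aD := ab h.D0 h.D1
  have aE := ab h.E0 h.E1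
  have s0 : 0 < r ^ 2 + a ^ 2 := by
    by_contra c
    linarith [h.S0, mul_nonneg b0 (neg_nonneg.2 (not_lt.1 c))]
  have aS := am abs_two.le (ab s0.le h.S1)
  have af := ab f0 f1
  have hc := (abs_add_le _ _).trans (add_le_add (a3 (am (am (am (abs_le.2 ⟨by linarith, by linarith⟩ :
    |1 + t| ≤ 1) aE) aS) af) (am (am (am (am abs_two.le abs_two.le) (ab h.r0 h.r1)) aD) af)
    (am (am aS aE) af)) (am (am (am abs_two.le aS) aD) f3))
  have y1 : Yg _ _ _ := fun p q => ygI p q (w r) (D M a om m w r)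
  have hS := sq_mul_le (ab s0.le h.S1) (mul_nonneg e0 h.D0)
  have co := co_alg (θ := 1 - η * De M a r) (Sg := r ^ 2 + a ^ 2)
    (α := r ^ 2 + a ^ 2 - De M a r * f (M, a, r)) (a := a) (K := K a r om m)
    (mul_pos (by linarith [mul_le_mul_of_nonneg_left h.D1 e0]) s0) h.D0 (sq_nonneg _)
    (by linarith [mul_le_mul_of_nonneg_left adm h.D0,
      sq_nonneg (η * De M a r * (r ^ 2 + a ^ 2))]) y1 (fun p q => yg p q (w r) (mu G a om m (w r)))
  have A := ene_alg (γ := 12 * β ^ 2 * γ) (t := t) (L := La om m) h.one i1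
    (by linarith [pw h.one (zero_le_one.trans g) (show 0 ≤ 2 by norm_num)]) hι h.D0 h.D1 h.S0 h.S1
    f0 f1 (hc.trans (by linarith [mul_le_mul_of_nonneg_left g (sq_nonneg β)])) (by nlinarith)
    (one_le_La om m) (sq_nonneg _) (sq_nonneg _) (sq_nonneg _) (sq_nonneg _) (sq_nonneg _)
    (La_sq om m ▸ a1) a2 co (fun p q => yg p q (w r) (G.P t G.s M a om m w r))
    (fun p q => yg p q (w r) (D M a om m w r)) (fun p q => ygI p q (w r) E)
  rw [La_sq] at A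
  refine le_of_eq_of_le (by ring) (A.trans (le_of_eq ?_))
  obtain ⟨-, e2, -⟩ := D_facts M a om m w r
  simp only [e2, Nc_eq, mu, aN, ri_add, ri_sub, ri_real, ri_II, ri_self, norm_I]
  simp only [kE, Nat.cast_ofNat, Nat.add_one_sub_one, pow_one]
  ring

end Vale.Agent.P354RM
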