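import Vale.Agent.P354RM.Wt

/-!
One step of the recovery for negative spin, in integrated form.
-/

open scoped ContDiff InnerProductSpace
open Set MeasureTheory
open Complex (I)
open Vale.Agent.P354BF Vale.Agent.P354XT Vale.Agent.P354RP
open Vale.Agent.P354XN hiding up
open Vale.Agent.P354XH (K ka De_eq De_pos rp_gt rp_le M_pos)
open Vale.Agent.P354M0 (Lv unif int_add)

noncomputable section

namespace Vale.Agent.P354RM

variable {S : Type} [NormedAddCommGroup S] [InnerProductSpace ℂ S] {G : Ang S}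
  {β γ M a om m r s : ℝ} {z : ℝ → S}

/-- The degenerate weight, the output, the pairing and the right side of the energy estimate. -/
def ta (M a om m : ℝ) (ϑ : ℝ → ℝ) (r : ℝ) : ℝ := 1 + ka M a r om m ^ 2 + lam om m * ϑ r ^ 2
def Ou (G : Ang S) (M a om m : ℝ) (τ : ℝ → ℝ) (z : ℝ → S) (r : ℝ) : ℝ :=
  lam om m * ‖D M a om m z r‖ ^ 2 + τ r * (lam om m * ‖z r‖ ^ 2 + An G (z r))
def Pr (M a om m : ℝ) (χ : ℝ → ℝ) (w H : ℝ → S) (r : ℝ) : ℝ :=
  2 * De M a r ^ 2 * χ r ^ 2 * K a r om m * ri (I • w r) (H r)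
def Te (G : Ang S) (s M a om m : ℝ) (z : ℝ → S) (r : ℝ) : ℝ :=
  lam om m * ‖Up (-s) M a om m z r‖ ^ 2 + V om m 1 z r +
    ‖D M a om m (G.P s G.s M a om m z) r‖ ^ 2 / lam om m + ‖G.P s G.s M a om m z r‖ ^ 2

theorem ta_pos {ϑ : ℝ → ℝ} : 1 ≤ ta M a om m ϑ r := by
  have := mul_nonneg (lam_pos om m).le (sq_nonneg (ϑ r))
  rw [ta]; linarith [sq_nonneg (ka M a r om m)]

theorem Ou_nonneg {τ : ℝ → ℝ} (h : 0 ≤ τ r) : 0 ≤ Ou G M a om m τ z r := by
  have := (lam_pos om m).le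
  have := An_nonneg (A := G) (z r)
  rw [Ou]; positivity

theorem cont_ta {ϑ : ℝ → ℝ} (h : Continuous ϑ) : Continuous (ta M a om m ϑ) := by
  have := (cd_ka M a om m).continuous
  unfold ta; fun_prop

theorem cont_Ou (hG : G.Is) (hz : G.Sm z) {τ : ℝ → ℝ} (h : Continuous τ) :
    Continuous (Ou G M a om m τ z) := by
  have := (sm_D hG hz M a om m).cont
  have := hz.cont
  have := cont_An hz
  unfold Ou; fun_prop

theorem cont_Pr {χ : ℝ → ℝ} {w H : ℝ → S} (h : Continuous χ) (hw : Continuous w)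
    (hH : Continuous H) : Continuous (Pr M a om m χ w H) := by
  have := (cd_De M a).continuous
  have := (cd_K a om m).continuous
  unfold Pr; fun_prop

theorem cont_Tb (hG : G.Is) (hz : G.Md m z) {τ : ℝ → ℝ} (h : Continuous τ) :
    Continuous (Tb G s M a om m τ z) ∧ Continuous (Te G s M a om m z) := by
  have h1 := (md_Up hG hz (-s) M a om).1
  have h2 := hG.sm_P hz.1 s G.s M a om m
  have := h1.cont; have := h2.cont
  have := (sm_D hG h1 M a om m).cont; have := (sm_D hG h2 M a om m).cont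
  have := cont_V (om := om) (m := m) hz.1.cd 1
  unfold Tb Te
  exact ⟨by fun_prop, by fun_prop⟩

theorem wt_ge {d E χ τ X Y D : ℝ} (d0 : 0 < d) (E0 : 0 < E) (h1 : d ≤ D) (h2 : E ≤ χ) (hX : 0 ≤ X)
    (hY : 0 ≤ τ * Y) : (d ^ 2 * E) ^ 2 * min 1 d * (X + τ * Y) ≤ (D ^ 2 * χ) ^ 2 * (X + D * τ * Y) := by
  have m0 : 0 ≤ min 1 d := le_min zero_le_one d0.le
  rw [mul_assoc]
  refine mul_le_mul (by gcongr) ?_ (mul_nonneg m0 (add_nonneg hX hY)) (sq_nonneg _)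
  linarith [mul_le_mul_of_nonneg_right (min_le_left 1 d) hX,
    mul_le_mul_of_nonneg_right ((min_le_right 1 d).trans h1) hY]

theorem bulk_pt (hG : G.Is) (hs : |G.s| = 2) (hz : G.Md m z) (h : Pb β M a r) (s0 : s ≤ -1)
    (s1 : -2 ≤ s) {χ ϑ : ℝ → ℝ} (hχ : ContDiff ℝ ∞ χ) (hϑ : ContDiff ℝ ∞ ϑ) {p : ℝ} (f0 : 0 ≤ χ r)
    (f1 : χ r ≤ 1) (f2 : 2 * χ r * deriv χ r ≤ -(1600 * β ^ 3) * χ r ^ 2 + p) (p0 : 0 ≤ p)
    (f3 : 2 * |deriv χ r| ≤ γ) (t1 : |ϑ r| ≤ 1) (t2 : 2 * β + 2 * |deriv ϑ r| ≤ γ) :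
    ∃ q, HasDerivAt (fun x => 736 * β ^ 7 *
        (QL M a (fun x => De M a x * χ x ^ 2) (D M a om m z) x +
          QK M a om m (fun x => De M a x * χ x ^ 2) (D M a om m z) x) +
        (6 * β ^ 2 + 1) * QL M a (kL M a χ (ta M a om m ϑ)) z x) q r ∧
      (De M a r ^ 2 * χ r) ^ 2 * (lam om m * ‖D M a om m z r‖ ^ 2 +
        De M a r * ta M a om m ϑ r * (lam om m * ‖z r‖ ^ 2 + An G (z r))) ≤
      736 * β ^ 7 * (Pr M a om m χ (D M a om m z) (D M a om m (G.P s G.s M a om m z)) r +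
        3 * p * (De M a r ^ 2 * K a r om m ^ 2 * ‖D M a om m z r‖ ^ 2) +
        (4300 * β ^ 8 * γ ^ 2 * (920 * β ^ 6) + (700 * β ^ 10 + 100 * β ^ 5 * (22 * β ^ 6 * γ) ^ 2)) *
          Tb G s M a om m (ta M a om m ϑ) z r) + q := by
  have l0 := (lam_pos om m).le
  have l1 := one_le_lam om m
  have b0 := h.nn
  have g : 1 ≤ γ := by linarith [h.one, abs_nonneg (deriv ϑ r)]
  have hτ : ka M a r om m ^ 2 ≤ ta M a om m ϑ r := by
    rw [ta]; linarith [mul_nonneg l0 (sq_nonneg (ϑ r))]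
  obtain ⟨q1, d1, e1⟩ := kc_pt (φ1 := 2 * χ r * deriv χ r) hG hs hz h s0 s1 g
    (((cd_has hχ r).fun_pow 2).congr_deriv (by simp)) (sq_nonneg _) (pow_le_one₀ f0 f1) f2 p0
    ((am (am abs_two.le (ab f0 f1)) le_rfl).trans (by linarith)) hτ
  obtain ⟨q2, d2, e2⟩ := lag_pt (τ := ta M a om m ϑ) hG hs hz h s0 s1 g (cd_has hχ r) f0 f1
    (by linarith [abs_nonneg (deriv χ r)]) ((((der_ka M a om m r).fun_pow 2).const_add 1).fun_add
      (((cd_has hϑ r).fun_pow 2).const_mul (lam om m))) (zero_le_one.trans ta_pos)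
    (by rw [ta]; linarith [h.ka2 om m, mul_le_mul_of_nonneg_right h.one l0, sq_mul_le t1 l0])
    ((abs_add_le _ _).trans (by
      simp only [Nat.cast_ofNat, Nat.add_one_sub_one, pow_one]
      have : |2 * ka M a r om m * ka1 M a r om m| ≤ 2 * β * lam om m := abs_le.2 ⟨by
        linarith [sq_nonneg (ka M a r om m + ka1 M a r om m), h.ka2 om m, h.ka3 om m], by
        linarith [sq_nonneg (ka M a r om m - ka1 M a r om m), h.ka2 om m, h.ka3 om m]⟩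
      linarith [am (ab l0 le_rfl) (am (am abs_two.le t1) (le_refl |deriv ϑ r|)),
        mul_le_mul_of_nonneg_right t2 l0]))
  refine ⟨_, (d1.const_mul _).fun_add (d2.const_mul _), ?_⟩
  have x1 := sq_nonneg ‖D M a om m (Up (-s) M a om m z) r‖
  have x2 := div_nonneg (sq_nonneg ‖D M a om m (G.P s G.s M a om m z) r‖) l0
  have x3 : 0 ≤ ta M a om m ϑ r * ‖Up (-s) M a om m z r‖ ^ 2 + V om m 1 z r +
      ‖G.P s G.s M a om m z r‖ ^ 2 := add_nonneg (add_nonneg (mul_nonneg (zero_le_one.trans ta_pos)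
    (sq_nonneg _)) (V_nonneg 1)) (sq_nonneg _)
  have T0 : 0 ≤ Tb G s M a om m (ta M a om m ϑ) z r := by rw [Tb]; linarith
  have c2 : 0 ≤ 700 * β ^ 10 + 100 * β ^ 5 * (22 * β ^ 6 * γ) ^ 2 := by positivity
  have c1 : 0 ≤ 4300 * β ^ 8 * γ ^ 2 * (920 * β ^ 6) := by positivity
  have u1 := mul_le_mul_of_nonneg_left (show _ ≤ Tb G s M a om m (ta M a om m ϑ) z r by
    rw [Tb]; linarith : ta M a om m ϑ r * ‖Up (-s) M a om m z r‖ ^ 2 + V om m 1 z r +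
      ‖G.P s G.s M a om m z r‖ ^ 2 ≤ _) c2
  have u2 := sq_mul_le (ab h.D0 h.D1) (mul_nonneg (pow_nonneg b0 4) (mul_nonneg (sq_nonneg (χ r))
    (mul_nonneg (sq_nonneg (De M a r)) (mul_nonneg l0 (sq_nonneg ‖D M a om m z r‖)))))
  rw [Pr]
  linarith [mul_le_mul_of_nonneg_left e1 (pow_nonneg b0 6), pw h.one (mul_nonneg c2 T0)
    (show 0 ≤ 7 by norm_num), pw h.one (mul_nonneg c1 T0) (show 6 ≤ 7 by norm_num),
    mul_nonneg (pow_nonneg b0 7) (mul_nonneg c2 T0), mul_nonneg (pow_nonneg b0 7) (mul_nonneg c1 T0)]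

theorem bulk_E {A X q F C T χ D k l : ℝ} {w H E : S} (b : 1 ≤ β) (hA : 0 ≤ A) (hX : 0 ≤ X)
    (hC : 0 ≤ C) (hT : 0 ≤ T) (f0 : 0 ≤ χ) (f1 : χ ≤ 1) (hk : k ^ 2 ≤ β * l)
    (h : (D ^ 2 * χ) ^ 2 * (l * ‖w‖ ^ 2 + X) ≤
      A * (2 * D ^ 2 * χ ^ 2 * k * ri (I • w) H + F + C * T) + q) :
    (D ^ 2 * χ) ^ 2 * (l * ‖w‖ ^ 2 + X) ≤ 2 * A * (2 * D ^ 2 * χ ^ 2 * k * ri (I • w) (H + E) + F +
      (C + 2 * β * A) * (T + ‖E‖ ^ 2)) + 2 * q := by
  have b0 : 0 < β := one_pos.trans_le b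
  have u : -(A * (2 * D ^ 2 * χ ^ 2 * k * ri (I • w) E)) ≤
      (D ^ 2 * χ) ^ 2 * (l * ‖w‖ ^ 2) / 2 + 2 * β * A ^ 2 * ‖E‖ ^ 2 :=
    le_of_mul_le_mul_left (by
      linarith [Yg.bd (fun p q => ygI p q w E) (sq_nonneg _) (D ^ 2 * χ * k)
        (an (am (ab (mul_nonneg (mul_nonneg two_pos.le b0.le) hA) le_rfl) (ab f0 f1))),
        mul_le_mul_of_nonneg_left hk (sq_nonneg (D ^ 2 * χ * ‖w‖))]) (mul_pos two_pos b0)
  rw [ri_add]
  linarith [mul_nonneg (sq_nonneg (D ^ 2 * χ)) hX, mul_nonneg (mul_nonneg hA hC) (sq_nonneg ‖E‖),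
    mul_nonneg (mul_nonneg b0.le (sq_nonneg A)) hT]

theorem en_pt (hG : G.Is) (hs : |G.s| = 2) (hz : G.Md m z) (h : Pb β M a r) (s0 : s ≤ -1)
    (s1 : -2 ≤ s) {χ : ℝ → ℝ} (hχ : ContDiff ℝ ∞ χ) (f0 : 0 ≤ χ r) (f1 : χ r ≤ 1) (g : 1 ≤ γ)
    (f3 : |deriv χ r| ≤ γ) {f : ℝ × ℝ × ℝ → ℝ} {ι η : ℝ} (i1 : 1 ≤ ι) (hι : β ^ 4 ≤ ι * η)
    (hθ : η * β < 1) (e0 : 0 ≤ η)
    (adm : 2 * η * β ^ 2 ≤ f (M, a, r) * (2 * (r ^ 2 + a ^ 2) - De M a r * f (M, a, r)) - a ^ 2)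
    (E : ℝ → S) :
    ∃ q, HasDerivAt (fun x => 184 * β ^ 4 * ι * QL M a (kE M a χ) (D M a om m z) x +
        (6 * β ^ 2 + 1) * QL M a (kL M a χ fun _ => lam om m) z x) q r ∧
      (De M a r ^ 2 * χ r) ^ 2 * (lam om m * ‖D M a om m z r‖ ^ 2 +
        De M a r * lam om m * (lam om m * ‖z r‖ ^ 2 + An G (z r))) ≤
      184 * β ^ 4 * ι * (Pr M a om m χ (D M a om m z)
          (fun r => Nc G (fun r => f (M, a, r)) M a om m (D M a om m z) r + E r) r +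
        (40 * ι ^ 2 * β ^ 5 * (12 * β ^ 2 * γ) ^ 2 * (1430 * β ^ 4) +
          (700 * β ^ 10 + 100 * β ^ 5 * (22 * β ^ 6 * γ) ^ 2)) *
          (Te G s M a om m z r + ‖E r‖ ^ 2)) + q := by
  have l0 := lam_pos om m
  have l1 := one_le_lam om m
  have b0 := h.nn
  have s2 : |s| ≤ 2 := abs_le.2 ⟨s1, by linarith⟩
  obtain ⟨q1, d1, e1⟩ := ene_pt (om := om) (t := s + 1) hG hs (md_D hG hz M a om m) h (by linarith)
    (by linarith) g (cd_has hχ r) f0 f1 f3 i1 hι hθ e0 adm (E r)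
  obtain ⟨q2, d2, e2⟩ := lag_pt (om := om) hG hs hz h s0 s1 g (cd_has hχ r) f0 f1 f3
    (hasDerivAt_const r (lam om m)) l0.le (by linarith [mul_le_mul_of_nonneg_right h.one l0.le])
    (by rw [abs_zero]; positivity)
  refine ⟨_, (d1.const_mul _).fun_add (d2.const_mul _), ?_⟩
  have V0 := V_nonneg (om := om) (m := m) (v := z) (r := r) 1
  obtain ⟨-, -, v3⟩ := V_parts om m z r
  have x1 := mul_nonneg l0.le (sq_nonneg ‖Up (-s) M a om m z r‖)
  have x2 := div_nonneg (sq_nonneg ‖D M a om m (G.P s G.s M a om m z) r‖) l0.le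
  have x3 := sq_nonneg ‖G.P s G.s M a om m z r‖
  have x4 := sq_nonneg ‖E r‖
  have w1 : ‖G.P (s + 1) G.s M a om m (D M a om m z) r‖ ^ 2 / lam om m ≤
      4 * (‖D M a om m (G.P s G.s M a om m z) r‖ ^ 2 / lam om m) + 1424 * β ^ 4 * V om m 1 z r := by
    have u := nadd (D M a om m (G.P s G.s M a om m z) r)
      (((2 * ka M a r om m : ℝ) : ℂ) • I • deriv z r)
    rw [nsqI] at u
    rw [PD_eq hG hz.1, div_le_iff₀ l0, add_mul, mul_assoc 4, div_mul_cancel₀ _ l0.ne']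
    linarith [nadd (D M a om m (G.P s G.s M a om m z) r +
      ((2 * ka M a r om m : ℝ) : ℂ) • I • deriv z r) (Zl s M a om m z r),
      Zl_bd (om := om) (m := m) (y := z) h s2, mul_le_mul (h.ka2 om m) v3 (sq_nonneg _)
      (mul_nonneg b0 l0.le), mul_le_mul_of_nonneg_left l1 (mul_nonneg (pow_nonneg b0 4) V0),
      pw h.one (mul_nonneg l0.le V0) (show 1 ≤ 4 by norm_num)]
  have T0 : 0 ≤ Te G s M a om m z r + ‖E r‖ ^ 2 := by rw [Te]; linarith
  have c2 : 0 ≤ 700 * β ^ 10 + 100 * β ^ 5 * (22 * β ^ 6 * γ) ^ 2 := by positivity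
  have c1 : 0 ≤ 40 * ι ^ 2 * β ^ 5 * (12 * β ^ 2 * γ) ^ 2 := by positivity
  have u1 := mul_le_mul_of_nonneg_left (show _ ≤ Te G s M a om m z r + ‖E r‖ ^ 2 by
    rw [Te]; linarith : lam om m * ‖Up (-s) M a om m z r‖ ^ 2 + V om m 1 z r +
      ‖G.P s G.s M a om m z r‖ ^ 2 ≤ _) c2
  have u2 := mul_le_mul_of_nonneg_left (show ‖D M a om m z r‖ ^ 2 + ‖E r‖ ^ 2 +
      ‖G.P (s + 1) G.s M a om m (D M a om m z) r‖ ^ 2 / lam om m ≤
      1430 * β ^ 4 * (Te G s M a om m z r + ‖E r‖ ^ 2) by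
    rw [Te]
    linarith [D_bd (om := om) (m := m) (y := z) h, pw h.one V0 (show 2 ≤ 4 by norm_num),
      pw h.one x2 (show 0 ≤ 4 by norm_num), pw h.one x4 (show 0 ≤ 4 by norm_num),
      mul_nonneg (pow_nonneg b0 4) x1, mul_nonneg (pow_nonneg b0 4) x2,
      mul_nonneg (pow_nonneg b0 4) x3, mul_nonneg (pow_nonneg b0 4) x4,
      mul_nonneg (pow_nonneg b0 4) V0]) c1
  have b4 := pow_nonneg b0 4
  have y1 := mul_nonneg b4 (mul_nonneg c2 T0)
  have y2 := mul_nonneg b4 (mul_nonneg (mul_nonneg c1 b4) T0)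
  rw [Pr]
  linarith [mul_le_mul_of_nonneg_left e1 b4, mul_le_mul_of_nonneg_left u2 b4,
    pw h.one (mul_nonneg c2 T0) (show 0 ≤ 4 by norm_num), mul_le_mul_of_nonneg_left i1 y1,
    mul_le_mul_of_nonneg_left i1 y2]

variable {M0 a0 rm x' y' y : ℝ} {f : ℝ × ℝ × ℝ → ℝ} {ϑ : ℝ → ℝ}

/-- The conclusion of one step. -/
def Stp (f : ℝ × ℝ × ℝ → ℝ) (ϑ χ : ℝ → ℝ) (s M a x x' y' y c e C : ℝ) : Prop :=
  ∀ (S : Type) [NormedAddCommGroup S] [InnerProductSpace ℂ S] (G : Ang S), G.Is → |G.s| = 2 →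
    ∀ (om m : ℝ) (z : ℝ → S), G.Md m z →
      ∀ E : ℝ → S, Continuous E →
        (c * ∫ r in x'..y', Ou G M a om m (ta M a om m ϑ) z r) ≤
          (∫ r in x..y, Pr M a om m χ (D M a om m z)
            (fun r => D M a om m (G.P s G.s M a om m z) r + E r) r) +
          e * (∫ r in x..x', K a r om m ^ 2 * ‖D M a om m z r‖ ^ 2) +
          C * (∫ r in x..y, (Tb G s M a om m (ta M a om m ϑ) z r + ‖E r‖ ^ 2)) ∧
        (c * ∫ r in x'..y', Ou G M a om m (fun _ => lam om m) z r) ≤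
          (∫ r in x..y, Pr M a om m χ (D M a om m z)
            (fun r => Nc G (fun r => f (M, a, r)) M a om m (D M a om m z) r + E r) r) +
          C * ∫ r in x..y, (Te G s M a om m z r + ‖E r‖ ^ 2)

theorem step (ha : |a0| < M0) (hf : Slope M0 a0 rm f) (s0 : s ≤ -1) (s1 : -2 ≤ s)
    (hx : rp M0 a0 < x') (hxy : x' ≤ y') (hy : y' < y) (hϑ : ContDiff ℝ ∞ ϑ) (t1 : ∀ r, |ϑ r| ≤ 1) :
    ∃ c, 0 < c ∧ ∀ e, 0 < e → ∃ (x : ℝ) (χ : ℝ → ℝ) (C dl : ℝ), rp M0 a0 < x ∧ x < x' ∧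
      ContDiff ℝ ∞ χ ∧ (∀ r, r ≤ x ∨ y ≤ r → χ r = 0) ∧ 0 ≤ C ∧ 0 < dl ∧ dl ≤ 1 ∧
      ∀ M a, |M - M0| < dl → |a - a0| < dl → Stp f ϑ χ s M a x x' y' y c e C := by
  obtain ⟨β, b, hβ⟩ := ex_pb ha y
  obtain ⟨d, δ0, d0, p0, -, hd⟩ := ex_De ha hx y'
  have cf := hf.sm.continuous
  obtain ⟨ca, δa, a0', pa, -, hadm⟩ := unif (isCompact_Icc (a := rp M0 a0) (b := y)) (M0 := M0)
    (a0 := a0) (F := fun q => f (q.2.1, q.2.2, q.1) * (2 * (q.1 ^ 2 + q.2.2 ^ 2) -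
      De q.2.1 q.2.2 q.1 * f (q.2.1, q.2.2, q.1)) - q.2.2 ^ 2) (by unfold De; fun_prop)
    fun r hr => sub_pos.2 (hf.adm r (hf.hi.le.trans hr.1)).2
  have b0 : 0 < β := one_pos.trans_le b
  obtain ⟨η, e0, e1, e2⟩ : ∃ η : ℝ, 0 < η ∧ η ≤ ca / (2 * β ^ 2) ∧ η ≤ 1 / (2 * β) :=
    ⟨min _ _, lt_min (by positivity) (by positivity), min_le_left _ _, min_le_right _ _⟩
  rw [le_div_iff₀ (by positivity)] at e1 e2
  obtain ⟨ι, i1, hι⟩ : ∃ ι : ℝ, 1 ≤ ι ∧ β ^ 4 ≤ ι * η := ⟨β ^ 4 / η, (one_le_div e0).2 (by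
    nlinarith [one_le_pow₀ (n := 4) b]), (div_mul_cancel₀ _ e0.ne').ge⟩
  have E0 := Real.exp_pos (-(1600 * β ^ 3) * y / 2)
  have w0 : 0 < (d ^ 2 * Real.exp (-(1600 * β ^ 3) * y / 2)) ^ 2 * min 1 d :=
    mul_pos (by positivity) (lt_min one_pos d0)
  have A1 : 0 < 2 * (736 * β ^ 7) := by positivity
  have A2 : 0 < 184 * β ^ 4 * ι := by positivity
  refine ⟨_, div_pos w0 (add_pos A1 A2), fun e he => ?_⟩
  have M0' := M_pos ha
  have rp0 := M0'.trans (rp_gt ha)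
  obtain ⟨x, δ, γ0, χ, p, δ', x0, x1, hχ, cp, z0, hp, hE⟩ := ex_wt (κ := 1600 * β ^ 3)
    (A := 2 * y + 2 * M0 + 1) rp0.le hx hy (by positivity) (by linarith) (div_pos he three_pos)
  obtain ⟨δ1, p1, q1, hb⟩ := hβ x x0
  obtain ⟨γ1, hγ⟩ := (isCompact_Icc (a := x) (b := y)).exists_bound_of_continuousOn
    (cd_der hϑ).continuous.continuousOn
  obtain ⟨γ, g0, g1⟩ : ∃ γ, 2 * |γ0| + 1 ≤ γ ∧ 2 * β + 2 * γ1 ≤ γ :=
    ⟨max _ _, le_max_left _ _, le_max_right _ _⟩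
  have g : 1 ≤ γ := by linarith [abs_nonneg γ0]
  have xy : x ≤ y := by linarith
  have c0 : 0 ≤ 4300 * β ^ 8 * γ ^ 2 * (920 * β ^ 6) +
    (700 * β ^ 10 + 100 * β ^ 5 * (22 * β ^ 6 * γ) ^ 2) := by positivity
  have c1 := add_nonneg c0 (by positivity : 0 ≤ 2 * β * (736 * β ^ 7))
  have c2 : 0 ≤ 40 * ι ^ 2 * β ^ 5 * (12 * β ^ 2 * γ) ^ 2 * (1430 * β ^ 4) +
    (700 * β ^ 10 + 100 * β ^ 5 * (22 * β ^ 6 * γ) ^ 2) := by positivity
  refine ⟨x, χ, _, min (min δ δ1) (min δ0 δa), x0, x1, hχ, z0, add_nonneg c1 c2,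
    lt_min (lt_min δ' p1) (lt_min p0 pa), min_le_of_left_le (min_le_of_right_le q1),
    fun M a hM hA S _ _ G hG hs om m z hz E cE' => ?_⟩
  simp only [lt_min_iff] at hM hA
  have pb := hb M a hM.1.2 hA.1.2
  have cχ := hχ.continuous
  have cτ := cont_ta (M := M) (a := a) (om := om) (m := m) hϑ.continuous
  have cD := (cd_De M a).continuous
  have cK := (cd_K a om m).continuous
  have hw := sm_D hG hz.1 M a om m
  have cw := hw.cont
  have cz := hz.1.cont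
  have cA := cont_An hz.1
  obtain ⟨cT, cE⟩ := cont_Tb (s := s) (M := M) (a := a) (om := om) hG hz cτ
  have l0 := (lam_pos om m).le
  have out : ∀ τ : ℝ → ℝ, Continuous τ → (∀ r, 0 ≤ τ r) → ∀ A, 0 < A →
      A ≤ 2 * (736 * β ^ 7) + 184 * β ^ 4 * ι → ∀ R, (∫ r in x..y, (De M a r ^ 2 * χ r) ^ 2 *
        (lam om m * ‖D M a om m z r‖ ^ 2 + De M a r * τ r * (lam om m * ‖z r‖ ^ 2 + An G (z r)))) ≤
        A * R → (d ^ 2 * Real.exp (-(1600 * β ^ 3) * y / 2)) ^ 2 * min 1 d /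
        (2 * (736 * β ^ 7) + 184 * β ^ 4 * ι) * ∫ r in x'..y', Ou G M a om m τ z r ≤ R :=
    fun τ c t A A0 hA' R h => by
      have u := (int_in x1.le hxy hy.le (continuous_const.mul (cont_Ou hG hz.1 c)) (by fun_prop)
        (fun r hr => wt_ge d0 E0 (hd M a hM.2.1 hA.2.1 r hr) (hE r hr) (mul_nonneg l0 (sq_nonneg _))
          (mul_nonneg (t r) (add_nonneg (mul_nonneg l0 (sq_nonneg _)) (An_nonneg _))))
        (fun r hr => mul_nonneg (sq_nonneg _) (add_nonneg (mul_nonneg l0 (sq_nonneg _)) (mul_nonneg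
          (mul_nonneg (pb r hr).D0 (t r)) (add_nonneg (mul_nonneg l0 (sq_nonneg _))
            (An_nonneg _)))))).trans h
      simp only [Pi.mul_apply] at u
      rw [intervalIntegral.integral_const_mul] at u
      have n := int_nn hxy fun r => Ou_nonneg (G := G) (M := M) (a := a) (om := om) (m := m)
        (z := z) (t r)
      refine le_of_mul_le_mul_left (le_trans ?_ u) A0
      rw [← mul_assoc]
      refine mul_le_mul_of_nonneg_right ?_ n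
      rw [← mul_div_assoc, div_le_iff₀ (add_pos A1 A2), mul_comm]
      exact mul_le_mul_of_nonneg_left hA' w0.le
  refine ⟨out _ cτ (fun r => zero_le_one.trans ta_pos) _ A1 (by linarith) _ ?_,
    out _ continuous_const (fun _ => l0) _ A2 (by linarith) _ ?_⟩
  · have cP := cont_Pr (M := M) (a := a) (om := om) (m := m) cχ cw
      ((sm_D hG (hG.sm_P hz.1 s G.s M a om m) M a om m).cont.fun_add cE')
    have T0 : ∀ r, 0 ≤ Tb G s M a om m (ta M a om m ϑ) z r := fun r => by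
      have := V_nonneg (om := om) (m := m) (v := z) (r := r) 1
      have := zero_le_one.trans (ta_pos (M := M) (a := a) (om := om) (m := m) (r := r) (ϑ := ϑ))
      rw [Tb]; positivity
    refine (int_pt (P := fun r => _ * (Pr M a om m χ (D M a om m z)
      (fun r => D M a om m (G.P s G.s M a om m z) r + E r) r + _ + _)) xy (by fun_prop)
      (by fun_prop) ?_ ?_ fun r hr => (bulk_pt hG hs hz (pb r hr) s0 s1
      hχ hϑ (hp r hr).1 (hp r hr).2.1 (hp r hr).2.2.2.1 (hp r hr).2.2.2.2.1 (γ := γ)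
      (by linarith [(hp r hr).2.2.1, le_abs_self γ0]) (t1 r)
      (by linarith [(Real.norm_eq_abs _).symm.trans_le (hγ r hr)])).elim fun q k =>
      ⟨_, k.1.const_mul 2, (bulk_E (E := E r) b (by positivity) (mul_nonneg (mul_nonneg
        (pb r hr).D0 (zero_le_one.trans ta_pos)) (add_nonneg (mul_nonneg l0 (sq_nonneg _))
        (An_nonneg _))) c0 (T0 r) (hp r hr).1 (hp r hr).2.1 ((pb r hr).K2 om m) k.2 :)⟩).trans ?_
    · simp [QL, QK, kL, z0 x (.inl le_rfl)]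
    · simp [QL, QK, kL, z0 y (.inr le_rfl)]
    · rw [intervalIntegral.integral_const_mul, int_add (by fun_prop) (by fun_prop),
        int_add cP (by fun_prop), intervalIntegral.integral_const_mul,
        ← intervalIntegral.integral_const_mul e]
      refine mul_le_mul_of_nonneg_left (add_le_add (add_le_add le_rfl (int_cut x1.le
        (hxy.trans hy.le) (by fun_prop) (by fun_prop) (fun r hr => ?_) fun r hr => ?_)) ?_) A1.le
      · have hr' : r ∈ Icc x y := ⟨hr.1, by linarith [hr.2]⟩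
        have := (hp r hr').2.2.2.2.2.2 _ ((De_small ha (lt_min hM.1.1 hM.1.2)
          (lt_min hA.1.1 hA.1.2) (min_le_of_right_le q1) (x0.le.trans hr.1) hr'.2).trans
          (mul_le_mul_of_nonneg_left (add_le_add le_rfl (min_le_left _ _)) (by linarith)))
        linarith [mul_le_mul_of_nonneg_right this (mul_nonneg (sq_nonneg (K a r om m))
          (sq_nonneg ‖D M a om m z r‖))]
      · rw [(hp r ⟨x1.le.trans hr.1, hr.2⟩).2.2.2.2.2.1 hr.1]; simp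
      · exact mul_le_mul_of_nonneg_right (le_add_of_nonneg_right c2)
          (int_nn xy fun r => add_nonneg (T0 r) (sq_nonneg _))
  · have cP := cont_Pr (M := M) (a := a) (om := om) (m := m) cχ cw
      ((cd_Nc (G := G) (M := M) (a := a) (om := om) (m := m) hf.sm hw.cd).continuous.fun_add cE')
    refine (int_pt xy (by fun_prop) (by fun_prop) ?_ ?_
      fun r hr => en_pt hG hs hz (pb r hr) s0 s1 hχ (hp r hr).1 (hp r hr).2.1 g
      (by linarith [(hp r hr).2.2.1, le_abs_self γ0, abs_nonneg γ0]) i1 hι (by linarith) e0.le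
      (le_trans (by linarith) (hadm M a hM.2.2 hA.2.2 r ⟨x0.le.trans hr.1, hr.2⟩)) E).trans ?_
    · simp [QL, kE, kL, z0 x (.inl le_rfl)]
    · simp [QL, kE, kL, z0 y (.inr le_rfl)]
    · rw [intervalIntegral.integral_const_mul, int_add cP (by fun_prop),
        intervalIntegral.integral_const_mul]
      refine mul_le_mul_of_nonneg_left (add_le_add le_rfl (mul_le_mul_of_nonneg_right
        (le_add_of_nonneg_left c1) (int_nn xy fun r => ?_))) A2.le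
      have := V_nonneg (om := om) (m := m) (v := z) (r := r) 1
      rw [Te]; positivity

end Vale.Agent.P354RM
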