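import Vale.Agent.P354RM.Pt
import Vale.Agent.P354M0.Tool

/-!
The weight of the multiplier, uniform bounds, and integration.
-/

open scoped ContDiff InnerProductSpace
open Set MeasureTheory
open Complex (I)
open Vale.Agent.P354BF Vale.Agent.P354XT Vale.Agent.P354RP
open Vale.Agent.P354XN hiding up
open Vale.Agent.P354XH (K ka De_eq De_pos rp_gt rp_le M_pos)
open Vale.Agent.P354M0 (Lv unif int_add)

noncomputable section

namespace Vale.Agent.P354RM

theorem up_der {a b : ℝ} (r : ℝ) : deriv (up a b) r =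
    deriv Real.smoothTransition ((r - a) / (b - a)) * (1 / (b - a)) :=
  ((cd_has Real.smoothTransition.contDiff _).comp r
    (((hasDerivAt_id r).sub_const a).div_const (b - a))).deriv

theorem dn_der {a b : ℝ} (h : a < b) (r : ℝ) : deriv (dn a b) r ≤ 0 :=
  Antitone.deriv_nonpos fun _ _ k => sub_le_sub_left (Real.smoothTransition.monotone
    (div_le_div_of_nonneg_right (sub_le_sub_right k a) (sub_pos.2 h).le)) 1

/-- The weight: exp (- κ r / 2), cut off near the radius ρ and outside. -/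
theorem ex_wt {ρ x' y' y κ A e : ℝ} (h0 : 0 ≤ ρ) (h1 : ρ < x') (h3 : y' < y) (hκ : 0 ≤ κ)
    (hA : 0 ≤ A) (he : 0 < e) : ∃ (x δ γ : ℝ) (χ p : ℝ → ℝ), 0 < δ ∧ ρ < x ∧ x < x' ∧
      ContDiff ℝ ∞ χ ∧ Continuous p ∧ (∀ r, r ≤ x ∨ y ≤ r → χ r = 0) ∧
      (∀ r ∈ Icc x y, 0 ≤ χ r ∧ χ r ≤ 1 ∧ |deriv χ r| ≤ γ ∧
        2 * χ r * deriv χ r ≤ -κ * χ r ^ 2 + p r ∧ 0 ≤ p r ∧ (x' ≤ r → p r = 0) ∧
        ∀ D, |D| ≤ A * (r - ρ + δ) → p r * D ^ 2 ≤ e) ∧
      ∀ r ∈ Icc x' y', Real.exp (-κ * y / 2) ≤ χ r := by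
  obtain ⟨C, hC⟩ := (isCompact_Icc (a := (0 : ℝ)) (b := 1)).exists_bound_of_continuousOn
    (cd_der (Real.smoothTransition.contDiff (n := ⊤))).continuous.continuousOn
  have C0 : 0 ≤ C := (norm_nonneg _).trans (hC 0 ⟨le_rfl, zero_le_one⟩)
  obtain ⟨δ, d0, d1, d2⟩ : ∃ δ : ℝ, 0 < δ ∧ δ ≤ (x' - ρ) / 3 ∧ δ ≤ e / (18 * C * A ^ 2 + 1) :=
    ⟨min _ _, lt_min (by linarith) (by positivity), min_le_left _ _, min_le_right _ _⟩
  rw [le_div_iff₀ (by positivity)] at d2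
  have ab' : ρ + δ < ρ + 2 * δ := by linarith
  have sE : ContDiff ℝ ∞ fun r => Real.exp (-κ * r / 2) := by fun_prop
  have sχ := ((up_sm (ρ + δ) (ρ + 2 * δ)).mul sE).mul (dn_sm y' y)
  obtain ⟨γ, hγ⟩ := (isCompact_Icc (a := ρ + δ) (b := y)).exists_bound_of_continuousOn
    (cd_der sχ).continuous.continuousOn
  have z : ∀ r, ρ + 2 * δ < r → deriv (up (ρ + δ) (ρ + 2 * δ)) r = 0 := fun r hr => by
    rw [Filter.EventuallyEq.deriv_eq (f := fun _ => (1 : ℝ))
      ((eventually_gt_nhds hr).mono fun t ht => up_one ab' ht.le), deriv_const]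
  refine ⟨ρ + δ, δ, γ, _, fun r => 2 * |deriv (up (ρ + δ) (ρ + 2 * δ)) r|, d0, by linarith,
    by linarith, sχ, continuous_const.mul (cd_der (up_sm _ _)).continuous.abs, fun r hr => ?_,
    fun r hr => ?_, fun r hr => ?_⟩
  · rcases hr with k | k
    · simp only [up_zero ab' k, zero_mul]
    · simp only [dn_zero h3 k, mul_zero]
  · beta_reduce
    have u0 := up_nonneg (ρ + δ) (ρ + 2 * δ) r
    have u1 := up_le (ρ + δ) (ρ + 2 * δ) r
    have v0 := dn_nonneg y' y r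
    have v1 := dn_le y' y r
    have E0 := (Real.exp_pos (-κ * r / 2)).le
    have E1 : Real.exp (-κ * r / 2) ≤ 1 :=
      Real.exp_le_one_iff.2 (by nlinarith [mul_nonneg hκ (by linarith [hr.1] : 0 ≤ r)])
    have w0 := mul_nonneg (mul_nonneg u0 E0) v0
    have w1 := mul_le_one₀ (mul_le_one₀ u1 E0 E1) v0 v1
    refine ⟨w0, w1, hγ r hr, ?_, by positivity, fun k => by rw [z r (by linarith)]; simp,
      fun D hD => ?_⟩
    · have dE : HasDerivAt (fun r => Real.exp (-κ * r / 2)) (Real.exp (-κ * r / 2) * (-κ / 2)) r :=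
        ((((hasDerivAt_id' r).const_mul (-κ)).div_const 2).exp).congr_deriv (by ring)
      rw [(((cd_has (up_sm _ _) r).fun_mul dE).fun_mul (cd_has (dn_sm y' y) r)).deriv]
      linarith [mul_nonneg (mul_nonneg w0 (mul_nonneg u0 E0)) (neg_nonneg.2 (dn_der h3 r)),
        le_of_abs_le (am (am (ab w0 w1) (ab (mul_nonneg E0 v0) (mul_le_one₀ E1 v0 v1)))
          (le_refl |deriv (up (ρ + δ) (ρ + 2 * δ)) r|))]
    · rcases lt_or_ge (ρ + 2 * δ) r with k | k
      · rw [z r k]; simpa using he.le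
      · have e1 : ρ + 2 * δ - (ρ + δ) = δ := by ring
        have e2 := hC ((r - (ρ + δ)) / δ) ⟨div_nonneg (by linarith [hr.1]) d0.le,
          (div_le_one d0).2 (by linarith)⟩
        have e3 : D ^ 2 ≤ (A * (3 * δ)) ^ 2 := by
          linarith [sq_mul_le (hD.trans (mul_le_mul_of_nonneg_left (by linarith : _ ≤ 3 * δ) hA))
            zero_le_one]
        rw [up_der, e1, abs_mul, abs_of_pos (by positivity : 0 < 1 / δ)]
        calc _ ≤ 2 * (C * (1 / δ)) * (A * (3 * δ)) ^ 2 := by gcongr; exact e2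
          _ = δ * (18 * C * A ^ 2) := by field_simp; ring
          _ ≤ e := by linarith
  · simp only [up_one ab' (by linarith [hr.1] : ρ + 2 * δ ≤ r), dn_one h3 hr.2, one_mul, mul_one]
    exact Real.exp_le_exp.2 (by nlinarith [hr.2])

variable {M0 a0 : ℝ}

theorem cont_De3 : Continuous fun q : ℝ × ℝ × ℝ => De q.2.1 q.2.2 q.1 := by unfold De; fun_prop

/-- Uniform positivity of De outside of the horizon. -/
theorem ex_De (ha : |a0| < M0) {x : ℝ} (hx : rp M0 a0 < x) (y : ℝ) : ∃ c δ : ℝ, 0 < c ∧ 0 < δ ∧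
    δ ≤ 1 ∧ ∀ M a, |M - M0| < δ → |a - a0| < δ → ∀ r ∈ Icc x y, c ≤ De M a r :=
  unif isCompact_Icc cont_De3 fun _ hr => De_pos ha (hx.trans_le hr.1)

theorem ex_pb (ha : |a0| < M0) (y : ℝ) : ∃ β, 1 ≤ β ∧ ∀ x, rp M0 a0 < x → ∃ δ : ℝ, 0 < δ ∧ δ ≤ 1 ∧
    ∀ M a, |M - M0| < δ → |a - a0| < δ → ∀ r ∈ Icc x y, Pb β M a r := by
  have M0' := M_pos ha
  have i0 : 0 < 1 / M0 := by positivity
  have b2 : 2 ≤ |y| + M0 + 2 + 1 / M0 := by linarith [abs_nonneg y]
  refine ⟨100 * (|y| + M0 + 2 + 1 / M0) ^ 8, by linarith [one_le_pow₀ (n := 8) (one_le_two.trans b2)],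
    fun x hx => ?_⟩
  obtain ⟨c, δ, c0, d0, d1, h⟩ := ex_De ha hx y
  have g := rp_gt ha
  refine ⟨min δ (min ((M0 - |a0|) / 2) (rp M0 a0 - M0)), lt_min d0 (lt_min (by linarith)
    (by linarith)), min_le_of_left_le d1, fun M a hM hA r hr => ?_⟩
  simp only [lt_min_iff] at hM hA
  have m1 := abs_lt.1 hM.1
  have r0 : M0 < r := by linarith [hr.1]
  refine pb_of ⟨one_le_two.trans b2, ?_, by linarith [(abs_lt.1 hM.2.2).2, hr.1],
    by linarith [abs_nonneg y], ?_, c0.le.trans (h M a hM.1 hA.1 r hr)⟩ b2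
    (by linarith [hr.2, le_abs_self y])
  · linarith [abs_sub_abs_le_abs_sub a a0, hA.2.1, (abs_lt.1 hM.2.1).1]
  · have : 1 ≤ 1 / M0 * r := by rw [div_mul_eq_mul_div, one_mul, one_le_div M0']; exact r0.le
    nlinarith [abs_nonneg y]

/-- De is small near the horizon. -/
theorem De_small (ha : |a0| < M0) {M a r y δ : ℝ} (hM : |M - M0| < δ) (hA : |a - a0| < δ)
    (d1 : δ ≤ 1) (hr : rp M0 a0 ≤ r) (hy : r ≤ y) :
    |De M a r| ≤ (2 * y + 2 * M0 + 1) * (r - rp M0 a0 + δ) := by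
  have g := rp_gt ha
  have M0' := M_pos ha
  have e : De M a r = (r - rp M0 a0) * (r + rp M0 a0 - 2 * M0) + -(2 * r * (M - M0)) +
      (a - a0) * (a - a0 + 2 * a0) := by rw [← De_eq ha]; simp only [De]; ring
  have d0 := (abs_nonneg _).trans hM.le
  rw [e]
  refine (a3 (am (ab (sub_nonneg.2 hr) le_rfl) (ab (c := 2 * y) (by linarith) (by linarith)))
    (an (am (ab (c := 2 * y) (by linarith) (by linarith)) hM.le)) (am hA.le (c := δ)
      (d := 2 * M0 + 1) (abs_le.2 ⟨by linarith [abs_lt.1 hA, abs_lt.1 ha], by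
        linarith [abs_lt.1 hA, abs_lt.1 ha]⟩))).trans ?_
  nlinarith [mul_nonneg (sub_nonneg.2 hr) M0'.le]

variable {x y x' y' : ℝ} {W P F T g : ℝ → ℝ}

theorem int_pt {Q : ℝ → ℝ} (hxy : x ≤ y) (cW : Continuous W) (cP : Continuous P) (h0 : Q x = 0)
    (h1 : Q y = 0) (h : ∀ r ∈ Icc x y, ∃ q, HasDerivAt Q q r ∧ W r ≤ P r + q) :
    ∫ r in x..y, W r ≤ ∫ r in x..y, P r := by
  have := int_le (Q := Q) hxy (cW.sub cP).continuousOn fun r hr =>
    (h r hr).imp fun q k => ⟨k.1, sub_le_iff_le_add'.2 k.2⟩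
  simp only [Pi.sub_apply] at this
  rw [intervalIntegral.integral_sub (cW.intervalIntegrable _ _) (cP.intervalIntegrable _ _)] at this
  linarith

theorem int_mono (hxy : x ≤ y) (cW : Continuous W) (cP : Continuous P)
    (h : ∀ r ∈ Icc x y, W r ≤ P r) : ∫ r in x..y, W r ≤ ∫ r in x..y, P r :=
  intervalIntegral.integral_mono_on hxy (cW.intervalIntegrable _ _) (cP.intervalIntegrable _ _) h

theorem int_nn (hxy : x ≤ y) (h : ∀ r, 0 ≤ W r) : 0 ≤ ∫ r in x..y, W r :=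
  intervalIntegral.integral_nonneg hxy fun r _ => h r

theorem int_split (cW : Continuous W) (x x' y : ℝ) :
    ∫ r in x..y, W r = (∫ r in x..x', W r) + ∫ r in x'..y, W r :=
  (intervalIntegral.integral_add_adjacent_intervals (cW.intervalIntegrable _ _)
    (cW.intervalIntegrable _ _)).symm

theorem int_cut (h1 : x ≤ x') (h2 : x' ≤ y) (cW : Continuous W) (cP : Continuous P)
    (h : ∀ r ∈ Icc x x', W r ≤ P r) (h' : ∀ r ∈ Icc x' y, W r ≤ 0) :
    ∫ r in x..y, W r ≤ ∫ r in x..x', P r := by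
  have := int_mono h2 cW continuous_const h'
  rw [intervalIntegral.integral_zero] at this
  linarith [int_split cW x x' y, int_mono h1 cW cP h]

theorem int_in (h1 : x ≤ x') (h2 : x' ≤ y') (h3 : y' ≤ y) (cW : Continuous W) (cP : Continuous P)
    (h : ∀ r ∈ Icc x' y', W r ≤ P r) (h' : ∀ r ∈ Icc x y, 0 ≤ P r) :
    ∫ r in x'..y', W r ≤ ∫ r in x..y, P r :=
  (int_mono h2 cW cP h).trans (int_sub cP.continuousOn h' h1 h2 h3)

variable {S : Type} [NormedAddCommGroup S] [InnerProductSpace ℂ S] {u v : ℝ → S}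

@[fun_prop] theorem cont_ri (hu : Continuous u) (hv : Continuous v) :
    Continuous fun r => ri (u r) (v r) := Complex.continuous_re.comp (hu.inner hv)

end Vale.Agent.P354RM
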