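import Vale.Agent.P354RM.Int

/-!
The last member of the chain, the absorption of the terms of lower order, and the left sides.
-/

open scoped ContDiff InnerProductSpace
open Set MeasureTheory
open Complex (I)
open Vale.Agent.P354BF Vale.Agent.P354XT Vale.Agent.P354RP
open Vale.Agent.P354XN hiding up
open Vale.Agent.P354XH (K ka)
open Vale.Agent.P354M0 (Lv int_add)

noncomputable section

namespace Vale.Agent.P354RM

variable {S : Type} [NormedAddCommGroup S] [InnerProductSpace ℂ S] {G : Ang S}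
  {B Ck M a om m r0 r1 R x x' y y' c e C ρ Y Y' Z q1 q2 q3 q4 C0 Fl β d k ε : ℝ} {v u : ℝ → S}
  {f : ℝ × ℝ × ℝ → ℝ} {ϑ χ : ℝ → ℝ} {l : List Tm}

theorem zero_le (hG : G.Is) (hu : G.Sm u) (n : ℕ) (hϑ : Continuous ϑ) (t1 : ∀ r, |ϑ r| ≤ 1)
    (t2 : ∀ r ∈ Icc q2 q3, ϑ r = 0) (p0 : 0 < ρ) (h1 : ρ ≤ x) (h2 : x ≤ q2) (h3 : q2 ≤ q3)
    (h4 : q3 ≤ y) (h5 : y ≤ Y) (h6 : Y ≤ Y') (hZ : Y ^ 4 + Y ^ 6 + 1 ≤ Z) :
    lam om m ^ n * (∫ r in x..y, (‖D M a om m u r‖ ^ 2 + (ta M a om m ϑ r - 1) * ‖u r‖ ^ 2)) ≤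
      Z * ((∫ r in ρ..Y', lam om m ^ n *
        (‖D M a om m u r‖ ^ 2 / r ^ 4 + ka M a r om m ^ 2 * ‖u r‖ ^ 2 / r ^ 6)) +
        (∫ r in ρ..q2, lam om m ^ n * d1 G om m u r) + ∫ r in q3..Y, lam om m ^ n * d1 G om m u r) := by
  have cu := hu.cont
  have cD := (sm_D hG hu M a om m).cont
  have ck := (cd_ka M a om m).continuous
  have cd := cont_d1 (om := om) (m := m) hu
  have l0 := (lam_pos om m).le
  have ln := pow_nonneg l0 n
  have xy : x ≤ y := by linarith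
  have Y0 : 0 < Y := by linarith
  have z1 : 1 ≤ Z := by linarith [pow_pos Y0 4, pow_pos Y0 6]
  have cW : ContinuousOn (fun r => lam om m ^ n * (‖D M a om m u r‖ ^ 2 / r ^ 4 +
      ka M a r om m ^ 2 * ‖u r‖ ^ 2 / r ^ 6)) (Icc ρ Y') :=
    continuousOn_const.mul ((ContinuousOn.div (by fun_prop) (by fun_prop) fun r hr =>
      (pow_pos (p0.trans_le hr.1) 4).ne').add (ContinuousOn.div (by fun_prop) (by fun_prop)
      fun r hr => (pow_pos (p0.trans_le hr.1) 6).ne'))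
  have d0 : ∀ r, lam om m * ϑ r ^ 2 * ‖u r‖ ^ 2 ≤ d1 G om m u r := fun r => by
    rw [d1_eq, V_one]
    linarith [sq_mul_le (t1 r) (mul_nonneg l0 (sq_nonneg ‖u r‖)), An_nonneg (A := G) (u r),
      sq_nonneg ‖deriv u r‖]
  have d2 : ∀ r, 0 ≤ lam om m ^ n * d1 G om m u r := fun r =>
    mul_nonneg ln (le_trans (by positivity) (d0 r))
  have e1 : ∫ r in x..y, lam om m ^ n * (‖D M a om m u r‖ ^ 2 + ka M a r om m ^ 2 * ‖u r‖ ^ 2) ≤ _ :=
    (intervalIntegral.integral_mono_on xy (Continuous.intervalIntegrable (by fun_prop) _ _)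
      ((ii xy (cW.mono (Icc_subset_Icc h1 (h5.trans h6)))).const_mul Z) fun r hr => by
        have r0 : 0 < r := by linarith [hr.1]
        have a4 : ∀ j : ℕ, Y ^ j ≤ Z → ∀ t, 0 ≤ t → t ≤ Z * (t / r ^ j) := fun j hj t ht => by
          rw [← mul_div_assoc, le_div_iff₀ (pow_pos r0 j), mul_comm]
          exact mul_le_mul_of_nonneg_right ((pow_le_pow_left₀ r0.le (hr.2.trans h5) j).trans hj) ht
        linarith [mul_le_mul_of_nonneg_left (a4 4 (by linarith [pow_pos Y0 6]) _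
          (sq_nonneg ‖D M a om m u r‖)) ln, mul_le_mul_of_nonneg_left (a4 6 (by
          linarith [pow_pos Y0 4]) _ (mul_nonneg (sq_nonneg (ka M a r om m)) (sq_nonneg ‖u r‖))) ln])
  rw [intervalIntegral.integral_const_mul Z] at e1
  have e2 := mul_le_mul_of_nonneg_left (int_sub cW (fun r hr => by
    have := p0.trans_le hr.1
    positivity) h1 xy (h5.trans h6)) (zero_le_one.trans z1)
  have cT : Continuous fun r => lam om m ^ n * (lam om m * ϑ r ^ 2 * ‖u r‖ ^ 2) := by fun_prop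
  have e3 := int_in h1 h2 le_rfl cT (by fun_prop)
    (fun r _ => mul_le_mul_of_nonneg_left (d0 r) ln) fun r _ => d2 r
  have e4 := int_in le_rfl h4 h5 cT (by fun_prop)
    (fun r _ => mul_le_mul_of_nonneg_left (d0 r) ln) fun r _ => d2 r
  have e5 := int_mono h3 cT (continuous_const (y := (0 : ℝ))) fun r hr => by simp [t2 r hr]
  rw [intervalIntegral.integral_zero] at e5
  have e6 := int_add (f := fun r => lam om m ^ n * (‖D M a om m u r‖ ^ 2 +
    ka M a r om m ^ 2 * ‖u r‖ ^ 2)) (by fun_prop) cT x y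
  rw [← intervalIntegral.integral_const_mul, intervalIntegral.integral_congr (g := fun r =>
    lam om m ^ n * (‖D M a om m u r‖ ^ 2 + ka M a r om m ^ 2 * ‖u r‖ ^ 2) +
    lam om m ^ n * (lam om m * ϑ r ^ 2 * ‖u r‖ ^ 2)) fun r _ => by simp only [ta]; ring, e6]
  linarith [int_split cT x q2 y, int_split cT q2 q3 y, mul_le_mul_of_nonneg_right z1
    (add_nonneg (int_nn (h1.trans h2) d2) (int_nn (h4.trans h5) d2))]

namespace Hy
variable (h : Hy G f ϑ B Ck M a m r0 r1 R v)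
include h

theorem lw (om : ℝ) (j : ℕ) {r : ℝ} (hr : r ∈ Icc r0 R) :
    lam om m ^ (j + 2) * ‖Up 1 M a om m (Up 2 M a om m v) r‖ ^ 2 +
      d1 G om m (Up 1 M a om m (Up 2 M a om m v)) r ≤
      10 * B * (lam om m ^ (j + 2) * V om m 2 v r + Wn G om m (j + 3) v r) ∧
    lam om m ^ (j + 2) * (‖deriv (Up 2 M a om m v) r‖ ^ 2 + lam om m * ‖Up 2 M a om m v r‖ ^ 2) ≤
      10 * B * (lam om m ^ (j + 2) * V om m 2 v r + Wn G om m (j + 3) v r) ∧
    lam om m ^ (j + 2) * ‖(cm f ou).cv M a om m v r‖ ^ 2 + lam om m ^ (j + 2 - 1) *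
      (d1 G om m (Up 1 M a om m (Up 2 M a om m v)) r +
        ‖G.P 0 G.s M a om m (Up 1 M a om m (Up 2 M a om m v)) r‖ ^ 2) ≤
      10 * B * (Wn G om m (j + 4) v r + Wn G om m (j + 3) (G.P (-2) G.s M a om m v) r) ∧
    lam om m ^ (j + 1) * ‖Up 1 M a om m (Up 2 M a om m v) r‖ ^ 2 +
      lam om m ^ (j + 2) * ‖Up 2 M a om m v r‖ ^ 2 + lam om m ^ (j + 3) * ‖v r‖ ^ 2 ≤
      10 * B * Wn G om m (j + 3) v r ∧
    lam om m ^ (j + 2) * V om m 2 v r ≤ Wn G om m (j + 4) v r :=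
  have := low (om := om) (τ := fun _ => 1) h.is h.md h.b1 (h.bo r hr) j zero_le_one rfl rfl rfl rfl
    rfl rfl rfl
  ⟨this.2.2.1, this.2.2.2.1, this.2.2.2.2.2.2⟩

theorem zero_b (j : ℕ) (hR : r0 ≤ R) (C0' : 0 ≤ C) {X : ℝ}
    (hB : X ≤ -pair l M a om m r0 R (G.P 0 G.s M a om m (Up 1 M a om m (Up 2 M a om m v)))
      (Up 1 M a om m (Up 2 M a om m v)) + C0 * Fl + C * ∫ r in r0..R,
        (lam om m ^ (j + 2) * ‖Up 1 M a om m (Up 2 M a om m v) r‖ ^ 2 +
          d1 G om m (Up 1 M a om m (Up 2 M a om m v)) r))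
    (hC : ∀ y : ℝ → S, ContDiff ℝ ∞ y →
      |pair l M a om m r0 R (fun r => ((om * De M a r : ℝ) : ℂ) • I • y r)
        (fun r => Lv M a om m y r + ((2 * r - 2 * M : ℝ) : ℂ) • y r)| ≤
      C * ∫ r in r0..R, lam om m ^ (j + 2) * (‖deriv y r‖ ^ 2 + lam om m * ‖y r‖ ^ 2))
    (hl : ∀ H H' u : ℝ → S, ContDiff ℝ ∞ H → ContDiff ℝ ∞ H' → ContDiff ℝ ∞ u → ∀ p q : ℝ,
      pair l M a om m r0 R (fun r => (p : ℂ) • H r + (q : ℂ) • H' r) u =
        p * pair l M a om m r0 R H u + q * pair l M a om m r0 R H' u) :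
    X ≤ -pair l M a om m r0 R (ou.cv M a om m (G.P (-2) G.s M a om m v)) (ou.cv M a om m v) +
      C0 * Fl + 9 * C * (10 * B * (iL om m j v r0 R + iW G om m (j + 3) v r0 R)) := by
  have hy := h.my (om := om)
  have hu := h.mu (om := om)
  have u1 := hC _ hy.1.cd
  have u2 := hl (ou.cv M a om m (G.P (-2) G.s M a om m v))
    (fun r => ((om * De M a r : ℝ) : ℂ) • I • Up 2 M a om m v r) _ (cd_cv h.sF.cd _ ou_sm)
    ((cd_C (contDiff_const.mul (cd_De M a))).smul (hy.1.cd.const_smul I)) hu.1.cd 1 8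
  rw [show (fun r => Lv M a om m (Up 2 M a om m v) r + ((2 * r - 2 * M : ℝ) : ℂ) •
    Up 2 M a om m v r) = Up 1 M a om m (Up 2 M a om m v) from funext fun r => by
      rw [Up.eq_1 1, one_mul]] at u1
  rw [show G.P 0 G.s M a om m (Up 1 M a om m (Up 2 M a om m v)) = fun r =>
    ((1 : ℝ) : ℂ) • ou.cv M a om m (G.P (-2) G.s M a om m v) r + ((8 : ℝ) : ℂ) •
      ((om * De M a r : ℝ) : ℂ) • I • Up 2 M a om m v r from funext fun r =>
    (P_u h.is h.md G.s r).trans (by rw [cv_cT, cv_oy]; push_cast; module), u2] at hB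
  have cu := hu.1.cont
  have cy := hy.1.cont
  have cy' := (h.is.sm_deriv hy.1).cont
  have cd := cont_d1 (om := om) (m := m) hu.1
  have w := fun {W : ℝ → ℝ} (cW : Continuous W) (k : ∀ r ∈ Icc r0 R, W r ≤ 10 * B *
      (lam om m ^ (j + 2) * V om m 2 v r + Wn G om m (j + 3) v r)) =>
    int_lo (c := 1) (c' := 0) le_rfl hR le_rfl cW cW (h.cL j) (cont_Wn h.is h.md.1 (j + 3)) h.b0
      (fun r => mul_nonneg (pow_pos (lam_pos om m) _).le (V_nonneg _)) (fun r => Wn_nonneg _)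
      fun r hr => by linarith [k r hr]
  rw [cv_ou (v := v), iL, iW]
  linarith [mul_le_mul_of_nonneg_left (w (by fun_prop) fun r hr => (h.lw om j hr).1) C0',
    mul_le_mul_of_nonneg_left (w (by fun_prop) fun r hr => (h.lw om j hr).2.1) C0', (abs_le.1 u1).1]

theorem zero_e (j : ℕ) (hR : r0 ≤ R) (C0' : 0 ≤ C) (h1 : ρ ≤ x) (h2 : x ≤ y) (h3 : y ≤ Y)
    (hE : ∀ u H, G.Md m u → ContDiff ℝ ∞ H → (∫ r in ρ..Y, lam om m ^ (j + 2) * d1 G om m u r) ≤
      -pair l M a om m r0 R H u + C * ∫ r in r0..R,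
        (lam om m ^ (j + 2) * ‖H r - Nc G (fun r => f (M, a, r)) M a om m u r‖ ^ 2 +
          lam om m ^ (j + 2 - 1) * (d1 G om m u r + ‖G.P 0 G.s M a om m u r‖ ^ 2))) :
    lam om m ^ (j + 2) * (∫ r in x..y, d1 G om m (Up 1 M a om m (Up 2 M a om m v)) r) ≤
      -pair l M a om m r0 R (ou.cv M a om m (Nc G (fun r => f (M, a, r)) M a om m v))
        (ou.cv M a om m v) + 9 * C *
        (10 * B * (iW G om m (j + 4) v r0 R + iW G om m (j + 3) (G.P (-2) G.s M a om m v) r0 R)) := by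
  have hu := h.mu (om := om)
  have u1 := hE _ (ou.cv M a om m (Nc G (fun r => f (M, a, r)) M a om m v)) hu
    (cd_cv (cd_Nc h.sf h.md.1.cd) _ ou_sm)
  have e : ∀ r, ou.cv M a om m (Nc G (fun r => f (M, a, r)) M a om m v) r -
      Nc G (fun r => f (M, a, r)) M a om m (Up 1 M a om m (Up 2 M a om m v)) r =
      (cm f ou).cv M a om m v r := fun r => by
    rw [cv_Nc h.sf h.md.1.cd _ ou_sm, cv_ou, add_sub_cancel_left]
  simp only [e] at u1
  have cd := cont_d1 (om := om) (m := m) hu.1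
  have c1 := (cd_cv (M := M) (a := a) (om := om) (m := m) h.md.1.cd _ (cm_sm h.sf _ ou_sm)).continuous
  have c2 := (h.is.sm_P hu.1 0 G.s M a om m).cont
  have ln := (pow_pos (lam_pos om m) (j + 2)).le
  have u2 := int_lo (c := 1) (c' := 0) le_rfl hR le_rfl (by fun_prop) c1.norm (cont_Wn h.is h.md.1 _)
    (cont_Wn h.is h.sF _) h.b0 (fun r => Wn_nonneg _) (fun r => Wn_nonneg _) fun r hr =>
    (one_mul _).le.trans ((h.lw om j hr).2.2.1.trans (by rw [zero_mul, zero_add]))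
  have u3 := int_sub (continuous_const.fun_mul cd).continuousOn (fun r _ => mul_nonneg ln (by
    rw [d1_eq]; exact add_nonneg (V_nonneg 1) (An_nonneg _))) h1 h2 h3
  rw [intervalIntegral.integral_const_mul] at u3
  rw [cv_ou (v := v), iW, iW]
  linarith [mul_le_mul_of_nonneg_left u2 C0', mul_nonneg (mul_nonneg C0' h.b0) (add_nonneg
    (int_nn hR fun r => Wn_nonneg (G := G) (om := om) (m := m) (v := v) (r := r) (j + 4))
    (int_nn hR fun r => Wn_nonneg (G := G) (om := om) (m := m) (v := G.P (-2) G.s M a om m v)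
      (r := r) (j + 3)))]

theorem unc (j : ℕ) {x1 x2 y1 y2 : ℝ} (a1 : r0 ≤ r1) (a2 : x1 ≤ r1) (a3 : x2 ≤ r1) (a4 : r1 ≤ q1)
    (a5 : q1 ≤ q4) (a6 : q4 ≤ y) (a7 : y ≤ y1) (a8 : y ≤ y2) (a9 : y ≤ R) (d0 : 0 < d)
    (pb : ∀ r ∈ Icc r1 y, Pb β M a r ∧ d ≤ De M a r) (hk : 40 * β ^ 2 / d ^ 2 ≤ k) (k1 : 1 ≤ k)
    (e0 : 0 ≤ ε) (C0' : 0 ≤ C)
    (hU : ∀ z : ℝ → S, ContDiff ℝ ∞ z → (∫ r in q1..q4, lam om m * ‖z r‖ ^ 2) ≤
      ε * (∫ r in r1..y, lam om m * (‖D M a om m z r‖ ^ 2 + ka M a r om m ^ 2 * ‖z r‖ ^ 2)) +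
      C * ∫ r in r1..y, ‖z r‖ ^ 2) :
    iL om m j v r0 R ≤ iW G om m (j + 4) v r0 q1 + iW G om m (j + 4) v q4 R + 115 * β ^ 2 * k ^ 2 *
      (ε * (lam om m ^ (j + 2) * (∫ r in x1..y1,
          (‖D M a om m (Up 1 M a om m (Up 2 M a om m v)) r‖ ^ 2 +
            (ta M a om m ϑ r - 1) * ‖Up 1 M a om m (Up 2 M a om m v) r‖ ^ 2)) +
        lam om m ^ (j + 2) * (∫ r in x2..y2, Ou G M a om m (ta M a om m ϑ) (Up 2 M a om m v) r) +
        lam om m ^ (j + 3) * ∫ r in r1..y, Ou G M a om m (ta M a om m ϑ) v r) +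
        C * (10 * B * iW G om m (j + 3) v r0 R)) := by
  have hy := h.my (om := om)
  have hu := h.mu (om := om)
  have cu := hu.1.cont; have cy := hy.1.cont; have cv := h.md.1.cont
  have cD := (sm_D h.is hu.1 M a om m).cont
  have ck := (cd_ka M a om m).continuous
  have cτ := cont_ta (M := M) (a := a) (om := om) (m := m) h.st.continuous
  have cW := cont_Wn (om := om) (m := m) h.is h.md.1
  have l0 := (lam_pos om m).le
  have p := fun n => pow_nonneg l0 n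
  have ry : r1 ≤ y := by linarith
  have tk : ∀ r, ka M a r om m ^ 2 ≤ ta M a om m ϑ r - 1 := fun r => by
    rw [ta]; linarith [mul_nonneg l0 (sq_nonneg (ϑ r))]
  have o : ∀ z : ℝ → S, G.Sm z → ∀ x' y', x' ≤ r1 → y ≤ y' → ∫ r in r1..y, lam om m *
      (‖D M a om m z r‖ ^ 2 + ka M a r om m ^ 2 * ‖z r‖ ^ 2) ≤
      ∫ r in x'..y', Ou G M a om m (ta M a om m ϑ) z r := fun z hz x' y' k1 k2 => by
    have := hz.cont; have := (sm_D h.is hz M a om m).cont
    refine int_in k1 ry k2 (by fun_prop) (cont_Ou h.is hz cτ) (fun r _ => ?_)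
      fun r _ => Ou_nonneg (zero_le_one.trans ta_pos)
    rw [Ou]
    linarith [mul_le_mul_of_nonneg_right (tk r) (mul_nonneg l0 (sq_nonneg ‖z r‖)),
      mul_nonneg l0 (sq_nonneg ‖z r‖), mul_nonneg (zero_le_one.trans (ta_pos (M := M) (a := a)
        (om := om) (m := m) (r := r) (ϑ := ϑ))) (An_nonneg (A := G) (z r))]
  have o0 := int_sc (c := 1) (B := lam om m) (W := fun r => lam om m *
      (‖D M a om m (Up 1 M a om m (Up 2 M a om m v)) r‖ ^ 2 +
        ka M a r om m ^ 2 * ‖Up 1 M a om m (Up 2 M a om m v) r‖ ^ 2))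
    (L := fun r => ‖D M a om m (Up 1 M a om m (Up 2 M a om m v)) r‖ ^ 2 +
      (ta M a om m ϑ r - 1) * ‖Up 1 M a om m (Up 2 M a om m v) r‖ ^ 2) a2 ry a7 (by fun_prop)
    (by fun_prop) l0 (fun r _ => add_nonneg (sq_nonneg _) (mul_nonneg ((sq_nonneg _).trans (tk r))
      (sq_nonneg _))) fun r _ => by
      linarith [mul_le_mul_of_nonneg_right (tk r) (mul_nonneg l0
        (sq_nonneg ‖Up 1 M a om m (Up 2 M a om m v) r‖))]
  have w1 := int_mono (a1.trans a4) (h.cL j) (cW _) fun r hr =>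
    (h.lw om j ⟨hr.1, by linarith [hr.2]⟩).2.2.2.2
  have w2 := int_mono (a6.trans a9) (h.cL j) (cW _) fun r hr =>
    (h.lw om j ⟨by linarith [hr.1], hr.2⟩).2.2.2.2
  have w3 := int_sc (c := 1) a1 ry a9 (by fun_prop) (cW (j + 3)) h.b0 (fun r _ => Wn_nonneg _)
    fun r hr => (one_mul _).le.trans (h.lw om j ⟨a1.trans hr.1, hr.2.trans a9⟩).2.2.2.1
  rw [int_add (by fun_prop) (by fun_prop), int_add (by fun_prop) (by fun_prop)] at w3
  have w4 := int_mono (P := fun r => 115 * β ^ 2 * k ^ 2 *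
      (lam om m ^ (j + 1) * (lam om m * ‖Up 1 M a om m (Up 2 M a om m v) r‖ ^ 2) +
        lam om m ^ (j + 2) * (lam om m * ‖Up 2 M a om m v r‖ ^ 2) +
        lam om m ^ (j + 3) * (lam om m * ‖v r‖ ^ 2))) a5 (h.cL j) (by fun_prop) fun r hr => by
    have b := pb r ⟨a4.trans hr.1, hr.2.trans a6⟩
    have := mul_le_mul_of_nonneg_left (V2_inv (om := om) (m := m) b.1 d0 b.2 hk k1 h.md.1.cd)
      (p (j + 2))
    simp only [pow_add] at this ⊢
    linarith
  rw [intervalIntegral.integral_const_mul (115 * β ^ 2 * k ^ 2), int_add (by fun_prop) (by fun_prop),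
    int_add (by fun_prop) (by fun_prop), intervalIntegral.integral_const_mul (lam om m ^ (j + 1)),
    intervalIntegral.integral_const_mul (lam om m ^ (j + 2)) fun r => lam om m * _,
    intervalIntegral.integral_const_mul (lam om m ^ (j + 3))] at w4
  simp only [intervalIntegral.integral_const_mul (lam om m ^ _)] at w3
  have s0 := mul_le_mul_of_nonneg_left (mul_le_mul_of_nonneg_left o0 e0) (p (j + 1))
  have s1 := mul_le_mul_of_nonneg_left (mul_le_mul_of_nonneg_left (o _ hy.1 x2 y2 a3 a8) e0)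
    (p (j + 2))
  have s2 := mul_le_mul_of_nonneg_left (mul_le_mul_of_nonneg_left (o _ h.md.1 r1 y le_rfl le_rfl) e0)
    (p (j + 3))
  rw [iL, int_split (h.cL j) r0 q1 R, int_split (h.cL j) q1 q4 R]
  simp only [iW]
  refine le_trans ?_ (add_le_add (add_le_add w1 w2) (w4.trans (mul_le_mul_of_nonneg_left ?_
    (by positivity))))
  · linarith
  · have := pow_succ (lam om m) (j + 1)
    rw [show lam om m ^ (j + 2) = _ from this] at *
    linarith [mul_le_mul_of_nonneg_left (hU _ hu.1.cd) (p (j + 1)),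
      mul_le_mul_of_nonneg_left (hU _ hy.1.cd) (mul_nonneg (p (j + 1)) l0),
      mul_le_mul_of_nonneg_left (hU _ h.md.1.cd) (p (j + 3)), mul_le_mul_of_nonneg_left w3 C0']

theorem lhs (j i : ℕ) {τ : ℝ → ℝ} (cτ : Continuous τ) (t0 : ∀ r, 0 ≤ τ r) (a1 : r1 ≤ x)
    (a2 : x ≤ x') (a3 : x' ≤ y) (d0 : 0 < d) (pb : ∀ r ∈ Icc r1 y, Pb β M a r ∧ d ≤ De M a r)
    (hk : 40 * β ^ 2 / d ^ 2 ≤ k) (hi : i ≤ 1) (t1 : ∀ r ∈ Icc x x', lam om m ^ i ≤ τ r) :
    ∫ r in x..x', lam om m ^ (j + i) * d1 G om m v r ≤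
      (k + 1) * (lam om m ^ j * ∫ r in r1..y, Ou G M a om m τ v r) := by
  have p := fun n => (pow_pos (lam_pos om m) n).le
  have k0 : 0 ≤ k := le_trans (by positivity) hk
  rw [intervalIntegral.integral_const_mul, ← mul_assoc]
  refine int_sc a1 a2 a3 (cont_d1 h.md.1) (cont_Ou h.is h.md.1 cτ) (mul_nonneg (by linarith) (p j))
    (fun r _ => Ou_nonneg (t0 r)) fun r hr => ?_
  have b := pb r ⟨a1.trans hr.1, hr.2.trans a3⟩
  have := mul_le_mul_of_nonneg_left (d1_inv (G := G) (v := v) b.1 d0 b.2 hk (p i) (t1 r hr)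
    ((pow_le_pow_right₀ (one_le_lam om m) hi).trans_eq (pow_one _))) (p j)
  rw [pow_add]; linarith

end Hy

end Vale.Agent.P354RM
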